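import Vale.Agent.N352.U.Md

/-!
# N352, block U: the fibres of a theory, interface
-/

set_option linter.all false

open Filter Topology

namespace Vale.Agent.N352.U

open Vale.Agent.P352 Vale.Agent.P352.GF Vale.Agent.P352.BW Vale.Agent.P352.H246
open Vale.Agent.P352.H496 Vale.Agent.P352.H755 Vale.Agent.P352.H15
open Vale.Agent.P352X Vale.Agent.P352X.EB
open Vale.Agent.P352X.EG (Cg)
open Vale.Agent.P132 (ModData)
open UniformSpace (Completion)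

noncomputable section

universe u

variable {D : Type u} [NormedAddCommGroup D] [InnerProductSpace ℂ D]

/-- a fibre of the Hilbert space of `c` -/
structure Fib (c : Cg D) (Z : VonNeumannAlgebra (Completion D)) where
  E : Type u
  [nE : NormedAddCommGroup E]
  [iE : InnerProductSpace ℂ E]
  b : Fb Z c.Om (Completion E)

attribute [instance] Fib.nE Fib.iE

variable {c : Cg D} {Z : VonNeumannAlgebra (Completion D)}

/-- the theory `k` is the fibre of `c`; the fields `B` in `F0` have values `e B` -/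
structure Lnk (y : Fib c Z) (F0 : Set (Fld D)) (R : Set ℝ) (k : Cg y.E) (e : Fld D → Fld y.E) :
    Prop where
  om : y.b.φ c.Om = k.Om
  U : ∀ s L a, Ug c.Q s L a ∈ y.b.P ∧ y.b.π (Ug c.Q s L a) = Ug k.Q s L a
  Γ : c.Γ ∈ y.b.P ∧ y.b.π c.Γ = k.Γ
  uv : UVac k.Q
  mf : MfAll k.Q
  fs : FSL k.Q
  vac : ∀ B ∈ F0, ∀ f, IsTest f → ((B f c.Q.vac : D) : Completion D) ∈ y.b.L ∧
    y.b.φ (B f c.Q.vac : D) = (e B f k.Q.vac : y.E)
  st0 : ∀ T : Ix → Ix → Fld D, (∀ m n, T m n ∈ F0) → Stress0 c.Q T → ND.PCh c.Q T c.A →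
    Stress0 k.Q (fun m n => e (T m n)) ∧ ND.PCh k.Q (fun m n => e (T m n)) k.A
  str : ∀ T : Ix → Ix → Fld D, (∀ m n, T m n ∈ F0) → c.Q.IsStress T → ND.PCh c.Q T c.A →
    k.Q.IsStress fun m n => e (T m n)
  scl : ∀ B F C, B ∈ F0 → c.Q.bose B → (∀ p, C p ∈ F0) → Scl c.Q B F C →
    Scl k.Q (e B) F fun p => e (C p)
  net : ∀ O, ∀ Y ∈ c.N O, Y ∈ y.b.P → y.b.π Y ∈ k.N O
  com : ∀ O, IsOpen O → ∀ Y', (∀ Y ∈ c.N O, Y ∈ y.b.P → y.b.π Y * Y' = Y' * y.b.π Y) →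
    Y' ∈ (k.N O).commutant
  md : ∀ r ∈ R, ∀ (E : ModData (c.N (Rc r 0)) c.Om) (E' : ModData (k.N (Rc r 0)) k.Om) t,
    E.U t ∈ y.b.P ∧ y.b.π (E.U t) = E'.U t

/-- row PACK: systems of fibres that see countably many given fields, operators and vectors -/
def PACK (c : Cg D) (Z : VonNeumannAlgebra (Completion D)) : Prop :=
  ∀ (F0 : Set (Fld D)) (ops : Set (Completion D →L[ℂ] Completion D)) (vs : Set (Completion D))
    (R : Set ℝ), F0.Countable → ops.Countable → vs.Countable → R.Countable →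
    (∀ B ∈ F0, c.Q.fld B) → (∀ Y ∈ ops, Y ∈ Z.commutant) → (∀ r ∈ R, 0 ≤ r) →
    ∃ (X : Type u) (F : Filter X) (y : X → Fib c Z) (S : Submodule ℂ (Completion D)),
      Sys F S (fun x => (y x).b) ∧ IsClosed (S : Set (Completion D)) ∧ c.Om ∈ S ∧
      (∀ v ∈ vs, v ∈ S) ∧ (∀ Y ∈ ops, ∀ v ∈ S, Y v ∈ S ∧ star Y v ∈ S) ∧
      (∀ B ∈ F0, ∀ f, IsTest f → ((B f c.Q.vac : D) : Completion D) ∈ S) ∧
      ∀ᶠ x in F, ∃ k e, Lnk (y x) F0 R k e

/-- the dependence of `K` on the plane, for three planes -/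
def TRI (c : G.Ctx D) : Prop := ∀ (a u : Fin 3 → ℝ) ψ, ∑ i, a i = 0 → ∑ i, a i * u i = 0 →
  ∑ i, a i * u i ^ 2 = 2 → (∀ i, Dm (c.Ky (u i • vb)) ψ) → Dm (Pb c.Q) ψ →
  ∑ i, (a i : ℂ) • gen (c.Ky (u i • vb)) ψ = (4 : ℂ) • gen (Pb c.Q) ψ

/-- row NLG: no logarithms -/
def NLG (c : Cg D) (Z : VonNeumannAlgebra (Completion D)) : Prop := PACK c Z → FSL c.Q →
  ∀ T, Stress0 c.Q T → ND.PCh c.Q T c.A → NoLog c.Q T

/-- row GXI: the group relations -/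
def GXI (c : Cg D) (Z : VonNeumannAlgebra (Completion D)) : Prop := Ctr c Z → PACK c Z →
  ∀ T, c.Q.IsStress T → ND.PCh c.Q T c.A → ∃ g : G.Ctx D, g.toCg = c ∧ g.T = T ∧ G.GX g

end

end Vale.Agent.N352.U
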