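import Vale.Agent.N352.U.Pft
import Vale.Agent.N352.U.Pk
import Vale.Agent.N352.X.Ops
import Vale.Agent.N352.X.FIN
import Vale.Agent.P352NA.MOM.R1
import Vale.Agent.P352X.EH.FSG

/-!
# N352, block U: the assembly, from the rows (helper79)
-/

set_option linter.all false

open Filter Topology Set

namespace Vale.Agent.N352.U

open Vale.Agent.P352 Vale.Agent.P352.GF Vale.Agent.P352.BW Vale.Agent.P352.H246
open Vale.Agent.P352.H496 Vale.Agent.P352.H755 Vale.Agent.P352.H15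
open Vale.Agent.P352X Vale.Agent.P352X.EB
open Vale.Agent.P352X.EG (Cg)
open UniformSpace (Completion)
open Real (exp)
open G G.X

noncomputable section

universe u

variable {D : Type u} [NormedAddCommGroup D] [InnerProductSpace ℂ D] {g : G.Ctx D}
  {T : Ix → Ix → Fld D}

namespace As

/-- the minimal context -/
def toX (g : G.Ctx D) (h : G.GRP g) : X.Ctx D :=
  ⟨g.toCg, g.T, g.SK, g.l, g.hT, g.hl, h.ugK.uni, h.ugK.zero', h.K_vac, h.gK⟩

theorem bw (h : G.GRP g) : Bw g.toCg := by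
  obtain ⟨E, hE⟩ := h.md 0 le_rfl
  have key : ∀ s, ∃ a, Ip g.toCg (E.U s) (scp (exp a) (exp (-a))) := fun s =>
    ⟨-(2 * Real.pi * s), by
      rw [hE, zero_mul, h.ugK.zero', one_mul]
      exact ip_bo _ _⟩
  have e := KDa.rc_zero
  clear hE
  generalize Rc 0 0 = O at E key e
  subst e
  exact ⟨E, key⟩

theorem e0 (e : EG.E0 g.toCg) (h : G.GX g) : E0 (toX g h.toGRP) := by
  refine ⟨e, h.flow, h.prw, dual_row, dens_row (bw h.toGRP), fun s hs Z hZ => ?_⟩
  refine rc_gen (bw h.toGRP) fun r hr X hX =>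
    comm_mul hX (conj_comm (h.ugK.uni s) (fun X hX => ?_) hZ)
  have p : 0 < r + s := add_pos_of_pos_of_nonneg hr hs
  have := Kd.geo h.toGRP hr p X hX
  rw [add_sub_cancel_left] at this
  exact g.hN.mono _ _ (rc_w0 p.le) _ this

theorem pf (h : G.GRP g) (p : G.PF g) : X.PF (toX g h) := fun q => by
  have tr : ∀ K a b, G.Tr g.toCg K a b → X.Tr (toX g h) K a b := fun K a b k => by
    induction k with
    | zero => exact .zero
    | fld B B' f a b d e => exact .fld B B' f a b d e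
    | add _ _ _ _ _ _ a b => exact .add _ _ _ _ a b
    | smul z _ _ _ a => exact .smul z _ _ a
  obtain ⟨N, k⟩ := p q.B q.B' q.h q.h' q.a
  refine ⟨N, fun T f hf => ?_⟩
  obtain ⟨η, η', a1, a2, a3, a4, a5⟩ := k f ⟨hf.1, hf.2.1, fun z hz => NA.rc_be (hf.2.2 hz)⟩
  have e : Icc 0 T ⊆ {t | 0 ≤ t ∧ Reg (-t) f} := fun s hs => ⟨hs.1, fun z hz => by
    rw [neg_neg]
    exact NA.rc_rh (NA.rc_le hs (hf.2.2 hz))⟩
  exact ⟨η, η', a1, a2, fun s hs => tr _ _ _ (a3 s hs.1 (e hs).2), a4.sub e, a5.sub e⟩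

theorem cov {c : Cg D} (h : COV0 c) : G.COV c.Q := fun B B' a b d =>
  let ⟨e, n, q, κ, h1, h2⟩ := h B B' a b d
  ⟨e, n, fun i => (q i).B, fun i => (q i).B', κ, fun i => ⟨(q i).h, (q i).h', (q i).a⟩, h1, h2⟩

/-- the extension with the local potential -/
theorem fin (e : EG.E0 g.toCg) (h : G.GX g) (hM : MfAll g.Q) (hF : FSL g.Q) :
    FIN (toX g h.toGRP) := by
  have t := e0 e h
  have h0 : COV0 g.toCg := cov0_row hM hF
  have p := pf h.toGRP (pft g h.toGRP (eet_of h.ee) (cov h0))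
  have hc : X.COV (toX g h.toGRP).toCg := cov_row h0
  have t2 : E2 (toX g h.toGRP) :=
    ⟨t, hc, wrd_row t hc p NA.rig_row, loc_row t hc p NA.rig_row⟩
  exact fin_of t hc h0 (ops_row t2 _) fun e w F _ => afw_row t2 e w F

end As

/-- the conclusion -/
def CNF (c : Cg D) (T : Ix → Ix → Fld D) : Prop :=
  ∃ (D' : Submodule ℂ (Completion D)) (Q' : Theory D') (G' : D' → D') (e : Fld D → Fld D')
    (L : Fld D'), ExtC c.Q c.Γ Q' G' e ∧ AfW c.N Q' (↑) ∧ Q'.IsStress (fun m n => e (T m n)) ∧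
    Q'.IsScalar L 2 ∧
    (∀ f v, IsTest f → tr (fun m n => e (T m n)) f v = (3 : ℂ) • L (box f) v) ∧
    ∀ Q'' : Theory D', IsEnl Q' Q'' → IsImpr Q'' (fun m n => e (T m n))
      (improve (fun m n => e (T m n)) L) ∧ ConfAct Q'' (improve (fun m n => e (T m n)) L) ∧
      (Gr Q'' G' → CFS Q'' G' (improve (fun m n => e (T m n)) L) ∧
      ∀ B, Q'.fld B → ∃ (n : ℕ) (p : Fin n → Bool) (C : Fin n → Fld D'),
        (∀ i, DescS Q'' G' (improve (fun m n => e (T m n)) L) (p i) (C i)) ∧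
        ∀ f v, IsTest f → B f v = ∑ i, C i f v)

variable (D) in
/-- the rows of block U -/
structure Rows : Prop where
  e0 : ∀ c : Cg D, EG.E0 c
  ctr : ∀ c : Cg D, CTR c
  pack : ∀ (c : Cg D) Z, Ctr c Z → IVac c.Q → MfAll c.Q → FSL c.Q → PACK c Z
  nlg : ∀ (c : Cg D) Z, Ctr c Z → IVac c.Q → MfAll c.Q → NLG c Z
  gxi : ∀ (c : Cg D) Z, IVac c.Q → MfAll c.Q → FSL c.Q → GXI c Z
  mixi : ∀ c : Cg D, MIXI c
  confi : ∀ x : X.Ctx D, CONFI x

namespace Rows

variable (R : Rows D) (c : Cg D) (hI : IVac c.Q) (hM : MfAll c.Q) (hF : FSL c.Q)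
include R hI hM hF

/-- there are no logarithms in dimension four -/
theorem nolog (hT : Stress0 c.Q T) (hP : ND.PCh c.Q T c.A) : NoLog c.Q T := by
  obtain ⟨N, h, Z, z, -⟩ := R.ctr c hI
  exact R.nlg _ Z z hI hM (R.pack _ Z z hI hM hF) hF T hT hP

/-- conformal invariance for a stress tensor of dimension four -/
theorem conf (hT : c.Q.IsStress T) (hP : ND.PCh c.Q T c.A) : CNF c T := by
  obtain ⟨N, h, Z, z, b⟩ := R.ctr c hI
  obtain ⟨g, e1, rfl, x⟩ := R.gxi ⟨_, _, _, _, N, h⟩ Z hI hM hF z (R.pack _ Z z hI hM hF) T hT hP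
  obtain ⟨c', T, SK, l, bt, hT', hl⟩ := g
  obtain rfl : c' = _ := e1
  obtain ⟨D', Q', G', e, L, h1, h2, h3⟩ :=
    R.confi (As.toX _ x.toGRP) hI hM hF (As.fin (R.e0 _) x hM hF)
  exact ⟨D', Q', G', e, L, h1, fun a a' y B B' f p q r k d i Y hY =>
    h2 a a' y B B' f p q r k d i Y (comm_anti (b a a' y p q r) Y hY), h3⟩

/-- **scale invariant theories with a graded local net are conformally invariant** -/
theorem final (hT : Stress0 c.Q T) (hP : ND.PCh c.Q T c.A) :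
    ∃ S, c.Q.IsStress S ∧ ND.PCh c.Q S c.A ∧ CNF c S :=
  have ⟨S, a, b⟩ := EG.H.st T hF (R.nolog c hI hM hF hT hP) hT hP
  ⟨S, a, b, R.conf c hI hM hF a b⟩

end Rows

end

end Vale.Agent.N352.U
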