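import Vale.Agent.N352.U.Pk
import Vale.Agent.N352.X.Net

/-!
# N352, block U: the group relations, from the fibres (helper72)
-/

set_option linter.all false

open Filter Topology Set
open scoped SchwartzMap

namespace Vale.Agent.N352.U

open Vale.Agent.P352 Vale.Agent.P352.GF Vale.Agent.P352.BW Vale.Agent.P352.H246
open Vale.Agent.P352.H496 Vale.Agent.P352.H755 Vale.Agent.P352.H15
open Vale.Agent.P352X Vale.Agent.P352X.EB
open Vale.Agent.P352X.EG (Cg)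
open Vale.Agent.P132 (ModData)
open UniformSpace (Completion)
open Real (exp log)
open Complex (I)

noncomputable section

universe u

/-- what holds in a theory with a unique vacuum -/
structure FX {D : Type u} [NormedAddCommGroup D] [InnerProductSpace ℂ D] (g : G.Ctx D) : Prop
    extends G.GRP g where
  flow : G.FLOW g
  prw : ∀ f, In W0 f → Pr (g.N W0) g.Om (g.l f) (g.l (bar f))
  tri : TRI g

/-- row FT: the theorem for the fibres -/
def FT : Prop := ∀ (E : Type u) [NormedAddCommGroup E] [InnerProductSpace ℂ E] (k : Cg E)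
  (T : Ix → Ix → Fld E), UVac k.Q → MfAll k.Q → FSL k.Q → k.Q.IsStress T → ND.PCh k.Q T k.A →
    ∃ g : G.Ctx E, g.toCg = k ∧ g.T = T ∧ FX g

variable {D : Type u} [NormedAddCommGroup D] [InnerProductSpace ℂ D] {c : Cg D}
  {Z : VonNeumannAlgebra (Completion D)}

theorem ee_tri {g : G.Ctx D} (t : TRI g) : G.EE g := fun lo hi ψ hK hP => by
  rcases le_or_gt hi lo with h | h
  · exact ⟨0, 0, fun u hu => absurd (hu.1.trans hu.2) (not_lt.2 h)⟩
  obtain ⟨u1, a1, b1⟩ := exists_between h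
  obtain ⟨u2, a2, b2⟩ := exists_between b1
  set E := fun u : ℝ => gen (g.Ky (u • vb)) ψ
  set P := gen (Pb g.Q) ψ
  have n0 : (u2 - u1 : ℂ) ≠ 0 := by exact_mod_cast (sub_pos.2 a2).ne'
  refine ⟨(u2 - u1 : ℂ)⁻¹ • ((u2 : ℂ) • E u1 - (u1 : ℂ) • E u2) + (2 * u1 * u2 : ℂ) • P,
    (u2 - u1 : ℂ)⁻¹ • (E u2 - E u1) - (2 * (u1 + u2) : ℂ) • P, fun u hu => ?_⟩
  show E u = _
  by_cases e1 : u = u1
  · subst e1
    match_scalars <;> field_simp <;> ring
  by_cases e2 : u = u2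
  · subst e2
    match_scalars <;> field_simp <;> ring
  have n0' := (sub_pos.2 a2).ne'
  have n1 := sub_ne_zero.2 e1
  have n2 := sub_ne_zero.2 e2
  have m : ∀ i, ![u, u1, u2] i ∈ Ioo lo hi := fun i => by
    fin_cases i
    exacts [hu, ⟨a1, b1⟩, ⟨a1.trans a2, b2⟩]
  have := t ![2 / ((u - u1) * (u - u2)), 2 / ((u - u1) * (u2 - u1)), -2 / ((u - u2) * (u2 - u1))]
    ![u, u1, u2] ψ (by simp only [Fin.sum_univ_three, Matrix.cons_val]; field_simp; ring)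
    (by simp only [Fin.sum_univ_three, Matrix.cons_val]; field_simp; ring)
    (by simp only [Fin.sum_univ_three, Matrix.cons_val]; field_simp; ring) (fun i => hK _ (m i)) hP
  simp only [Fin.sum_univ_three, Matrix.cons_val] at this
  have n1' : (u - u1 : ℂ) ≠ 0 := by exact_mod_cast n1
  have n2' : (u - u2 : ℂ) ≠ 0 := by exact_mod_cast n2
  linear_combination (norm := match_scalars <;> field_simp <;> ring)
    ((u - u1) * (u - u2) / 2 : ℂ) • this

section hilbert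

variable {H K : Type*} [NormedAddCommGroup H] [InnerProductSpace ℂ H] [CompleteSpace H]
  [NormedAddCommGroup K] [InnerProductSpace ℂ K] [CompleteSpace K] {Z : VonNeumannAlgebra H}
  {Ω : H} {b : Fb Z Ω K} {A B : H →L[ℂ] H} {A' B' : K →L[ℂ] K}

/-- the operator `A` has the value `A'` -/
def Fb.Rl (b : Fb Z Ω K) (A : H →L[ℂ] H) (A' : K →L[ℂ] K) : Prop := A ∈ b.P ∧ b.π A = A'

theorem Fb.Rl.mul (h : b.Rl A A') (k : b.Rl B B') : b.Rl (A * B) (A' * B') :=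
  ⟨mul_mem h.1 k.1, by rw [Fb.π_mul h.1 k.1, h.2, k.2]⟩

theorem Fb.Rl.star (h : b.Rl A A') : b.Rl (star A) (star A') :=
  ⟨star_mem h.1, by rw [Fb.π_star h.1, h.2]⟩

theorem Fb.Rl.cast (h : b.Rl A A') (e : A' = B') : b.Rl A B' := e ▸ h

theorem Fb.Rl.ap (h : b.Rl A A') {v : H} (hv : v ∈ b.L) : b.φ (A v) = A' (b.φ v) := by
  rw [← h.2, Fb.ap h.1 hv]

theorem ex_slope {W : ℝ → H →L[ℂ] H} {ψ a : H} (h0 : W 0 = 1) (h : Gn W ψ a) :
    ∃ t : ℕ → ℝ, Tendsto t atTop (𝓝[≠] 0) ∧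
      Summable fun n => ‖I • a - ((t n)⁻¹ : ℂ) • (W (t n) ψ - ψ)‖ ^ 2 := by
  have k := hasDerivAt_iff_tendsto_slope_zero.1 h
  simp only [zero_add, h0, ContinuousLinearMap.one_apply] at k
  have e : ∀ n : ℕ, ∃ t : ℝ, (t ≠ 0 ∧ |t| < (1 / 2) ^ n) ∧
      ‖I • a - (t⁻¹ : ℂ) • (W t ψ - ψ)‖ < (1 / 2) ^ n := fun n => by
    have p : (0 : ℝ) < (1 / 2) ^ n := by positivity
    have j : ∀ᶠ t : ℝ in 𝓝[≠] 0, t ≠ 0 ∧ t ∈ Metric.ball 0 ((1 / 2) ^ n) :=
      inter_mem self_mem_nhdsWithin (nhdsWithin_le_nhds (Metric.ball_mem_nhds 0 p))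
    refine ((Metric.tendsto_nhds.1 k _ p).and j).exists.imp fun t q =>
      ⟨⟨q.2.1, by simpa using q.2.2⟩, ?_⟩
    rw [← dist_eq_norm, dist_comm, ← Complex.ofReal_inv, Complex.coe_smul]
    exact q.1
  choose t a1 a2 using e
  have g : Tendsto (fun n : ℕ => ((1 : ℝ) / 2) ^ n) atTop (𝓝 0) :=
    tendsto_pow_atTop_nhds_zero_of_lt_one (by norm_num) (by norm_num)
  refine ⟨t, tendsto_nhdsWithin_iff.2 ⟨squeeze_zero_norm (fun n => (a1 n).2.le) g,
    .of_forall fun n => (a1 n).1⟩, .of_nonneg_of_le (fun _ => sq_nonneg _) (fun n => ?_)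
    summable_geometric_two⟩
  nlinarith [a2 n, norm_nonneg (I • a - ((t n)⁻¹ : ℂ) • (W (t n) ψ - ψ)),
    pow_le_one₀ (n := n) (show (0 : ℝ) ≤ 1 / 2 by norm_num) (by norm_num)]

end hilbert

/-- generators pass to the fibres -/
theorem ex_gn {W : ℝ → Completion D →L[ℂ] Completion D} {ψ a : Completion D} (h0 : W 0 = 1)
    (h : Gn W ψ a) : ∃ vs : Set (Completion D), vs.Countable ∧ a ∈ vs ∧
      ∀ (X : Type u) (F : Filter X) (y : X → Fib c Z) S, Sys F S (fun x => (y x).b) → vs ⊆ S →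
        ∀ᶠ x in F, a ∈ (y x).b.L ∧ ∀ W', UG W' → (∀ t, (y x).b.Rl (W t) (W' t)) →
          Gn W' ((y x).b.φ ψ) ((y x).b.φ a) := by
  obtain ⟨t, t1, t2⟩ := ex_slope h0 h
  refine ⟨{a, ψ} ∪ range fun n => W (t n) ψ, (toFinite _).countable.union (countable_range _),
    by simp, fun X F y S s m => ?_⟩
  have ma : a ∈ S := m (by simp)
  have mp : ψ ∈ S := m (by simp)
  filter_upwards [s.mem ma, s.mem mp, s.lim (S.smul_mem I ma) (fun n => S.smul_mem _
    (S.sub_mem (m (.inr ⟨n, rfl⟩)) mp)) t2] with x p q r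
  refine ⟨p, fun W' g e => g.gn_of_slope (l := map t atTop) t1 (tendsto_map'_iff.2 ?_)⟩
  rw [← (y x).b.smul I a p]
  refine r.2.2.congr fun n => ?_
  have := Fb.am (e (t n)).1 q
  rw [(y x).b.smul _ _ (sub_mem this q), Fb.sub this q, (e _).ap q, ← Complex.ofReal_inv,
    Complex.coe_smul]
  rfl

section link

variable {y : Fib c Z} {F0 : Set (Fld D)} {R : Set ℝ} {k : Cg y.E} {e : Fld D → Fld y.E}
  (L : Lnk y F0 R k e)
include L

theorem Lnk.ut (a : V) : y.b.Rl (Ut c.Q a) (Ut k.Q a) := L.U _ _ _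

theorem Lnk.sc (r s : ℝ) : y.b.Rl (G.Usc c.Q r s) (G.Usc k.Q r s) :=
  Fb.Rl.mul (L.U _ _ _) (L.U _ _ _)

theorem Lnk.ga (w : R2) : y.b.Rl (G.Ga c.Q w) (G.Ga k.Q w) := Fb.Rl.mul (L.U _ _ _) (L.U _ _ _)

theorem Lnk.pot {T : Ix → Ix → Fld D} {l : Fn → Completion D} (h0 : ∀ m n, T m n ∈ F0)
    (hl : IsPot c.Q T l) (m : ∀ f, IsTest f → l f ∈ y.b.L)
    (ct : Continuous fun g => y.b.φ (l (ev g))) :
    IsPot k.Q (fun m n => e (T m n)) fun f => y.b.φ (l f) := by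
  refine ⟨fun f g z a b => ?_, ct, fun f hf => ?_, fun s Λ a f v hs hL hf => ?_⟩
  · rw [hl.lin f g z a b, y.b.add _ (m f a) _ (Submodule.smul_mem _ _ (m g b)),
      y.b.smul _ _ (m g b)]
  · have p := fun i => L.vac _ (h0 i i) f hf
    rw [← y.b.smul _ _ (m _ (Ap.test_box hf)), hl.trace f hf, GF.tr, GF.tr,
      ← Completion.coe_toComplL (𝕜 := ℂ), ← Completion.coe_toComplL (𝕜 := ℂ)]
    simp only [map_sum, map_smul, Completion.coe_toComplL]
    rw [Fb.sum _ fun i => Submodule.smul_mem _ _ (p i).1]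
    exact Finset.sum_congr rfl fun i _ => by rw [y.b.smul _ _ (p i).1, (p i).2]
  · have h3 : ((s ^ 2 : ℝ) : ℂ) ≠ 0 := Complex.ofReal_ne_zero.2 (by positivity)
    rw [← Grp.coe hs hL, ← Grp.ug_inner hs hL a (v : Completion y.E),
      ← Fb.Rl.ap (L.U s Λ a) (m _ (Ap.test_sim hs hL a hf)), G.Sq.pot hl a hs hL hf,
      ← Complex.coe_smul, y.b.smul _ _ (m f hf), inner_smul_right, Complex.ofReal_inv,
      mul_inv_cancel_left₀ h3]

end link

/-- the group `exp (i s K)`, for `s < 1` -/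
def sk0 (E : ModData (c.N (Rc 1 0)) c.Om) (s : ℝ) : Completion D →L[ℂ] Completion D :=
  E.U (-log (1 - s) / (2 * Real.pi)) * G.Bo c.Q (-log (1 - s))

/-- the group `exp (i s K)` -/
def sk (E : ModData (c.N (Rc 1 0)) c.Om) (s : ℝ) : Completion D →L[ℂ] Completion D :=
  if s ≤ 0 then sk0 E s else star (sk0 E (-s))

/-- a good fibre -/
structure Gp (y : Fib c Z) (l : Fn → Completion D) (R : Set ℝ) (g : G.Ctx y.E) : Prop
    extends FX g where
  lk : ∃ F0 e, Lnk y F0 R g.toCg e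
  pot : ∀ f, IsTest f → l f ∈ y.b.L ∧ y.b.φ (l f) = g.l f

section good

variable {y : Fib c Z} {l : Fn → Completion D} {R : Set ℝ} {g : G.Ctx y.E} (p : Gp y l R g)
include p

theorem Gp.mo {r : ℝ} (h : r ∈ R) (hr : 0 ≤ r) (E : ModData (c.N (Rc r 0)) c.Om) (t : ℝ) :
    y.b.Rl (E.U t) (g.SK (r * (1 - exp (-(2 * Real.pi * t)))) * G.Bo g.Q (-(2 * Real.pi * t))) := by
  obtain ⟨_, _, L⟩ := p.lk
  obtain ⟨E', k⟩ := p.toGRP.md r hr
  exact k t ▸ L.md r h E E' t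

theorem Gp.sk (h : 1 ∈ R) (E : ModData (c.N (Rc 1 0)) c.Om) (s : ℝ) :
    y.b.Rl (sk E s) (g.SK s) := by
  obtain ⟨_, _, L⟩ := p.lk
  have k : ∀ s, s ≤ 0 → y.b.Rl (sk0 E s) (g.SK s) := fun s hs => by
    refine ((p.mo h zero_le_one E _).mul (B' := G.Bo g.Q (-log (1 - s))) (L.sc _ _)).cast ?_
    rw [mul_div_cancel₀ _ (by positivity), neg_neg, Real.exp_log (by linarith), one_mul,
      sub_sub_cancel, mul_assoc]
    exact (congrArg _ ((G.Sq.ugB g.toCg).mul_inv _)).trans (mul_one _)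
  unfold U.sk
  split_ifs with hs
  · exact k s hs
  · exact (k _ (by linarith)).star.cast (by rw [p.ugK.star_eq, neg_neg])

end good

variable (ft : FT.{u}) (hp : PACK c Z) {T : Ix → Ix → Fld D} (hT : c.Q.IsStress T)
  (hA : ND.PCh c.Q T c.A) {l : Fn → Completion D} (hl : IsPot c.Q T l)
include ft hp hT hA hl

/-- generic fibres are good -/
theorem ex_gp {ops : Set (Completion D →L[ℂ] Completion D)} {vs : Set (Completion D)} {r : ℝ}
    (h1 : ops.Countable) (h2 : vs.Countable) (h3 : ∀ Y ∈ ops, Y ∈ Z.commutant) (hr : 0 ≤ r) :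
    ∃ (X : Type u) (F : Filter X) (y : X → Fib c Z) (S : Submodule ℂ (Completion D)),
      Sys F S (fun x => (y x).b) ∧ c.Om ∈ S ∧ vs ⊆ S ∧
      (∀ Y ∈ ops, ∀ v ∈ S, Y v ∈ S ∧ star Y v ∈ S) ∧ (∀ f, IsTest f → l f ∈ S) ∧
      ∀ᶠ x in F, ∃ g, Gp (y x) l {1, r} g := by
  obtain ⟨κ, hκ⟩ := hl.exists_clm
  let Λ : Sch →L[ℂ] Completion D := κ ∘L SchwartzMap.compCLMOfContinuousLinearEquiv ℂ
    (EuclideanSpace.equiv (Fin 4) ℝ)
  have hΛ : ∀ f, Λ f = l (ev f) := fun f => hκ _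
  obtain ⟨X, F, y, S, s, a1, a2, a3, a4, -, a6⟩ := hp (range fun q : Ix × Ix => T q.1 q.2) ops
    (vs ∪ range fun j => Λ (tot V j)) {1, r} (countable_range _) h1 (h2.union (countable_range _))
    (toFinite _).countable (by rintro _ ⟨q, rfl⟩; exact c.Q.bose_fld _ (hT.bose _ _)) h3
    (by rintro _ (rfl | rfl); exacts [zero_le_one, hr])
  have m : ∀ f, Λ f ∈ S := fun f => a1.closure_subset
    (tot_mem Λ S (fun j => S.le_topologicalClosure (a3 _ (.inr ⟨j, rfl⟩))) f)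
  refine ⟨X, F, y, S, s, a2, fun v hv => a3 v (.inl hv), a4, ?_, ?_⟩
  · rintro _ ⟨f, rfl⟩
    exact hΛ f ▸ m f
  filter_upwards [a6, s.temp V Λ m] with x ⟨k, e, L⟩ q
  have h0 : ∀ m n, T m n ∈ range fun q : Ix × Ix => T q.1 q.2 := fun m n => ⟨(m, n), rfl⟩
  obtain ⟨g, rfl, e2, t⟩ := ft _ k _ L.uv L.mf L.fs (L.str T h0 hT hA)
    (L.st0 T h0 ⟨hT.bose, hT.symm, hT.herm, fun m n L a f v => hT.cov m n 1 L a f v one_pos,
      hT.conserved, hT.charge⟩ hA).2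
  have m' : ∀ f, IsTest f → l f ∈ (y x).b.L := by
    rintro _ ⟨f, rfl⟩
    exact hΛ f ▸ q.1 f
  exact ⟨g, t, ⟨_, e, L⟩, fun f hf => ⟨m' f hf, (e2 ▸ g.hl).unique
    (L.pot h0 hl m' (by simpa only [hΛ] using q.2)) f hf⟩⟩

theorem vec_eq {v w : Completion D} {r : ℝ} (hr : 0 ≤ r) (u : Completion D)
    (h : ∀ (y : Fib c Z) g, Gp y l {1, r} g → u ∈ y.b.L → y.b.φ v = y.b.φ w) : v = w := by
  obtain ⟨X, F, y, S, s, -, a, -, -, b⟩ := ex_gp ft hp hT hA hl (vs := {u, v, w}) countable_empty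
    (toFinite _).countable (by simp) hr
  refine s.eq (a (by simp)) (a (by simp)) ?_
  filter_upwards [b, s.mem (a (show u ∈ _ by simp))] with x ⟨g, p⟩ q using h _ g p q

theorem op_eq {A B : Completion D →L[ℂ] Completion D} {r : ℝ} (hr : 0 ≤ r)
    (h : ∀ (y : Fib c Z) g F0 e, Gp y l {1, r} g → Lnk y F0 {1, r} g.toCg e →
      (∀ E s, y.b.Rl (sk (c := c) E s) (g.SK s)) → ∃ A', y.b.Rl A A' ∧ y.b.Rl B A') : A = B :=
  ContinuousLinearMap.ext fun v => vec_eq ft hp hT hA hl hr v fun y g p q => by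
    obtain ⟨_, _, L⟩ := p.lk
    obtain ⟨A', a, b⟩ := h y g _ _ p L (p.sk (.inl rfl))
    rw [a.ap q, b.ap q]

theorem sk_md (E1 : ModData (c.N (Rc 1 0)) c.Om) {r : ℝ} (hr : 0 ≤ r)
    (E : ModData (c.N (Rc r 0)) c.Om) (t : ℝ) :
    E.U t = sk E1 (r * (1 - exp (-(2 * Real.pi * t)))) * G.Bo c.Q (-(2 * Real.pi * t)) :=
  op_eq ft hp hT hA hl hr fun y g _ _ p L k =>
    ⟨_, p.mo (.inr rfl) hr E t, (k _ _).mul (L.sc _ _)⟩

theorem sk_ug (E : ModData (c.N (Rc 1 0)) c.Om) : UG (sk E) := by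
  have u : ∀ s, sk0 E s ∈ unitary _ := fun s => mul_mem (G.mod_uni E _) (G.ip_bo c _).uni
  refine G.ug_of (op_eq ft hp hT hA hl zero_le_one fun y g _ _ p L k =>
    ⟨_, (k _ _).cast p.ugK.zero', one_mem _, Fb.π_one⟩) (fun s t => op_eq ft hp hT hA hl
      zero_le_one fun y g _ _ p L k => ⟨_, (k _ _).cast (p.ugK.add' _ _), (k _ _).mul (k _ _)⟩)
    (fun s => by unfold sk; split_ifs; exacts [u _, Unitary.star_mem (u _)]) fun z => ?_
  have g : UG E.U := .of E.U_zero E.U_add (G.mod_uni E) E.continuous_U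
  have a : Tendsto (fun s : ℝ => -log (1 - s)) (𝓝 0) (𝓝 0) := by
    have : ContinuousAt (fun s : ℝ => -log (1 - s)) 0 := by
      refine ContinuousAt.neg (ContinuousAt.log (by fun_prop) (by simp))
    simpa using this.tendsto
  have b := g.tendsto (a.div_const (2 * Real.pi))
    ((G.Sq.ugB c).tendsto a (tendsto_const_nhds (x := z)))
  rw [zero_div, g.zero, (G.Sq.ugB c).zero] at b
  refine b.congr' ?_
  filter_upwards [Iio_mem_nhds (zero_lt_one' ℝ)] with s hs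
  rw [sk_md ft hp hT hA hl E zero_le_one, mul_div_cancel₀ _ (by positivity),
    ContinuousLinearMap.mul_apply, ← (G.Sq.ugB c).add, neg_add_cancel, (G.Sq.ugB c).zero, neg_neg,
    Real.exp_log (sub_pos.2 hs), one_mul, sub_sub_cancel]

theorem prw_of (hZ : Ctr c Z) {f : Fn} (hf : In W0 f) : Pr (c.N W0) c.Om (l f) (l (bar f)) :=
  fun Y hY => by
  have m : Y ∈ Z.commutant := comm_anti (fun z hz => (hZ.sub W0 z hz).1) Y hY
  obtain ⟨X, F, y, S, s, a0, -, a1, a2, b⟩ := ex_gp ft hp hT hA hl (ops := {Y})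
    (countable_singleton _) countable_empty (by simpa using m) zero_le_one
  have a3 := a1 Y rfl
  refine s.glue _ (a3 _ a0).2 _ (a2 _ hf.1) _ (a2 _ hf.bar.1) _ (a3 _ a0).1 ?_
  filter_upwards [b, s.top Y m (fun v h => (a3 v h).1) fun v h => (a3 v h).2] with x ⟨g, p⟩ q
  obtain ⟨_, _, L⟩ := p.lk
  have r : (y x).b.Rl Y _ := ⟨q, rfl⟩
  rw [r.ap (y x).b.om, r.star.ap (y x).b.om, L.om, (p.pot _ hf.1).2, (p.pot _ hf.bar.1).2]
  refine p.prw f hf _ (L.com _ (wdg_open _ _ _) _ fun A a b => ?_)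
  rw [← Fb.π_mul b q, ← Fb.π_mul q b, comm_mul a hY]

omit hp hT hA hl in
/-- **row GXI** -/
theorem gxi : GXI c Z := fun hZ hp T hT hA => by
  obtain ⟨l, hl, -⟩ := H246.main hT
  obtain ⟨bt⟩ := SN.exists_BC SN.isPair_mdot (EG.SGx.urep c.Q)
  obtain ⟨E⟩ := G.Sq.ex_md c (G.X.rc_open 1) (G.X.rc_ne zero_le_one) (G.X.rc_w0 zero_le_one)
  have o := @op_eq _ _ _ c Z ft hp T hT hA l hl
  have ug := sk_ug ft hp hT hA hl E
  let g0 : G.Ctx D := ⟨c, T, sk E, l, bt, hT, hl⟩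
  refine ⟨g0, rfl, rfl, ⟨ug, fun s => ?_,
    fun s => o zero_le_one fun y g _ _ p L k => ⟨_, (Fb.Rl.mul L.Γ (k _ _)).cast (p.gK _),
      (k _ _).mul L.Γ⟩,
    fun r s t a b => o zero_le_one fun y g _ _ p L k =>
      ⟨_, ((L.sc _ _).mul (k _ _)).cast (p.sc_S _ _ _ a b), (k _ _).mul (L.sc _ _)⟩,
    fun w t => o zero_le_one fun y g _ _ p L k =>
      ⟨_, ((L.ga _).mul (k _ _)).cast (p.ga_S _ _), (k _ _).mul (L.ga _)⟩,
    fun w t => o zero_le_one fun y g _ _ p L k =>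
      ⟨_, ((L.ut _).mul (k _ _)).cast (p.pa_S _ _), (k _ _).mul (L.ut _)⟩,
    fun w t => o zero_le_one fun y g _ _ p L k => ⟨_, ((k _ _).mul (L.ut _)).cast (p.S_ut _ _),
      ((L.ut _).mul (L.ga _)).mul (k _ _)⟩,
    fun r hr => (G.Sq.ex_md c (G.X.rc_open r) (G.X.rc_ne hr) (G.X.rc_w0 hr)).elim fun E' =>
      ⟨E', sk_md ft hp hT hA hl E hr E'⟩⟩, ee_tri fun a u ψ h0 h1 h2 hK hP => ?_,
    fun f t hf ht => ?_, fun f => prw_of ft hp hT hA hl hZ⟩
  · refine vec_eq ft hp hT hA hl zero_le_one c.Om fun y g p q => ?_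
    obtain ⟨_, _, L⟩ := p.lk
    exact ((p.sk (.inl rfl) E s).ap q).trans (by erw [L.om, p.K_vac])
  · choose vs b1 b2 b3 using fun i => ex_gn (c := c) (Z := Z)
      (show Ut c.Q (u i • vb) * sk E 0 * Ut c.Q (-(u i • vb)) = 1 by
        rw [ug.zero', mul_one, G.Sq.ut_inv]) (W := g0.Ky (u i • vb)) (hK i).gn
    obtain ⟨ws, d1, d2, d3⟩ := ex_gn (c := c) (Z := Z)
      (show Pb c.Q 0 = 1 by rw [Pb, zero_smul, Grp.ut0]) hP.gn
    obtain ⟨X, F, y, S, s, -, m, -, -, b⟩ := ex_gp ft hp hT hA hl (vs := (⋃ i, vs i) ∪ ws)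
      countable_empty ((countable_iUnion b1).union d1) (by simp) zero_le_one
    have m1 : ∀ i, vs i ⊆ S := fun i => (subset_iUnion vs i).trans (subset_union_left.trans m)
    have m2 : ws ⊆ S := subset_union_right.trans m
    refine s.eq (S.sum_mem fun i _ => S.smul_mem _ (m1 i (b2 i))) (S.smul_mem _ (m2 d2)) ?_
    filter_upwards [b, s.all fun i => b3 i X F y S s (m1 i), d3 X F y S s m2] with x ⟨g, p⟩ q r
    obtain ⟨_, _, L⟩ := p.lk
    have q' := fun i => (q i).2 (g.Ky (u i • vb)) (by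
      have := p.ugK.cj (G.ip_ut g.toCg (u i • vb)).uni
      rwa [G.Sq.star_ut] at this) fun t =>
        ((L.ut _).mul (p.sk (.inl rfl) E t)).mul (L.ut _)
    have r' := r.2 (Pb g.Q) (G.Sq.ugT g.toCg vb) fun t => L.ut _
    rw [Fb.sum _ fun i => Submodule.smul_mem _ _ (q i).1, (y x).b.smul _ _ r.1, ← r'.gen_eq,
      ← p.tri a u _ h0 h1 h2 (fun i => (q' i).dm) r'.dm]
    exact Finset.sum_congr rfl fun i _ => by rw [(y x).b.smul _ _ (q i).1, (q' i).gen_eq]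
  · have h2 : IsTest (pb 2 t f) := (Ap.in_of (O := univ) (Ch0.inn (j := 2) (t := t) (Ap.in_dc hf)
      fun z hz => by
        have : be z < 0 := hf.2.2 hz
        simp only [rh]
        nlinarith).1 (subset_univ _)).1
    refine vec_eq ft hp hT hA hl zero_le_one c.Om fun y g p _ => ?_
    exact ((p.sk (.inl rfl) E t).ap (p.pot f hf.1).1).trans
      (by rw [(p.pot f hf.1).2, p.flow f t hf ht]; exact (p.pot _ h2).2.symm)

end

end Vale.Agent.N352.U
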