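import Vale.Agent.N352.U.Gx
import Vale.Agent.N352.X.PF
import Vale.Agent.N352.X.Dsf
import Vale.Agent.N352.Pk

/-!
# N352, block U: the theorems for the fibres, and the absence of logarithms (helper72)
-/

set_option linter.all false

open Filter Topology Set

namespace Vale.Agent.N352.U

open Vale.Agent.P352 Vale.Agent.P352.GF Vale.Agent.P352.BW Vale.Agent.P352.H246
open Vale.Agent.P352.H496 Vale.Agent.P352.H755 Vale.Agent.P352.H15
open Vale.Agent.P352X Vale.Agent.P352X.EB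
open Vale.Agent.P352X.EG (Cg)
open UniformSpace (Completion)
open G G.X G.X.Ds G.X.Df

noncomputable section

universe u

section dbl

variable {D D2 : Type*} [NormedAddCommGroup D] [InnerProductSpace ℂ D] [NormedAddCommGroup D2]
  [InnerProductSpace ℂ D2] {T : Ix → Ix → Fld D} {k : P352X.Ctx D2}
  {tm : Completion D → Completion D → Completion D2}

theorem tri2 (k : P352X.Ctx D2) [Fact k.tp] {a u : Fin 3 → ℝ} (h0 : ∑ i, a i = 0)
    (h1 : ∑ i, a i * u i = 0) (h2 : ∑ i, a i * u i ^ 2 = 2) {ψ : Completion D2}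
    (hK : ∀ i, Dm (k.Ky (u i • vb)) ψ) (hP : Dm (Pb k.Q) ψ) :
    ∑ i, (a i : ℂ) • gen (k.Ky (u i • vb)) ψ = (4 : ℂ) • gen (Pb k.Q) ψ :=
  have t := t3_thm k
  have bb := bb_of k t
  have far := far_row k t
  EE.tri t bb (dd_row k t (d1_row k t (sch_row k t) (yz_row k t (res_row k t) far
    (ix_row k t far) (cont_row k t far (conm_row k t) (conk_row0 k t (bp0_row k t bb)))
      (ib_row k t) (sw_row k t)))) (u0 := ∑ i, |u i| + 1) (fun i => by
    have := Finset.single_le_sum (f := fun i => |u i|) (fun i _ => abs_nonneg _) (Finset.mem_univ i)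
    exact abs_lt.1 (by linarith)) h0 h1 h2 hK hP

end dbl

variable {D : Type u} [NormedAddCommGroup D] [InnerProductSpace ℂ D]

theorem tri_of {D2 : Type*} [NormedAddCommGroup D2] [InnerProductSpace ℂ D2] {T : Ix → Ix → Fld D}
    {k : P352X.Ctx D2} {tm : Completion D → Completion D → Completion D2} [Fact k.tp]
    {g : G.Ctx D} (L : Lk g.toCg T k tm) (t : P352X.GRP k)
    (h0 : g.SK 0 = 1) (hu : ∀ s, Lf g.Γ tm g.Om (g.SK s) (k.SK s)) : TRI g := by
  intro a u ψ p0 p1 p2 h1 h2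
  have d := L.dbl
  have ky : ∀ y s, Lf g.Γ tm g.Om (g.Ky y s) (k.Ky y s) := fun y s =>
    ((lf_ut L t y).mul (hu s)).mul (lf_ut L t _)
  have pb : ∀ s, Lf g.Γ tm g.Om (Pb g.Q s) (Pb k.Q s) := fun s => lf_ut L t _
  have key : ∀ e, ∑ i, (a i : ℂ) • pp g.Γ e (gen (g.Ky (u i • vb)) ψ) -
      (4 : ℂ) • pp g.Γ e (gen (Pb g.Q) ψ) = 0 := fun e => by
    have g1 := fun i => gn_pp d (fun s => (ky (u i • vb) s).ev) (h1 i).gn e
    have g2 := gn_pp d (fun s => (pb s).ev) h2.gn e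
    by_cases z : pp g.Γ e ψ = 0
    · simp only [fun i => (g1 i).unique (gn_zero.cast z rfl), g2.unique (gn_zero.cast z rfl)]
      simp
    have k1 := fun i => gn_tm d (fun s => (ky (u i • vb) s).tp) (by
      rw [G.Ctx.Ky, h0, mul_one, Sq.ut_inv]) (g1 i)
    have k2 := gn_tm d (fun s => (pb s).tp) (by rw [Pb, zero_smul, Grp.ut0]) g2
    have h := tri2 k p0 p1 p2 (fun i => (k1 i).dm) k2.dm
    simp only [fun i => (k1 i).gen_eq, k2.gen_eq, Fin.sum_univ_three] at h ⊢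
    refine d.sym_inj (d.gd.pv_pp e ψ) z ?_ ?_
    · have q : ∀ x, g.Γ (pp g.Γ e x) = sg e • pp g.Γ e x := d.gd.pv_pp e
      simp only [Pv, map_sub, map_add, map_smul, q]
      module
    · simp only [sub_eq_add_neg, ← neg_smul, d.add_l, d.add_r, d.smul_l, d.smul_r]
      linear_combination (norm := module) h
  have h := key false
  have h' := key true
  simp only [Fin.sum_univ_three] at h h' ⊢
  rw [← pp_add (Γ := g.Γ) (gen (g.Ky (u 0 • vb)) ψ), ← pp_add (Γ := g.Γ) (gen (g.Ky (u 1 • vb)) ψ),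
    ← pp_add (Γ := g.Γ) (gen (g.Ky (u 2 • vb)) ψ), ← pp_add (Γ := g.Γ) (gen (Pb _) ψ)]
  linear_combination (norm := module) h + h'

/-- **row FT** -/
theorem ft : FT.{u} := fun E _ _ c T hU hM hF hT hP => by
  obtain ⟨E2, k, tp, -, -, -, -, L0, -⟩ := ex_lkP (Tn.bg c) ⟨Tn.bg_big c, Tn.bg_mfa hM, Tn.bg_fsl hF⟩
    hU (Tn.bg_str hT) (Tn.bg_pch (fun m n => c.Q.bose_fld _ (hT.bose m n)) hP)
  haveI : Fact k.tp := ⟨tp⟩
  have L : Lk c T k _ := ⟨L0.dbl, L0.om, L0.U, L0.gen, L0.com, L0.T⟩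
  have t := EB.e0_thm k (main k).1
  obtain ⟨g, rfl, rfl, h, -, hu⟩ := descendF L hT t.toT1.grp (NA.ee_thm k)
  exact ⟨g, rfl, rfl, h, fun f s hf hs => flow L g.hT g.hl (EB.flow_row t) hs (hu s) hf,
    fun f => prw L t.toT1.jc g.hT g.hl, tri_of L t.toT1.grp h.ugK.zero' hu⟩

variable {T : Ix → Ix → Fld D} {F : Ix → Ix → Finset (ℂ × ℕ)} {C : Ix → Ix → ℂ × ℕ → Fld D}

open P352L P352L.StA in
theorem nl_fib (c : Cg D) (hU : UVac c.Q) (hM : MfAll c.Q) (hF : FSL c.Q) (hT : Stress0 c.Q T)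
    (hP : ND.PCh c.Q T c.A) (hC : ∀ m n, Scl c.Q (T m n) (F m n) (C m n)) (m n : Ix) {f : Fn}
    (hf : IsTest f) (v : D) : (∀ p ∈ F m n, p.1 = 4 → p.2 ≠ 0 → C m n p f v = 0) ∧
      ((4, 0) ∉ F m n → T 0 1 f v = 0) := by
  classical
  refine ⟨fun p hp k1 k2 => ?_, fun h4 => ?_⟩
  · obtain ⟨F', C', a, b⟩ := Tn.nologD c hU hM hF hT hP m n
    obtain ⟨S, κ, hκ⟩ := CL.vg (F m n ∪ F') p
    have e2 := CL.sfm0 a (EG.Fsg.m1 c) (fun x hx => hκ x (Finset.mem_union_right _ hx)) hf v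
    rw [if_neg fun h => k2 ((b _).1 (k1 ▸ h))] at e2
    rw [e2, CL.sfm (hC m n) (EG.Fsg.m1 c) hp (fun x hx => hκ x (Finset.mem_union_left _ hx)) hf v]
  · obtain ⟨n0, h3, h5⟩ := Gd.fam hF hT hP hC
    refine triv2 hT (Gd.triv (c := ⟨hull c.Q, c.G, c.A, c.Γ, c.N, Gd.lng c.hN⟩) hU (h3.st 0)
      (h5 0) (m := m) (n := n) fun f v hf => ?_) hf v
    rw [tt_apply]
    refine Finset.sum_eq_zero fun p hp => ?_
    rw [show cf 0 p = 0 from ?_, zero_smul]
    rw [cf]
    split_ifs with e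
    · rw [Complex.ofReal_zero, neg_zero, zero_pow fun e' =>
        h4 ((Prod.ext e e' : p = (4, 0)) ▸ hp)]
    · rfl

theorem nl_of {Q : Theory D} (hT : Stress0 Q T) (hC : ∀ m n, Scl Q (T m n) (F m n) (C m n))
    (z : ∀ m n, ∀ p ∈ F m n, p.1 = 4 → p.2 ≠ 0 → ∀ f v, IsTest f → C m n p f v = 0)
    (h0 : ∀ m n, (4, 0) ∉ F m n → ∀ f v, IsTest f → T 0 1 f v = 0) : NoLog Q T := fun m n => by
  classical
  obtain ⟨Z, hZ, eZ⟩ : ∃ Z, Q.bose Z ∧ ∀ f v, IsTest f →
      Z f v = if (4, 0) ∈ F m n then C m n (4, 0) f v else 0 := by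
    split_ifs with h4
    · exact ⟨_, ((hC m n).1 _).2 (hT.bose m n), fun _ _ _ => rfl⟩
    · exact ⟨_, hT.bose 0 1, h0 m n h4⟩
  refine ⟨insert (4, 0) ((F m n).filter fun p => p.1 ≠ 4), Function.update (C m n) (4, 0) Z,
    ⟨fun p => ?_, fun s f v hs hf => ?_⟩, fun j => by simp⟩
  · by_cases e : p = (4, 0)
    · rw [e, Function.update_self]
      exact ⟨Q.bose_fld _ hZ, fun _ => hZ⟩
    · rw [Function.update_of_ne e]
      exact (hC m n).1 p
  · have t1 := Ap.test_sim hs H496.isLor_one 0 hf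
    have u0 : Q.U s GF.one 0 0 = 0 := (Fss.u Q s hs).map_zero
    rw [(hC m n).2 s f v hs hf, Finset.sum_insert (by simp), Function.update_self, eZ _ _ t1,
      ← Finset.sum_filter_add_sum_filter_not (F m n) fun p => p.1 = 4]
    congr 1
    · split_ifs with h4
      · refine Finset.sum_eq_single_of_mem _ (by simpa using h4) fun p hp ne => ?_
        obtain ⟨p1, p2⟩ := Finset.mem_filter.1 hp
        rw [z m n p p1 p2 (fun e => ne (Prod.ext p2 e)) _ _ t1, u0, smul_zero]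
      · rw [u0, smul_zero]
        refine Finset.sum_eq_zero fun p hp => ?_
        obtain ⟨p1, p2⟩ := Finset.mem_filter.1 hp
        rw [z m n p p1 p2 (fun e => h4 ((Prod.ext p2 e : p = (4, 0)) ▸ p1)) _ _ t1, u0, smul_zero]
    · exact Finset.sum_congr rfl fun p hp => by
        rw [Function.update_of_ne fun e => (Finset.mem_filter.1 hp).2 (congrArg Prod.fst e)]

/-- **row NLG** -/
theorem nlg (c : Cg D) (Z : VonNeumannAlgebra (Completion D)) : NLG c Z := fun hp hF T hT hP => by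
  classical
  have hb := fun m n => c.Q.bose_fld _ (hT.bose m n)
  choose F C0 h using fun m n => hF (T m n) (hb m n)
  let C := fun m n p => if p ∈ F m n then C0 m n p else T m n
  have hC : ∀ m n, Scl c.Q (T m n) (F m n) (C m n) := fun m n => ⟨fun p => by
    simp only [C]
    split_ifs
    exacts [(h m n).1 p, ⟨hb m n, id⟩], fun s f v hs hf => ((h m n).2 s f v hs hf).trans
      (Finset.sum_congr rfl fun p hp => by simp only [C, if_pos hp])⟩
  let F0 : Set (Fld D) := ⋃ q : Ix × Ix, insert (T q.1 q.2) (C0 q.1 q.2 '' F q.1 q.2)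
  have m1 : ∀ m n, T m n ∈ F0 := fun m n => mem_iUnion.2 ⟨(m, n), .inl rfl⟩
  have m2 : ∀ m n p, C m n p ∈ F0 := fun m n p => by
    simp only [C]
    split_ifs with e
    exacts [mem_iUnion.2 ⟨(m, n), .inr ⟨p, e, rfl⟩⟩, m1 m n]
  obtain ⟨X, Fl, y, S, s, -, -, -, -, a5, a6⟩ := hp F0 ∅ ∅ ∅
    (countable_iUnion fun q => ((Finset.countable_toSet _).image _).insert _) countable_empty
    countable_empty countable_empty (fun B hB => by
      obtain ⟨q, rfl | ⟨p, -, rfl⟩⟩ := mem_iUnion.1 hB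
      exacts [hb _ _, ((h _ _).1 p).1]) (by simp) (by simp)
  have key : ∀ B ∈ F0, c.Q.fld B → (∀ x k e, Lnk (y x) F0 ∅ k e → ∀ f, IsTest f →
      e B f k.Q.vac = 0) → ∀ f v, IsTest f → B f v = 0 := fun B m hB q f v hf => by
    refine Tn.fld_sep hB (fun f hf => Completion.coe_injective D ?_) hf v
    rw [Completion.coe_zero]
    refine s.eq (a5 B m f hf) S.zero_mem (a6.mono fun x ⟨k, e, L⟩ => ?_)
    rw [(L.vac B m f hf).2, q x k e L f hf, Fb.zero, Completion.coe_zero]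
  have fb := fun x k e (L : Lnk (y x) F0 ∅ k e) => nl_fib k L.uv L.mf L.fs (L.st0 T m1 hT hP).1
    (L.st0 T m1 hT hP).2 fun m n => L.scl _ _ _ (m1 m n) (hT.bose m n) (m2 m n) (hC m n)
  exact nl_of hT hC (fun m n p hp k1 k2 => key _ (m2 m n p) ((hC m n).1 p).1
    fun x k e L f hf => (fb x k e L m n hf _).1 p hp k1 k2) fun m n h4 => key _ (m1 0 1) (hb 0 1)
      fun x k e L f hf => (fb x k e L m n hf _).2 h4

end

end Vale.Agent.N352.U
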