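import Vale.Agent.N352.U.A1

/-!
# N352, block U: the centre of the net (helper72)
-/

set_option linter.all false

open Filter Topology Set
open Bornology (IsBounded)

namespace Vale.Agent.N352.U

open Vale.Agent.P352 Vale.Agent.P352.GF Vale.Agent.P352.BW Vale.Agent.P352.H246
open Vale.Agent.P352.H496 Vale.Agent.P352.H755 Vale.Agent.P352.H15
open Vale.Agent.P352X Vale.Agent.P352X.EB
open Vale.Agent.P352X.EG (Cg Sh sg)
open UniformSpace (Completion)
open G

noncomputable section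

namespace Zc

section hilbert

variable {H : Type*} [NormedAddCommGroup H] [InnerProductSpace ℂ H] [CompleteSpace H]

/-- the point of minimal norm -/
theorem ex_fix {K : Set H} (ne : K.Nonempty) (cv : Convex ℝ K) : ∃ η ∈ closure K,
    ∀ u : H →L[ℂ] H, (∀ x, ‖u x‖ = ‖x‖) → (∀ x ∈ K, u x ∈ K) → u η = η := by
  letI : InnerProductSpace ℝ H := InnerProductSpace.complexToReal
  obtain ⟨η, a, b⟩ := exists_norm_eq_iInf_of_complete_convex ne.closure
    isClosed_closure.isComplete cv.closure 0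
  refine ⟨η, a, fun u h k => ?_⟩
  have p := (norm_eq_iInf_iff_real_inner_le_zero cv.closure a).1 b _
    (map_mem_closure u.continuous a k)
  have e := norm_sub_sq_real η (u η)
  rw [zero_sub, inner_neg_left, inner_sub_right, real_inner_self_eq_norm_sq] at p
  rw [h] at e
  exact (sub_eq_zero.1 (norm_eq_zero.1 (pow_eq_zero_iff two_ne_zero |>.1
    (le_antisymm (by linarith) (sq_nonneg _))))).symm

variable {ι : Type*} {l : Filter ι} {A : ι → H →L[ℂ] H} {t : H →L[ℂ] H}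

theorem str_lim {C : ℝ} (hA : ∀ i, ‖A i‖ ≤ C) {S : Set H} (hS : Dense S)
    (h : ∀ v ∈ S, Tendsto (fun i => A i v) l (𝓝 (t v))) (v : H) :
    Tendsto (fun i => A i v) l (𝓝 (t v)) := by
  refine Metric.tendsto_nhds.2 fun ε hε => ?_
  have p : 0 < |C| + ‖t‖ + 1 := by positivity
  obtain ⟨w, hw, e⟩ := hS.exists_dist_lt v (div_pos (half_pos hε) p)
  filter_upwards [Metric.tendsto_nhds.1 (h w hw) _ (half_pos hε)] with i hi
  have a := (A i).dist_le_opNorm v w
  have b := t.dist_le_opNorm w v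
  have d := dist_triangle4 (A i v) (A i w) (t w) (t v)
  rw [lt_div_iff₀ p] at e
  rw [dist_comm w v] at b
  nlinarith [hA i, le_abs_self C, dist_nonneg (x := v) (y := w)]

theorem lim_mem [l.NeBot] {M : VonNeumannAlgebra H} (h : ∀ᶠ i in l, A i ∈ M)
    (k : ∀ v, Tendsto (fun i => A i v) l (𝓝 (t v))) : t ∈ M :=
  mem_of_comm fun Z hZ v => tendsto_nhds_unique ((Z.continuous.tendsto _).comp (k v))
    ((k _).congr' (h.mono fun i a => comm_apply a hZ v))

end hilbert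

variable {D : Type*} [NormedAddCommGroup D] [InnerProductSpace ℂ D] {c : Cg D} {a b y : V}
  {e : Bool} {X Y : Completion D →L[ℂ] Completion D} {K : Set V} {ψ η : Completion D}

/-- normalized pairs of null vectors -/
structure Np (a b : V) : Prop where
  l : IsNull a
  r : IsNull b
  m : GF.mdot a b = 1

theorem Np.symm (h : Np a b) : Np b a := ⟨h.r, h.l, (md_comm _ _).trans h.m⟩

theorem mem_w {x : V} : x ∈ Wdg a b y ↔ GF.mdot a x < GF.mdot a y ∧ GF.mdot b y < GF.mdot b x := by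
  simp only [Wdg, mem_setOf_eq, md_sub, sub_neg, sub_pos]

theorem Np.da (h : Np a b) (t : ℝ) : GF.mdot a (t • (a - b)) = -t := by
  rw [md_smul, md_sub, h.l.1, h.m]; ring

theorem Np.db (h : Np a b) (t : ℝ) : GF.mdot b (t • (a - b)) = t := by
  rw [md_smul, md_sub, h.r.1, h.symm.m]; ring

theorem bd_md (hK : IsBounded K) (a : V) : ∃ R, ∀ x ∈ K, |GF.mdot a x| ≤ R :=
  (((mdL a).lipschitz.isBounded_image hK).exists_norm_le).imp fun R h x hx => h _ ⟨x, hx, rfl⟩

theorem Np.sub (h : Np a b) (hK : IsBounded K) :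
    ∀ᶠ n : ℕ in atTop, K ⊆ Wdg b a ((n : ℝ) • (a - b)) := by
  obtain ⟨p, hp⟩ := bd_md hK a
  obtain ⟨q, hq⟩ := bd_md hK b
  filter_upwards [tendsto_natCast_atTop_atTop.eventually_gt_atTop p,
    tendsto_natCast_atTop_atTop.eventually_gt_atTop q] with n h1 h2 x hx
  rw [mem_w, h.da, h.db]
  exact ⟨(le_abs_self _).trans_lt ((hq x hx).trans_lt h2), by linarith [(abs_le.1 (hp x hx)).1]⟩

theorem ut_w (v : V) (hX : X ∈ c.N (Wdg a b y)) :
    Ut c.Q v * X * star (Ut c.Q v) ∈ c.N (Wdg a b (y + v)) :=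
  (ip_ut c v).mem (fun z hz => by simpa only [Wdg, mem_setOf_eq, add_sub_add_right_eq_sub] using hz)
    X hX

theorem par_cj {u : Completion D →L[ℂ] Completion D} {A : V → V} (h : Ip c u A) (p : Par c.Γ e X) :
    Par c.Γ e (u * X * star u) := by
  have k : star u * c.Γ = c.Γ * star u := by
    simpa only [star_mul, EG.SGx.gs] using congrArg star h.ev
  rw [Par, mul_assoc, mul_assoc, mul_assoc, k, ← mul_assoc c.Γ, h.ev, ← mul_assoc X, mul_assoc u,
    ← mul_assoc c.Γ, ← mul_assoc c.Γ, p, smul_mul_assoc, mul_smul_comm, mul_assoc]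

/-- twisted locality -/
theorem twc (h : Np a b) (hX : X ∈ c.N (Wdg a b y)) (p : Par c.Γ e X) :
    X * c.gp e ∈ (c.N (Wdg b a y)).commutant := by
  have u := ip_ut c (-y)
  have m := ut_w (-y) hX
  rw [add_neg_cancel] at m
  have k := c.hN.loc b a _ h.r h.l h.symm.m m
  rw [par_cj u p] at k
  have j : Ut c.Q (-y) * X * star (Ut c.Q (-y)) * c.gp e ∈ (c.N (Wdg b a 0)).commutant := by
    cases e
    · simpa [Cg.gp, ← two_smul ℂ, smul_smul] using smul_mem_vn (1 / 2) k.1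
    · simpa [Cg.gp, ← two_smul ℂ, smul_smul] using smul_mem_vn (1 / 2) k.2
  have q : star (Ut c.Q (-y)) * c.gp e * Ut c.Q (-y) = c.gp e := by
    cases e
    · simpa [Cg.gp] using u.uni.1
    · rw [Cg.gp, cond, mul_assoc, u.ev, ← mul_assoc, u.uni.1, one_mul]
  have := conj_comm u.uni (fun Z hZ => add_neg_cancel y ▸ ut_w (-y) hZ) j
  rwa [← mul_assoc, ← mul_assoc, ← mul_assoc, u.uni.1, one_mul, mul_assoc X, mul_assoc X, q] at this

/-- `η` is the mean of the translates of `ψ` -/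
def Mn (c : Cg D) (ψ η : Completion D) : Prop :=
  (∀ v, Ut c.Q v η = η) ∧ ∀ w, (∀ v, Ut c.Q v w = w) → inner ℂ w η = inner ℂ w ψ

theorem Mn.eq {η'} (h : Mn c ψ η) (k : Mn c ψ η') : η = η' := by
  have i : ∀ v, Ut c.Q v (η - η') = η - η' := fun v => by rw [map_sub, h.1, k.1]
  exact sub_eq_zero.1 (inner_self_eq_zero.1 (by
    rw [inner_sub_right, h.2 _ i, k.2 _ i, sub_self] : inner ℂ (η - η') (η - η') = 0))

theorem apx (h : Np a b) (hK : IsBounded K) (hY : Y ∈ c.N K) (p : Par c.Γ e Y) (y : V) :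
    ∃ η, Mn c (Y c.Om) η ∧
      η ∈ closure {v | ∃ X ∈ c.N (Wdg a b y), Par c.Γ e X ∧ ‖X‖ ≤ ‖Y‖ ∧ X c.Om = v} := by
  let P := fun X : Completion D →L[ℂ] Completion D => Par c.Γ e X ∧ ‖X‖ ≤ ‖Y‖ ∧
    ∀ w, (∀ v, Ut c.Q v w = w) → inner ℂ w (X c.Om) = inner ℂ w (Y c.Om)
  have om : ∀ v (X : Completion D →L[ℂ] Completion D),
      (Ut c.Q v * X * star (Ut c.Q v)) c.Om = Ut c.Q v (X c.Om) := fun v X => by
    rw [Sq.star_ut, ContinuousLinearMap.mul_apply, (ip_ut c _).vac, ContinuousLinearMap.mul_apply]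
  have cj : ∀ v X, P X → P (Ut c.Q v * X * star (Ut c.Q v)) := fun v X k =>
    ⟨par_cj (ip_ut c v) k.1, by
      rw [CStarRing.norm_mul_mem_unitary _ (Unitary.star_mem (ip_ut c v).uni),
        CStarRing.norm_mem_unitary_mul _ (ip_ut c v).uni]
      exact k.2.1, fun w i => by
      rw [om, ← k.2.2 w i]
      exact (congrArg (inner ℂ · _) (i v).symm).trans (inner_unitary (ip_ut c v).uni _ _)⟩
  obtain ⟨η, m, f⟩ := ex_fix (K := {v | ∃ X ∈ c.N (Wdg a b y), P X ∧ X c.Om = v}) (by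
    obtain ⟨n, k⟩ := (h.symm.sub hK).exists
    exact ⟨_, _, by simpa using ut_w (y - (n : ℝ) • (b - a)) (c.hN.mono _ _ k Y hY),
      cj _ Y ⟨p, le_rfl, fun _ _ => rfl⟩, rfl⟩) (by
    rintro _ ⟨X, m, k, rfl⟩ _ ⟨X', m', k', rfl⟩ s t hs ht st
    refine ⟨(s : ℂ) • X + (t : ℂ) • X', add_mem (smul_mem_vn _ m) (smul_mem_vn _ m'),
      ⟨?_, (norm_add_le _ _).trans ?_, fun w i => ?_⟩, rfl⟩
    · rw [Par, mul_add, add_mul, mul_smul_comm, mul_smul_comm, smul_mul_assoc, smul_mul_assoc, k.1,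
        k'.1, smul_add, smul_comm, smul_comm (t : ℂ)]
    · rw [norm_smul, norm_smul, Complex.norm_of_nonneg hs, Complex.norm_of_nonneg ht]
      exact (add_le_add (mul_le_mul_of_nonneg_left k.2.1 hs)
        (mul_le_mul_of_nonneg_left k'.2.1 ht)).trans_eq (by rw [← add_mul, st, one_mul])
    · simp only [ContinuousLinearMap.add_apply, ContinuousLinearMap.smul_apply, inner_add_right,
        inner_smul_right, k.2.2 w i, k'.2.2 w i]
      rw [← add_mul, ← Complex.ofReal_add, st, Complex.ofReal_one, one_mul])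
  have iv : ∀ v ∈ Wdg a b 0, Ut c.Q v η = η := fun v hv => f _ (ip_ut c v).nrm (by
    rintro _ ⟨X, m, k, rfl⟩
    refine ⟨_, c.hN.mono _ _ (fun x hx => ?_) _ (ut_w v m), cj v X k, om v X⟩
    simp only [mem_w, md_add] at hx ⊢
    simp only [Wdg, mem_setOf_eq, sub_zero] at hv
    exact ⟨by linarith [hx.1, hv.1], by linarith [hx.2, hv.2]⟩)
  refine ⟨η, ⟨fun v => ?_, fun w i => ?_⟩, closure_mono (by
    rintro _ ⟨X, m, k, q⟩
    exact ⟨X, m, k.1, k.2.1, q⟩) m⟩
  · obtain ⟨n, k⟩ := (h.symm.sub (K := {v, 0}) (toFinite _).isBounded).exists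
    have j : ∀ x ∈ ({v, 0} : Set V), x - (n : ℝ) • (b - a) ∈ Wdg a b 0 := fun x hx => by
      simpa only [Wdg, mem_setOf_eq, sub_zero] using k hx
    conv_lhs => rw [← iv _ (j 0 (by simp)), Sq.ut_apply, zero_sub, ← sub_eq_add_neg]
    exact iv _ (j v (by simp))
  · exact closure_minimal (t := {v | inner ℂ w v = inner ℂ w (Y c.Om)})
      (by rintro _ ⟨X, -, k, rfl⟩; exact k.2.2 w i)
      (isClosed_eq (by fun_prop) continuous_const) m

theorem gp_om (e : Bool) : c.gp e c.Om = c.Om := by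
  cases e
  exacts [rfl, EG.SGx.gv c]

theorem gp_sq (e : Bool) : c.gp e * c.gp e = 1 := by
  cases e
  exacts [one_mul _, EG.SGx.g2 c]

theorem sep (h : X ∈ (c.N (Metric.ball 0 1)).commutant)
    (k : Y ∈ (c.N (Metric.ball 0 1)).commutant) (e : X c.Om = Y c.Om) : X = Y :=
  ContinuousLinearMap.ext fun v => (EG.SGx.rs (c := c) Metric.isOpen_ball
    (Metric.nonempty_ball.2 one_pos)).induction (P := fun v => X v = Y v) (by
      rintro _ ⟨A, m, rfl⟩
      rw [← comm_apply m h, ← comm_apply m k, e]) (isClosed_eq X.continuous Y.continuous) v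

theorem lim1 (h : Np a b) (hK : IsBounded K) (hY : Y ∈ c.N K) (p : Par c.Γ e Y)
    (m : Mn c (Y c.Om) η) : ∃ t, t ∈ (c.N (Metric.ball 0 1)).commutant ∧ t c.Om = η ∧
      Par c.Γ e (t * c.gp e) ∧
      ∀ y, t * c.gp e ∈ c.N (Wdg a b y) ∧ t ∈ (c.N (Wdg b a y)).commutant := by
  have ex : ∀ n : ℕ, ∃ X ∈ c.N (Wdg a b ((n : ℝ) • (a - b))), Par c.Γ e X ∧ ‖X‖ ≤ ‖Y‖ ∧
      dist η (X c.Om) < 1 / ((n : ℝ) + 1) := fun n => by
    obtain ⟨η', k, j⟩ := apx h hK hY p ((n : ℝ) • (a - b))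
    obtain ⟨_, ⟨X, a1, a2, a3, rfl⟩, q⟩ := Metric.mem_closure_iff.1 j _ Nat.one_div_pos_of_nat
    exact ⟨X, a1, a2, a3, m.eq k ▸ q⟩
  choose X a1 a2 a3 a4 using ex
  have nb : ∀ n, ‖X n * c.gp e‖ ≤ ‖Y‖ := fun n => by
    cases e
    · simpa [Cg.gp] using a3 n
    · exact (CStarRing.norm_mul_mem_unitary _ (gd c).uni).trans_le (a3 n)
  have t0 : Tendsto (fun n => (X n * c.gp e) c.Om) atTop (𝓝 η) := by
    simp only [ContinuousLinearMap.mul_apply, gp_om]
    exact tendsto_iff_dist_tendsto_zero.2 (squeeze_zero (fun _ => dist_nonneg)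
      (fun n => (dist_comm _ _).trans_le (a4 n).le) tendsto_one_div_add_atTop_nhds_zero_nat)
  have cm : ∀ O, (∀ᶠ n : ℕ in atTop, O ⊆ Wdg b a ((n : ℝ) • (a - b))) →
      ∀ᶠ n in atTop, X n * c.gp e ∈ (c.N O).commutant := fun O k => k.mono fun n k =>
    comm_anti (c.hN.mono _ _ k) _ (twc h (a1 n) (a2 n))
  have t1 : ∀ A ∈ c.N (Metric.ball 0 1),
      Tendsto (fun n => (X n * c.gp e) (A c.Om)) atTop (𝓝 (A η)) := fun A k =>
    ((A.continuous.tendsto _).comp t0).congr' ((cm _ (h.sub Metric.isBounded_ball)).mono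
      fun n j => comm_apply k j _)
  obtain ⟨t, b1, b2, -⟩ := ex_op (norm_nonneg Y) fun A k => le_of_tendsto' (t1 A k).norm fun n =>
    (X n * c.gp e).le_of_opNorm_le (nb n) _
  have t2 := str_lim (t := t) nb (EG.SGx.rs (c := c) Metric.isOpen_ball
    (Metric.nonempty_ball.2 one_pos)) (by
      rintro _ ⟨A, k, rfl⟩
      rw [← comm_apply k b1, b2]
      exact t1 A k)
  have t3 : ∀ v, Tendsto (fun n => X n v) atTop (𝓝 ((t * c.gp e) v)) := fun v => by
    simpa only [← ContinuousLinearMap.mul_apply, mul_assoc, gp_sq, mul_one] using t2 (c.gp e v)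
  have big : ∀ y, ∀ᶠ n : ℕ in atTop, -(n : ℝ) < GF.mdot a y ∧ GF.mdot b y < n := fun y =>
    (h.sub (K := {y}) (toFinite _).isBounded).mono fun n k => by
      have := mem_w.1 (k rfl)
      rw [h.da, h.db] at this
      exact this.symm
  refine ⟨t, b1, b2, ContinuousLinearMap.ext fun v => tendsto_nhds_unique
    ((c.Γ.continuous.tendsto _).comp (t3 _)) (((t3 v).const_smul (sg e)).congr fun n => by
      exact (DFunLike.congr_fun (a2 n) v).symm), fun y => ⟨lim_mem ((big y).mono fun n k =>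
        c.hN.mono _ _ (fun x hx => ?_) _ (a1 n)) t3, lim_mem (cm _ ((big y).mono fun n k x hx =>
          ?_)) t2⟩⟩ <;> rw [mem_w] at hx ⊢
  · rw [h.da, h.db] at hx
    exact ⟨hx.1.trans k.1, k.2.trans hx.2⟩
  · rw [h.da, h.db]
    exact ⟨hx.1.trans k.2, k.1.trans hx.2⟩

theorem np0 : Np va vb := ⟨Grp.na, Grp.nb, Grp.nab⟩

/-- the central element with a given mean -/
theorem lim2 (hK : IsBounded K) (hY : Y ∈ c.N K) (p : Par c.Γ e Y) : ∃ t, Mn c (Y c.Om) (t c.Om) ∧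
    Par c.Γ e (t * c.gp e) ∧ ∀ a b y, Np a b →
      t * c.gp e ∈ c.N (Wdg a b y) ∧ t ∈ (c.N (Wdg a b y)).commutant := by
  obtain ⟨η, m, -⟩ := apx np0 hK hY p 0
  obtain ⟨t, a1, rfl, a2, -⟩ := lim1 np0 hK hY p m
  have k : ∀ a b y, Np a b → t * c.gp e ∈ c.N (Wdg a b y) ∧ t ∈ (c.N (Wdg b a y)).commutant :=
    fun a b y h => by
      obtain ⟨t', b1, b2, -, b3⟩ := lim1 h hK hY p m
      exact sep b1 a1 b2 ▸ b3 y
  exact ⟨t, m, a2, fun a b y h => ⟨(k a b y h).1, (k b a y h.symm).2⟩⟩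

theorem bd_com (hK : IsBounded K) (h : ∀ a b y, Np a b → X ∈ (c.N (Wdg a b y)).commutant) :
    X ∈ (c.N K).commutant :=
  (np0.sub hK).exists.elim fun n k => comm_anti (c.hN.mono _ _ k) _ (h _ _ _ np0.symm)

variable (c) in
/-- the generators of the commutant of the centre -/
def Sz : Set (Completion D →L[ℂ] Completion D) := {X | (∃ a b y, Np a b ∧
  (X ∈ c.N (Wdg a b y) ∨ X ∈ (c.N (Wdg a b y)).commutant)) ∨ ∃ g : Sh c, X = g.U c}

theorem sz_star : ∀ X ∈ Sz c, star X ∈ Sz c := by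
  rintro X (⟨a, b, y, h, k⟩ | ⟨g, rfl⟩)
  exacts [.inl ⟨a, b, y, h, k.imp star_mem star_mem⟩, .inr ⟨_, (EG.SGx.U_inv g).symm⟩]

variable (c) in
/-- the centre -/
def Zn : VonNeumannAlgebra (Completion D) := (gv (Sz c)).commutant

theorem zn_w (h : Np a b) (hX : X ∈ Zn c) :
    X ∈ c.N (Wdg a b y) ∧ X ∈ (c.N (Wdg a b y)).commutant :=
  ⟨mem_of_comm fun Z hZ v => DFunLike.congr_fun ((mem_gv sz_star).1 hX Z
    (.inl ⟨a, b, y, h, .inr hZ⟩)) v, VonNeumannAlgebra.mem_commutant_iff.2 fun Z hZ =>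
      (mem_gv sz_star).1 hX Z (.inl ⟨a, b, y, h, .inl hZ⟩)⟩

theorem zn_u (g : Sh c) : g.U c ∈ (Zn c).commutant := mem_cc.2 (sub_gv sz_star _ (.inr ⟨g, rfl⟩))

theorem zn_vac (hI : IVac c.Q) (hK : IsBounded K) (hY : Y ∈ c.N K) :
    ∃ z ∈ Zn c, Mn c (Y c.Om) (z c.Om) := by
  obtain ⟨t, m, p, k⟩ := lim2 hK (po_mem hY (c.hN.gam _ _ hY) false) ((gd c).par_po false Y)
  obtain ⟨t', m', p', k'⟩ := lim2 hK (po_mem hY (c.hN.gam _ _ hY) true) ((gd c).par_po true Y)
  simp only [Cg.gp, cond, mul_one] at p k p' k'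
  have z : t' c.Om = 0 := by
    have e := comm_apply (star_mem (k' _ _ 0 np0).1) (k' _ _ 0 np0).2 c.Om
    have o := (gd c).par_app ((gd c).par_star p') c.Om
    have j : ∀ v, t' v = (t' * c.Γ) (c.Γ v) := fun v => by
      rw [ContinuousLinearMap.mul_apply, (gd c).gg]
    rw [EG.SGx.gv, sg_true, neg_one_smul] at o
    replace e := congrArg (inner ℂ c.Om) e
    rw [j (star (t' * c.Γ) c.Om), o, map_neg, st_r, inner_neg_right, ← st_l (t' * c.Γ),
      ContinuousLinearMap.mul_apply, EG.SGx.gv, inner_self_eq_norm_sq_to_K, inner_self_eq_norm_sq_to_K] at e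
    norm_cast at e
    exact norm_eq_zero.1 (by nlinarith [sq_nonneg ‖star (t' * c.Γ) c.Om‖, norm_nonneg (t' c.Om)])
  refine ⟨t, (mem_gv sz_star).2 ?_, m.1, fun w i => ?_⟩
  · rintro X (⟨a, b, y, h, q | q⟩ | ⟨g, rfl⟩)
    · exact comm_mul q (k a b y h).2
    · exact (comm_mul (k a b y h).1 q).symm
    have u := EG.SGx.uni g
    have e : star (star (g.U c)) * t * star (g.U c) = t := by
      refine sep (conj_comm (Unitary.star_mem u) (fun A q => EG.SGx.U_inv g ▸ EG.SGx.alg1 g.inv q)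
        (bd_com (EG.SGx.bdd _ _ Metric.isBounded_ball) fun a b y h => (k a b y h).2))
        (bd_com Metric.isBounded_ball fun a b y h => (k a b y h).2) ?_
      have i : (Ut c.Q g.a * Ug c.Q g.s g.L 0) (t c.Om) = t c.Om := by
        rw [ContinuousLinearMap.mul_apply, Ug_apply _ g.hs g.hL, hI _ (fun a =>
          (Ug_apply _ one_pos H496.isLor_one a _).symm.trans (m.1 a)) _ _ g.hs g.hL, m.1]
      rw [star_star, ContinuousLinearMap.mul_apply, ((EG.sg_row c).vac g).2,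
        ContinuousLinearMap.mul_apply]
      rcases (up_ip c).eq (⟨g, rfl, fun _ => rfl⟩ : Ip c (g.U c) g.act) (((ip_ut c g.a).mul
        (ip_ug c g.hs g.hL 0)).cast fun z => (sim_zero _ _).symm) with h | h <;> rw [h]
      · exact i
      · rw [ContinuousLinearMap.mul_apply, i, (gd c).par_app p, EG.SGx.gv, sg_false, one_smul]
    rw [star_star] at e
    conv_rhs => rw [← e, mul_assoc, u.1, mul_one]
  · have := m'.2 w i
    rw [z, inner_zero_right] at this
    rw [m.2 w i, ← po_add (Γ := c.Γ) Y, ContinuousLinearMap.add_apply, inner_add_right, ← this,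
      add_zero, po_add]

variable (c) in
/-- the generators of the new net -/
def Sn (O : Set V) : Set (Completion D →L[ℂ] Completion D) :=
  {X | (∃ K ⊆ O, IsBounded K ∧ X ∈ c.N K) ∨ X ∈ Zn c}

theorem sn_star (O : Set V) : ∀ X ∈ Sn c O, star X ∈ Sn c O := by
  rintro X (⟨K, a, b, k⟩ | k)
  exacts [.inl ⟨K, a, b, star_mem k⟩, .inr (star_mem k)]

theorem sn_le (h : Np a b) : ∀ X ∈ gv (Sn c (Wdg a b y)), X ∈ c.N (Wdg a b y) :=
  gv_le (sn_star _) <| by
    rintro X (⟨K, a, -, k⟩ | k)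
    exacts [c.hN.mono _ _ a X k, (zn_w h k).1]

theorem sn_cj (g : Sh c) (O : Set V) : ∀ X ∈ gv (Sn c O),
    g.U c * X * star (g.U c) ∈ gv (Sn c (g.act '' O)) := fun X hX => by
  have u := EG.SGx.uni g
  have := conj_comm (Unitary.star_mem u) (M := (gv (Sn c (g.act '' O))).commutant)
    (M' := (gv (Sn c O)).commutant) (fun Z hZ => (mem_gv (sn_star _)).2 fun y hy => ?_)
    (mem_cc.2 hX)
  · rwa [star_star, mem_cc] at this
  have m : g.U c * y * star (g.U c) ∈ Sn c (g.act '' O) := by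
    obtain ⟨K, a, b, k⟩ | k := hy
    · exact .inl ⟨_, image_mono a, EG.SGx.bdd _ _ b, EG.SGx.alg1 g k⟩
    · rw [← comm_mul k (zn_u g), mul_assoc, u.2, mul_one]
      exact .inr k
  have e := congrArg (fun A => star (g.U c) * A * g.U c) ((mem_gv (sn_star _)).1 hZ _ m)
  simp only [← mul_assoc, u.1, one_mul] at e
  simpa only [mul_assoc, u.1, mul_one, star_star] using e

theorem lng : LNg c.Q c.G c.A c.Γ fun O => gv (Sn c O) :=
  ⟨c.hN.toGr, c.hN.vac, c.hN.add, c.hN.der, c.hN.ext, fun O B f hB hf =>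
    (c.hN.fld _ B f hB ⟨hf.1, hf.2.1, le_rfl⟩).imp fun X' k => ⟨k.1, fun Y hY => k.2 Y
      (comm_anti (fun X m => sub_gv (sn_star _) X (.inl ⟨_, hf.2.2, hf.2.1.isCompact.isBounded, m⟩))
        Y hY)⟩, fun O O' h => gv_le (sn_star _) fun X m => sub_gv (sn_star _) X
      (m.imp_left fun ⟨K, a, b⟩ => ⟨K, a.trans h, b⟩), fun s L y O X m hs hL =>
    ⟨_, sn_cj ⟨⟨s, L, y, hs, hL⟩, false⟩ O X m, fun z => by
      rw [← Ug_apply _ hs hL, ← Ug_apply _ hs hL]
      exact congrArg (fun v => Ug c.Q s L y (X v))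
        (DFunLike.congr_fun (ip_ug c hs hL y).uni.1 z)⟩, fun O X m => by
    have := sn_cj (Sh.gm c true) O X m
    rwa [((EG.sg_row c).gm true).1, Cg.gp, cond, EG.SGx.gs,
      image_congr fun x _ => ((EG.sg_row c).gm true).2 x, image_id'] at this,
    fun a b X ha hb h m => by
      have p : Np a b := ⟨ha, hb, h⟩
      have := c.hN.loc a b X ha hb h (sn_le p.symm X m)
      exact ⟨comm_anti (sn_le p) _ this.1, comm_anti (sn_le p) _ this.2⟩⟩

end Zc

open Zc in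
/-- **row CTR** -/
theorem ctr {D : Type*} [NormedAddCommGroup D] [InnerProductSpace ℂ D] (c : Cg D) : CTR c :=
  fun hI => by
  have ab : ∀ z ∈ Zn c, z ∈ (Zn c).commutant := fun z hz =>
    mem_cc.2 (sub_gv sz_star z (.inl ⟨_, _, 0, np0, .inl (zn_w np0 hz).1⟩))
  have rs := EG.SGx.rs (c := c) (O := Metric.ball 0 1) Metric.isOpen_ball
    (Metric.nonempty_ball.2 one_pos)
  refine ⟨_, lng, Zn c, ⟨⟨Kin.norm_om, ab, rs.mono ?_⟩, fun O z hz =>
    ⟨sub_gv (sn_star _) z (.inr hz), (mem_gv (sn_star _)).2 ?_⟩, fun s L a => ?_, ?_,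
    fun v hv => Metric.mem_closure_iff.2 fun ε hε => ?_⟩, fun a b y ha hb h => sn_le ⟨ha, hb, h⟩⟩
  · rintro _ ⟨X, m, rfl⟩
    refine ⟨X, VonNeumannAlgebra.mem_commutant_iff.2 fun z hz => (comm_mul m ?_).symm, rfl⟩
    exact bd_com Metric.isBounded_ball fun a b y h => (zn_w h hz).2
  · rintro X (⟨K, -, b, k⟩ | k)
    · exact comm_mul k (bd_com b fun a b y h => (zn_w h hz).2)
    · exact comm_mul k (ab z hz)
  · by_cases h : 0 < s ∧ IsLor L
    · exact zn_u (c := c) ⟨⟨s, L, a, h.1, h.2⟩, false⟩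
    · rw [Ug, dif_neg h]
      exact one_mem _
  · have := zn_u (Sh.gm c true)
    rwa [((EG.sg_row c).gm true).1] at this
  · obtain ⟨_, ⟨Y, m, rfl⟩, k⟩ := rs.exists_dist_lt v hε
    obtain ⟨z, a, b⟩ := zn_vac hI Metric.isBounded_ball m
    refine ⟨_, ⟨z, a, rfl⟩, lt_of_le_of_lt ?_ k⟩
    have i : ∀ y, Ut c.Q y (v - z c.Om) = v - z c.Om := fun y => by
      rw [map_sub, b.1]
      exact congrArg (· - _) (hv y)
    have e := norm_inner_le_norm (𝕜 := ℂ) (v - z c.Om) (v - Y c.Om)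
    rw [inner_sub_right, ← b.2 _ i, ← inner_sub_right, inner_self_eq_norm_sq_to_K] at e
    norm_cast at e
    rw [dist_eq_norm, dist_eq_norm]
    refine le_of_not_gt fun q : _ < ‖v - z c.Om‖ => ?_
    rw [abs_of_nonneg (sq_nonneg _)] at e
    nlinarith [norm_nonneg (v - Y c.Om)]

end

end Vale.Agent.N352.U
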