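import Vale.Agent.N352.U.Mx0
import Vale.Agent.N352.X.W

/-!
# N352, block U: mixing, and the conformal structure of the extension (helper72)
-/

set_option linter.all false

open Filter Topology
open scoped ComplexConjugate

namespace Vale.Agent.N352.U

open Vale.Agent.P352 Vale.Agent.P352.GF Vale.Agent.P352.BW Vale.Agent.P352.H246
open Vale.Agent.P352.H496 Vale.Agent.P352.H755 Vale.Agent.P352.H15
open Vale.Agent.P352.SubConf (IsAdj)
open Vale.Agent.P352X Vale.Agent.P352X.EB
open Vale.Agent.P352X.EG (Cg)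
open UniformSpace (Completion)
open G G.X

noncomputable section

section hilbert

variable {H : Type*} [NormedAddCommGroup H] [InnerProductSpace ℂ H] [CompleteSpace H]

/-- weak convergence to zero: it is enough to test a set and its orthogonal complement -/
theorem wk_zero {ι : Type*} {l : Filter ι} {u : ι → H} {C : ℝ} (hC : ∀ᶠ i in l, ‖u i‖ ≤ C)
    {s : Set H} (h1 : ∀ w ∈ s, Tendsto (fun i => inner ℂ (u i) w) l (𝓝 0))
    (h2 : ∀ w, (∀ z ∈ s, inner ℂ z w = 0) → Tendsto (fun i => inner ℂ (u i) w) l (𝓝 0)) (w : H) :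
    Tendsto (fun i => inner ℂ (u i) w) l (𝓝 0) := by
  let M : Submodule ℂ H := ⟨⟨⟨{w | Tendsto (fun i => inner ℂ (u i) w) l (𝓝 0)}, fun a b => by
    simpa only [Set.mem_setOf_eq, inner_add_right, add_zero] using a.add b⟩, by simpa using
      tendsto_const_nhds⟩, fun z w a => by
      simpa only [Set.mem_setOf_eq, inner_smul_right, mul_zero] using a.const_mul z⟩
  have d : w ∈ M.topologicalClosure := by
    rw [← Submodule.orthogonal_orthogonal_eq_closure]
    intro ξ k
    have := k ξ (h2 ξ fun z hz => k z (h1 z hz))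
    rw [inner_self_eq_zero.1 this, inner_zero_left]
  refine NormedAddGroup.tendsto_nhds_zero.2 fun ε hε => ?_
  have p : 0 < ε / 2 / (|C| + 1) := by positivity
  obtain ⟨v, m, e⟩ := Metric.mem_closure_iff.1 d _ p
  filter_upwards [hC, NormedAddGroup.tendsto_nhds_zero.1 m _ (half_pos hε)] with i a b
  rw [← sub_add_cancel w v, inner_add_right]
  refine (norm_add_le _ _).trans_lt ?_
  have := norm_inner_le_norm (𝕜 := ℂ) (u i) (w - v)
  rw [dist_eq_norm, lt_div_iff₀ (by positivity)] at e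
  nlinarith [le_abs_self C, norm_nonneg (w - v), norm_nonneg (u i)]

end hilbert

variable {D : Type*} [NormedAddCommGroup D] [InnerProductSpace ℂ D]

/-- invariance under the translations in a null plane implies translation invariance -/
theorem mautner (c : Cg D) {η : Completion D} (h : ∀ y, be y = 0 → Ut c.Q y η = η) (a : V) :
    Ut c.Q a η = η := by
  have ip := fun s => ip_im (c := c) (Grp.im_gb c.Q s)
  have t := tends_of (fun s => (ip s).uni) Completion.denseRange_coe (by
    rintro _ ⟨v, rfl⟩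
    obtain ⟨w, k⟩ := Sq.der_ug c (s := fun _ => 1) rfl
      (funext fun m => by simp [H746.nrt, GF.one, GF.mdot])
      (fun t : ℝ => ⟨one_pos, (Grp.lgb t).1⟩) (fun z => by
        simp only [(Grp.lgb _).2, gbp]
        exact (ContDiff.differentiable (n := 1) (by fun_prop) one_ne_zero).differentiableAt) v
    have := k.continuousAt.tendsto
    rwa [show Ug c.Q 1 _ 0 = Gb c.Q 0 from rfl, Grp.gb0] at this) η
  have t2 := ((tendsto_iff_norm_sub_tendsto_zero.1 t).const_mul 2).mono_left
    (nhdsWithin_le_nhds (s := {0}ᶜ))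
  rw [mul_zero] at t2
  refine sub_eq_zero.1 (norm_le_zero_iff.1 (ge_of_tendsto t2 ?_))
  filter_upwards [self_mem_nhdsWithin] with s hs
  set y := (2 * be a / s ^ 2) • va
  have e1 : Ut c.Q a η = Ut c.Q (gbp s y) η := by
    rw [← add_sub_cancel (gbp s y) a, Sq.ut, ContinuousLinearMap.mul_apply, h]
    simp only [y, gbp, be_sub, be_pt, be_smul, al_smul, tx_smul, be_va, al_va, tx_va]
    field_simp [show s ≠ 0 from hs]
    simp
  have e2 : Ut c.Q (gbp s y) (Gb c.Q s η) = Gb c.Q s η := by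
    have := DFunLike.congr_fun (Sq.lin_ut (A := gbpL s) ((ip s).cast fun z => by simp) y) η
    rwa [ContinuousLinearMap.mul_apply, h y (by simp [y]), gbpL_apply, eq_comm] at this
  rw [e1, show Ut c.Q (gbp s y) η - η = Gb c.Q s η - η - Ut c.Q (gbp s y) (Gb c.Q s η - η) by
    rw [map_sub, e2]; abel, two_mul]
  exact (norm_sub_le _ _).trans_eq (by rw [(ip_ut c _).nrm])

/-- **row MIXI** -/
theorem mixi (c : Cg D) : MIXI c := fun hI ξ w h => by
  have e : ∀ {z}, Tendsto (fun r : ℝ => inner ℂ (star (P352X.Usc c.Q r 1) ξ) z) (𝓝[>] 0) (𝓝 0) ↔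
      Tendsto (fun r : ℝ => inner ℂ ξ (P352X.Usc c.Q r 1 z)) (𝓝[>] 0) (𝓝 0) := by
    simp only [ContinuousLinearMap.star_eq_adjoint, ContinuousLinearMap.adjoint_inner_left,
      implies_true]
  have ip := fun r (hr : 0 < r) => ip_sc0 c hr one_pos
  refine (e.1 (wk_zero (C := ‖ξ‖) (s := {z | ∃ y ζ, be y = 0 ∧ z = Ut c.Q y ζ - ζ})
    (eventually_nhdsWithin_of_forall fun r hr => (ContinuousLinearMap.norm_map_of_mem_unitary
      (Unitary.star_mem (ip r hr).uni) ξ).le) ?_ (fun z k => e.2 ?_) w)).congr'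
    (eventually_nhdsWithin_of_forall fun r hr => ?_)
  · rintro _ ⟨y, ζ, hy, rfl⟩
    have t : Tendsto (fun r => Ut c.Q (-scp r 1 y) ξ - ξ) (𝓝[>] 0) (𝓝 0) := by
      refine tendsto_sub_nhds_zero_iff.2 (((Sq.ut_cont c (v := fun _ => ξ) (a := fun r =>
        -scp r 1 y) (by unfold scp; fun_prop) continuous_const).tendsto' 0 _ ?_).mono_left
          nhdsWithin_le_nhds)
      rw [show -scp 0 1 y = 0 from null_ext (by simp [scp]) (by simp [scp, hy]) (by simp [scp]),
        EG.SGx.ut_zero]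
    refine e.2 (squeeze_zero_norm' (eventually_nhdsWithin_of_forall fun r hr => ?_)
      (by simpa using t.norm.mul_const ‖ζ‖))
    have := DFunLike.congr_fun (Sq.lin_ut (A := scpL r 1) (ip r hr) y) ζ
    rw [map_sub, ← ContinuousLinearMap.mul_apply, this, ContinuousLinearMap.mul_apply,
      inner_sub_right, ← ContinuousLinearMap.adjoint_inner_left,
      ← ContinuousLinearMap.star_eq_adjoint, Sq.star_ut, ← inner_sub_left, ← (ip r hr).nrm ζ]
    exact norm_inner_le_norm _ _
  · have iv : ∀ a, Ut c.Q a z = z := mautner c fun y hy => ext_inner_left ℂ fun ζ => by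
      have := k _ ⟨-y, ζ, by simp [hy], rfl⟩
      rwa [inner_sub_left, ← Sq.star_ut, ContinuousLinearMap.star_eq_adjoint,
        ContinuousLinearMap.adjoint_inner_left, sub_eq_zero] at this
    refine tendsto_const_nhds.congr' (eventually_nhdsWithin_of_forall fun r hr => ?_)
    obtain ⟨p1, p2⟩ := CA.lsc_pos hr
    show _ = inner ℂ ξ (Ug _ _ (TPD.Lsc r 1) _ _)
    rw [Ug_apply _ p1 p2, hI z (fun a => (Ug_apply _ one_pos H496.isLor_one a z).symm.trans (iv a))
      _ _ p1 p2, h z iv]
  · obtain ⟨p1, p2⟩ := CA.lsc_pos hr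
    exact congrArg _ (Ug_apply _ p1 p2 _ _)

/-- **row CONFI** -/
theorem confi (c : X.Ctx D) : CONFI c := fun hI hM hF fin => by
  obtain ⟨D', Q', G', e, L, h1, h0, h2, h3, h4, -, h6⟩ := fin
  refine ⟨D', Q', G', e, L, h1, h0, h2, h3, h4, fun Q'' n => ?_⟩
  obtain ⟨h7, h8⟩ := scal_row D' Q' _ L h2 h3 h4 Q'' n
  refine ⟨h7, h8, fun g => ?_⟩
  have hT'' := H746.isStress_enl n h2
  have hL'' := scalar_enl n h3
  let M : D' →ₗ[ℂ] D' :=
    { toFun := G'
      map_add' := fun v w => ext_inner_right ℂ fun y => by simp only [g.herm, inner_add_left]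
      map_smul' := fun z v => ext_inner_right ℂ fun y => by
        simp only [g.herm, inner_smul_left, RingHom.id_apply] }
  have gt : ∀ m n f v, IsTest f → improve (fun m n => e (c.T m n)) L m n f (G' v) =
      M (improve (fun m n => e (c.T m n)) L m n f v) := fun m n f v hf => by
    simp only [improve, map_add, map_sub, map_smul, map_sum, g.bose _ _ v (hT''.bose m n) hf,
      fun k l => g.bose _ _ v hL''.1 (Ap.test_pd k (Ap.test_pd l hf))]
    rfl
  let k : CA.G.Cx D' := ⟨Q'', _, G', isT_of_impr h7 hT'',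
    fun m n k l f g v hf hg h => sub_eq_zero.1 (h7.self m n k l f g v hf hg h), h7.cov,
    ⟨_, hT''.bose o o⟩, g.inv, g.herm, gt, g.GU,
    fun C hC => by
      obtain ⟨C1, C2, a1, a2, e⟩ := g.split C hC
      refine ⟨2, ![1, -1], ![C1, C2], fun j => ?_, fun k v hk => ?_⟩
      · fin_cases j
        exacts [Q''.bose_fld _ a1, a2.1]
      · rw [e k _ hk, g.bose C1 k v a1 hk, a2.2 k v hk, show G' _ = M _ from rfl, map_add, map_neg]
        simp [M, g.inv],
    g.mul, Mn.mx_of c.toCg (mixi _) hI h7 (.id ℂ _) D'.subtypeₗᵢ (fun _ _ => rfl)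
      (by rw [n.vac]; exact h1.vac.symm) (fun s M a z v hs hM => by
        rw [n.U]
        show inner ℂ _ (Q'.U s M a v : Completion D) = _
        rw [h1.U _ _ _ _ hs hM]
        exact ue_inner hs hM _ _ _) fun F _ => ⟨_, rfl⟩⟩
  obtain ⟨x, f0, al⟩ := CA.G.all_thm k
  have tl : CA.G.Tl k := fun _ _ => CA.G.clf k g
  have cf : CFS Q'' G' (improve (fun m n => e (c.T m n)) L) := CA.G.cfs' al tl
  refine ⟨cf, fun B hB => ?_⟩
  obtain ⟨m, C, hC, h⟩ := h6 B hB
  have key : ∀ i, ∃ (r : ℕ) (p : Fin r → Bool) (C' : Fin r → Fld D'),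
      (∀ j, DescS Q'' G' (improve (fun m n => e (c.T m n)) L) (p j) (C' j)) ∧
      ∀ f v, IsTest f → C i f v = ∑ j, C' j f v := fun i => by
    rcases hC i with h | ⟨C', a, b⟩
    · exact ⟨1, fun _ => false, fun _ => L, fun _ => EG.desc_scal cf hL'', fun _ _ _ => by simp [h]⟩
    · obtain ⟨r, p, C'', a1, a2⟩ := desc_fld h1 (cov0_row hM hF) n hF g (CA.G.descM al tl)
        (EG.H.md (EG.e0_thm c.toCg) hM) a
      exact ⟨r, p, C'', a1, fun f v hf => (b f v hf).trans (a2 f v hf)⟩
  choose r p C' b1 b2 using key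
  let E := (Fintype.equivFin (Σ i, Fin (r i))).symm
  refine ⟨_, fun j => p (E j).1 (E j).2, fun j => C' (E j).1 (E j).2, fun j => b1 _ _,
    fun f v hf => (h f v).trans ?_⟩
  rw [E.sum_comp fun j => C' j.1 j.2 f v, Fintype.sum_sigma]
  exact Finset.sum_congr rfl fun i _ => b2 i f v hf

end

end Vale.Agent.N352.U
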