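import Vale.Agent.N352.U.Fn
import Vale.Agent.N352.X.COV
import Vale.Agent.N352.X.Net

/-!
# N352, block U: systems of fibres
-/

set_option linter.all false

open MeasureTheory Filter Topology
open scoped ComplexConjugate SchwartzMap
open UniformSpace (Completion)

namespace Vale.Agent.N352.U

open Vale.Agent.P352 Vale.Agent.P352.GF Vale.Agent.P352.BW Vale.Agent.P352.H246
open Vale.Agent.P352.H15 Vale.Agent.P352.BW.H234
open Vale.Agent.P352.SubConf (IsAdj)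
open Vale.Agent.P352X Vale.Agent.P352X.EB Vale.Agent.P352X.EG
open Vale.Agent.P352W.Net (vn hl mem_hl mem_vn mem_cmt)
open Vale.Agent.P132 (ModData)
open Kn (wd W1 Fl)

noncomputable section

universe u

variable {D : Type u} [NormedAddCommGroup D] [InnerProductSpace ℂ D] {c : Cg D}
  {Z : VonNeumannAlgebra (Completion D)} {s : Set (Fld D)}

/-- the span of the words in the Hilbert space -/
abbrev Dc (c : Cg D) (s : Set (Fld D)) : Submodule ℂ (Completion D) :=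
  (D0 c s).map (Completion.toComplL : D →L[ℂ] Completion D).toLinearMap

/-- differences of translates, and the central vectors -/
def M2 (c : Cg D) (Z : VonNeumannAlgebra (Completion D)) (s : Set (Fld D)) :
    Submodule ℂ (Completion D) :=
  Submodule.span ℂ ({w | ∃ a, ∃ v ∈ D0 c s, w = Ut c.Q a v - v} ∪ {w | ∃ z ∈ Z, z c.Om = w})

theorem m2 (hZ : Ctr c Z) (h : Cld c s) {w} (hw : w ∈ (Dc c s).topologicalClosure) :
    w ∈ (M2 c Z s).topologicalClosure := by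
  rw [← Submodule.orthogonal_orthogonal_eq_closure]
  intro ξ hξ
  let S := (Dc c s).topologicalClosure
  haveI : CompleteSpace S := (Submodule.isClosed_topologicalClosure _).completeSpace_coe
  have m := S.starProjection_apply_mem ξ
  have e : ∀ v ∈ S, inner ℂ v (S.starProjection ξ) = inner ℂ v ξ := fun v hv => by
    rw [← Submodule.inner_starProjection_left_eq_right, Submodule.starProjection_eq_self_iff.2 hv]
  have iv : ∀ a, ∀ v ∈ S, Ut c.Q a v ∈ S := fun a v hv =>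
    map_mem_closure (Ut c.Q a).continuous hv (by
      rintro _ ⟨v, p, rfl⟩
      exact ⟨_, h.U ⟨1, GF.one, a, one_pos, H496.isLor_one⟩ p, (SGx.ut_coe c.Q a v).symm⟩)
  have z : ∀ {t : Set (Completion D)} {v}, (∀ u ∈ t, inner ℂ u v = 0) →
      ∀ u ∈ closure t, inner ℂ u v = 0 := fun k u hu =>
    closure_minimal k (isClosed_eq (by fun_prop) continuous_const) hu
  have k := hZ.vac (S.starProjection ξ) fun a => sub_eq_zero.1 (inner_self_eq_zero.1 (z (by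
    rintro _ ⟨v, p, rfl⟩
    have q : (v : Completion D) ∈ S := subset_closure ⟨v, p, rfl⟩
    have := hξ _ (Submodule.subset_span (.inl ⟨-a, v, p, rfl⟩))
    rwa [← e _ (sub_mem (iv _ _ q) q), inner_sub_left, ← G.Sq.star_ut, st_l,
      ← inner_sub_right] at this) _ (sub_mem (iv a _ m) m)))
  have := (e _ m).trans (z (fun u hu => hξ u (Submodule.subset_span (.inr hu))) _ k)
  rw [← inner_conj_symm, ← e w hw, inner_self_eq_zero.1 this, inner_zero_right, map_zero]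

namespace Fd

variable {y : Fib c Z} (d : Fd y s)

theorem om : y.b.φ c.Om = om d.th := d.rv.φ

theorem uv {t : Set (Completion D)}
    (hd : Dense (Submodule.span ℂ (y.b.φ '' t) : Set (Completion y.E)))
    (h : ∀ w ∈ t, y.b.φ w ∈ closure (y.b.φ '' M2 c Z s)) : Kin.UVac d.th := fun η hη => by
  have hη : ∀ a, y.b.π (Ut c.Q a) η = η := fun a =>
    (congrArg (· η) (d.πUg _ _ a)).trans ((Ug_apply _ one_pos H496.isLor_one a η).trans (hη a))
  refine ⟨inner ℂ (y.b.φ c.Om) η, ?_⟩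
  rw [← d.om, ← sub_eq_zero]
  have P : ∀ a, Ut c.Q a ∈ y.b.P := d.UP 1 GF.one
  set ξ := η - inner ℂ (y.b.φ c.Om) η • y.b.φ c.Om
  have o : inner ℂ ξ (y.b.φ c.Om) = 0 := by
    rw [inner_eq_zero_symm, inner_sub_right, inner_smul_right, inner_self_eq_norm_sq_to_K, y.b.nrm]
    simp
  have iv : ∀ a, y.b.π (Ut c.Q a) ξ = ξ := fun a => by
    rw [map_sub, map_smul, hη, Fb.ap (P a) y.b.om, (G.ip_ut c a).vac]
  have k : ∀ m ∈ M2 c Z s, m ∈ y.b.L ∧ inner ℂ ξ (y.b.φ m) = 0 := fun m hm => by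
    induction hm using Submodule.span_induction with
    | mem x hx =>
      obtain ⟨a, v, p, rfl⟩ | ⟨z, hz, rfl⟩ := hx
      · have l := (d.mm v p).1
        refine ⟨sub_mem (Fb.am (P a) l) l, ?_⟩
        rw [Fb.sub (Fb.am (P a) l) l, inner_sub_right, ← Fb.ap (P a) l, sub_eq_zero]
        exact (congrArg (inner ℂ · _) (iv a).symm).trans (inner_unitary (d.uni _ _ a) _ _)
      · refine ⟨Fb.am (y.b.zp z hz).1 y.b.om, ?_⟩
        rw [← Fb.ap (y.b.zp z hz).1 y.b.om, (y.b.zp z hz).2, ContinuousLinearMap.smul_apply,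
          inner_smul_right, ContinuousLinearMap.one_apply, o, mul_zero]
    | zero => exact ⟨zero_mem _, by rw [y.b.zero, inner_zero_right]⟩
    | add x z _ _ a b =>
      exact ⟨add_mem a.1 b.1, by rw [y.b.add _ a.1 _ b.1, inner_add_right, a.2, b.2, add_zero]⟩
    | smul a x _ b =>
      exact ⟨Submodule.smul_mem _ _ b.1, by rw [y.b.smul _ _ b.1, inner_smul_right, b.2, mul_zero]⟩
  refine hd.eq_zero_of_inner_left ℂ fun u hu =>
    (Submodule.span_le (p := LinearMap.ker (innerSL ℂ ξ).toLinearMap)).2 ?_ hu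
  rintro _ ⟨w, hw, rfl⟩
  refine closure_minimal (t := {u | inner ℂ ξ u = 0}) ?_
    (isClosed_eq (by fun_prop) continuous_const) (h w hw)
  rintro _ ⟨m, hm, rfl⟩
  exact (k m hm).2

include d in
theorem lnk {F0 : Set (Fld D)} {R : Set ℝ} (h0 : F0 ⊆ s) {t : Set (Completion D)}
    (hd : Dense (Submodule.span ℂ (y.b.φ '' t) : Set (Completion y.E)))
    (h : ∀ w ∈ t, y.b.φ w ∈ closure (y.b.φ '' M2 c Z s))
    (pj : ∀ B ∈ s, ∀ B' ∈ s, IsAdj B B' → ∀ g ∈ ex_loc.choose, ∃ p : Fin 4 → _,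
      (∀ i, p i ∈ c.N (tsupport g) ∧ p i ∈ y.b.P) ∧ ∀ v w : D,
        Pj p (v, (B (ev g) v : D)) ((B' (bar (ev g)) w : D), w))
    (md : ∀ r ∈ R, ∃ E : ModData (c.N (Rc r 0)) c.Om, E.Th rr ∈ y.b.P ∧ ∀ v ∈ t, v ∈ y.b.L ∧
      E.J (E.Th ss v) ∈ y.b.L ∧ (y.b.φ (E.Th rr v), y.b.φ (E.J (E.Th ss v))) ∈ closure
        {p | ∃ Y ∈ c.N (Rc r 0), Y ∈ y.b.P ∧ p = (y.b.φ (Y c.Om), y.b.φ (star Y c.Om))}) :
    ∃ k e, Lnk y F0 R k e := by
  obtain ⟨A, a1, a2⟩ := P352R.Tg.gen (P352R.Br.gr.2 d.gr) d.cy (P352R.Br.mfa.2 d.mfa) d.fsl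
  have net : ∀ O, ∀ Y ∈ c.N O, Y ∈ y.b.P → y.b.π Y ∈ hl (fun O => vn (N0 y O)) O :=
    fun O Y a b => mem_hl.2 fun U _ k => mem_vn.2 fun X hX =>
      ((mem_cmt (N0_star U)).1 hX _ ⟨Y, ⟨c.hN.mono _ _ k Y a, b⟩, rfl⟩).symm
  have cm : ∀ O, IsOpen O → ∀ Y', (∀ Y ∈ c.N O, Y ∈ y.b.P → y.b.π Y * Y' = Y' * y.b.π Y) →
      Y' ∈ (hl (fun O => vn (N0 y O)) O).commutant := fun O hO Y' k =>
    com hO (by rintro _ ⟨Y, p, rfl⟩; exact k Y p.1 p.2)
  refine ⟨⟨d.th, _, A, _, _, d.lng a1 a2 pj⟩, d.e, d.om, fun r L a => ⟨d.UP r L a, d.πUg r L a⟩,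
    ⟨d.GP, rfl⟩, d.uv hd h, d.mfa, d.fsl, fun B hB f hf =>
      ⟨(d.rv.fld (h0 hB) hf).L, (d.rv.fld (h0 hB) hf).φ⟩, fun T m hT hP =>
      ⟨d.st0 a2 (fun a b => h0 (m a b)) hT hP, d.pch a2 (fun a b => h0 (m a b)) hT.bose hP⟩,
    fun T m hT hP => ?_, fun B F C a b m => d.scl (h0 a) (fun _ => b) fun p => h0 (m p), net, cm,
    fun r hr E E' x => ?_⟩
  · have k := d.st0 a2 (fun a b => h0 (m a b)) ⟨hT.bose, hT.symm, hT.herm,
      fun m n L a f v => hT.cov m n 1 L a f v one_pos, hT.conserved, hT.charge⟩ hP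
    exact ⟨k.bose, k.symm, k.herm, fun a b r L x f η hr hL hf => d.tcov (fun a b => h0 (m a b))
      hr hL hf (fun v => hT.cov a b r L x f v hr hL hf) η, k.conserved, k.charge⟩
  · obtain ⟨E0, p, q⟩ := md r hr
    rw [show E.U x = E0.U x from ContinuousLinearMap.ext (Th_unique E E0 _)]
    have key : ∀ ξ, y.b.φ c.Om = ξ → ∀ E' : ModData (hl (fun O => vn (N0 y O)) (Rc r 0)) ξ,
        E0.U x ∈ y.b.P ∧ y.b.π (E0.U x) = E'.U x := by
      rintro _ rfl E'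
      exact y.b.mod d.sat (d.ct.sub _) E0 E' (net _) (cm _ (G.X.rc_open r)) p hd q x
    exact key _ d.om E'

end Fd

/-! ## countable closed families -/

theorem Dc_mono {t : Set (Fld D)} (h : s ⊆ t) :
    (Dc c s).topologicalClosure ≤ (Dc c t).topologicalClosure :=
  Submodule.topologicalClosure_mono (Submodule.map_mono (Submodule.span_mono
    fun _ ⟨n, u, a, b⟩ => ⟨n, u, fun i => h (a i), b⟩))

theorem ex_cv (c : Cg D) (v : Completion D) : ∃ t : Set (Fld D), t.Countable ∧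
    (∀ B ∈ t, c.Q.fld B) ∧ v ∈ (Dc c t).topologicalClosure := by
  have k : ∀ w ∈ D0 c c.Q.fld, ∃ t : Set (Fld D), t.Countable ∧ (∀ B ∈ t, c.Q.fld B) ∧
      (w : Completion D) ∈ (Dc c t).topologicalClosure := fun w hw => by
    induction hw using Submodule.span_induction with
    | mem x hx =>
      obtain ⟨n, u, -, f, rfl⟩ := hx
      exact ⟨_, Set.countable_range fun i => (u i).1, by rintro _ ⟨i, rfl⟩; exact (u i).2,
        subset_closure ⟨_, Submodule.subset_span ⟨n, u, fun i => ⟨i, rfl⟩, f, rfl⟩, rfl⟩⟩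
    | zero => exact ⟨∅, Set.countable_empty, fun _ => False.elim, by
        rw [Completion.coe_zero]; exact zero_mem _⟩
    | add x y _ _ a b =>
      obtain ⟨t, a1, a2, a3⟩ := a
      obtain ⟨t', b1, b2, b3⟩ := b
      exact ⟨t ∪ t', a1.union b1, fun B k => k.elim (a2 B) (b2 B), Completion.coe_add x y ▸
        add_mem (Dc_mono Set.subset_union_left a3) (Dc_mono Set.subset_union_right b3)⟩
    | smul a x _ b =>
      exact b.imp fun t b => ⟨b.1, b.2.1, Completion.coe_smul a x ▸ Submodule.smul_mem _ _ b.2.2⟩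
  obtain ⟨d, a, b⟩ := mem_closure_iff_seq_limit.1 (Completion.denseRange_coe.dense_image
    (Completion.continuous_coe D) (c.Q.cyclic (D0 c c.Q.fld) D0_vac
      fun B f v hB => D0_mem hB hB) v)
  choose w p q using a
  choose t t1 t2 t3 using fun n => k _ (p n)
  refine ⟨_, Set.countable_iUnion t1, fun B hB => (Set.mem_iUnion.1 hB).elim fun n => t2 n B,
    (Submodule.isClosed_topologicalClosure _).mem_of_tendsto b (.of_forall fun n => ?_)⟩
  exact q n ▸ Dc_mono (Set.subset_iUnion t n) (t3 n)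

theorem ex_sc (hM : MfAll c.Q) (hF : FSL c.Q) (B : Fl c.Q) : ∃ t : Set (Fld D), t.Countable ∧
    (∀ C ∈ t, c.Q.fld C) ∧ ∀ s, t ⊆ s → (∃ B' ∈ s, IsAdj B.1 B') ∧
    (∃ C ∈ s, ∃ C' ∈ s, c.Q.bose C ∧ Fer c.Q c.G C' ∧
      ∀ f v, IsTest f → B.1 f v = C f v + C' f v) ∧
    (∃ (n : ℕ) (k : Fin n → Rp) (Φ : ∀ i, Fin (k i).n → Fld D) (a : ∀ i, Fin (k i).n),
      (∀ i, IsMf c.Q (k i) (Φ i) ∧ ∀ b, Φ i b ∈ s) ∧
        ∀ f v, IsTest f → B.1 f v = ∑ i, Φ i (a i) f v) ∧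
    (∃ F C, Scl c.Q B.1 F C ∧ ∀ p, C p ∈ s) ∧
    ∃ (n : ℕ) (C : Fin n → Fld D), (∀ i, C i ∈ s) ∧ ∀ g : Sg, ∃ κ : Fin n → ℂ, ∀ f v, IsTest f →
      B.1 f (H.Le.ul c g v) = ∑ i, κ i • H.Le.ul c g (C i (g.pull f) v) := by
  classical
  obtain ⟨B, hB⟩ := B
  obtain ⟨B', a1, a2⟩ := c.Q.adj B hB
  obtain ⟨C, C', b1, b2, b3⟩ := c.hN.split B hB
  obtain ⟨n, A, c1, c2⟩ := hM B hB
  choose k Φ a c3 c4 using c1
  obtain ⟨F, E, d1, d2⟩ := hF B hB
  obtain ⟨-, m, q, κ, -, e⟩ := G.X.cov0_row hM hF B B' hB a1 a2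
  let E' := fun p => if p ∈ F then E p else B
  refine ⟨{B', C, C', B} ∪ ((⋃ i, Set.range (Φ i)) ∪ (E '' F ∪ Set.range fun i => (q i).B)),
    (Set.toFinite _).countable.union ((Set.countable_iUnion fun _ => Set.countable_range _).union
      ((F.countable_toSet.image _).union (Set.countable_range _))), ?_, fun s hs =>
    ⟨⟨B', hs (.inl (by simp)), a2⟩, ⟨C, hs (.inl (by simp)), C', hs (.inl (by simp)), b1, b2, b3⟩,
      ⟨n, k, Φ, a, fun i => ⟨c3 i, fun b => hs (.inr (.inl (Set.mem_iUnion.2 ⟨i, b, rfl⟩)))⟩,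
        by simpa only [c4] using c2⟩, ⟨F, E', ⟨fun p => ?_, fun r f v hr hf => ?_⟩, fun p => ?_⟩,
      m, _, fun i => hs (.inr (.inr (.inr ⟨i, rfl⟩))), fun g => ⟨κ g, fun f v hf => (e g f v hf).1⟩⟩⟩
  · rintro _ ((rfl | rfl | rfl | rfl) | ⟨_, ⟨i, rfl⟩, b, rfl⟩ | ⟨p, -, rfl⟩ | ⟨i, rfl⟩)
    exacts [a1, c.Q.bose_fld _ b1, b2.1, hB, (c3 i).1 b, (d1 p).1, (q i).h]
  · simp only [E']
    split_ifs
    exacts [d1 p, ⟨hB, id⟩]
  · exact (d2 r f v hr hf).trans (Finset.sum_congr rfl fun p hp => by simp only [E', if_pos hp])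
  · simp only [E']
    split_ifs with hp
    exacts [hs (.inr (.inr (.inl ⟨p, hp, rfl⟩))), hs (.inl (by simp))]

theorem ex_pj (B : Fl c.Q) (g : Sch) : ∃ p : Fin 4 → _, HasCompactSupport g →
    (∀ i, p i ∈ c.N (tsupport g)) ∧ ∀ B', IsAdj B.1 B' → ∀ v w : D,
      Pj p ((v : Completion D), (B.1 (ev g) v : D)) ((B' (bar (ev g)) w : D), w) := by
  by_cases h : HasCompactSupport g
  · obtain ⟨X, h1, h2⟩ := c.hN.fld _ B.1 _ B.2 ⟨Kn.tst g, h, subset_rfl⟩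
    obtain ⟨p, a, b⟩ := ex_proj _ (fun v : D => ((v : Completion D), (B.1 (ev g) v : D)))
      (fun w : D => ((X w : D), w)) fun v w Y hY => h2 Y hY v w
    exact ⟨p, fun _ => ⟨a, fun B' k v w => (show X w = B' (bar (ev g)) w from
      ext_inner_left ℂ fun u => by rw [← h1, k _ u w (Kn.tst g)]) ▸ b v w⟩⟩
  · exact ⟨0, fun k => (h k).elim⟩

theorem mem_fast {H : Type*} [NormedAddCommGroup H] {S : Set H} (hS : IsClosed S) {v : H}
    {d : ℕ → H} (h : Summable fun n => ‖v - d n‖ ^ 2) (m : ∀ n, d n ∈ S) : v ∈ S := by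
  refine hS.mem_of_tendsto (b := atTop) (tendsto_iff_norm_sub_tendsto_zero.2 ?_) (.of_forall m)
  simpa [norm_sub_rev v] using h.tendsto_atTop_zero.sqrt

theorem pt_mem {n : ℕ} {u : Fin n → Fl c.Q} (h : ∀ i, (u i).1 ∈ s) (F) :
    W1 u F ∈ (Dc c s).topologicalClosure := by
  rw [← Submodule.orthogonal_orthogonal_eq_closure]
  exact fun ξ hξ => Kn.eq_pt (innerSL ℂ ξ ∘L W1 u) 0 (fun f => inner_eq_zero_symm.1
    (hξ _ ⟨_, Submodule.subset_span ⟨n, u, h, f, rfl⟩, (Kn.W1_pt u f).symm⟩)) F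

theorem inv_of (A : Completion D →L[ℂ] Completion D) {M : Submodule ℂ (Completion D)}
    (h : ∀ n (u : Fin n → Fl c.Q), (∀ i, (u i).1 ∈ s) → ∀ j,
      A (W1 u (tot _ j)) ∈ M.topologicalClosure) :
    ∀ v ∈ (Dc c s).topologicalClosure, A v ∈ M.topologicalClosure := fun v hv => by
  refine closure_minimal (t := A ⁻¹' M.topologicalClosure) (Submodule.map_le_iff_le_comap.2
    (Submodule.span_le.2 ?_) : Dc c s ≤ M.topologicalClosure.comap A.toLinearMap)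
    ((Submodule.isClosed_topologicalClosure _).preimage A.continuous) hv
  rintro _ ⟨n, u, a, f, rfl⟩
  exact (congrArg (A · ∈ M.topologicalClosure) (Kn.W1_pt u f)).mp
    (tot_mem (A ∘L W1 u) _ (h n u a) _)

theorem om_mem : c.Om ∈ Dc c s := ⟨_, D0_vac, rfl⟩

section

variable {K : Type u} [NormedAddCommGroup K] [InnerProductSpace ℂ K] [CompleteSpace K]
  (b : Fb Z c.Om K)

theorem kk_of {t : Set (Completion D)} (h : ∀ n (u : Fin n → Fl c.Q), (∀ i, (u i).1 ∈ s) →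
      ((∀ F, W1 u F ∈ b.L) ∧ Continuous fun F => b.φ (W1 u F)) ∧ ∀ j, W1 u (tot _ j) ∈ t) :
    ∀ v ∈ Dc c s, v ∈ b.L ∧ b.φ v ∈ (Submodule.span ℂ (b.φ '' t)).topologicalClosure := by
  have : Dc c s ≤ (((Submodule.span ℂ (b.φ '' t)).topologicalClosure).comap b.lin).map
      b.L.subtype := by
    refine Submodule.map_le_iff_le_comap.2 (Submodule.span_le.2 ?_)
    rintro _ ⟨n, u, a, f, rfl⟩
    obtain ⟨k, m⟩ := h n u a
    let Λ : 𝓢(Fin n → V, ℂ) →L[ℂ] K := ⟨b.lin ∘ₗ (W1 u).toLinearMap.codRestrict _ k.1, k.2⟩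
    have e := tot_mem Λ (Submodule.span ℂ (b.φ '' t)) (fun j => subset_closure
      (Submodule.subset_span (Set.mem_image_of_mem b.φ (m j)))) (Kn.pt f)
    exact ⟨⟨_, k.1 (Kn.pt f)⟩, e, Kn.W1_pt u f⟩
  intro v hv
  obtain ⟨v, a, rfl⟩ := this hv
  exact ⟨v.2, a⟩

theorem ex_fd (hP : ∀ Y ∈ Z.commutant, Y ∈ b.P) (hZ : Ctr c Z) (cl : Cld c s)
    (l : ∀ v ∈ Dc c s, v ∈ b.L) (t : ∀ n (u : Fin n → Fl c.Q), (∀ i, (u i).1 ∈ s) →
      (∀ F, W1 u F ∈ (b.rs (om_mem (s := s))).L) ∧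
        Continuous fun F => (b.rs (om_mem (s := s))).φ (W1 u F)) :
    Nonempty (Fd ⟨b.Ex (Dc c s), b.rs om_mem⟩ s) := by
  have m : ∀ v ∈ D0 c s, (v : Completion D) ∈ Dc c s := fun v k => ⟨v, k, rfl⟩
  obtain ⟨q, hq⟩ := LinearMap.exists_extend (LinearMap.codRestrict (b.Ex (Dc c s))
    (b.lin ∘ₗ LinearMap.codRestrict _ ((Completion.toComplL : D →L[ℂ] Completion D).toLinearMap
      ∘ₗ (D0 c s).subtype) fun v => l _ (m v v.2)) fun v => b.Ex_mem (m v v.2) (l _ (m v v.2)))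
  have hq := fun v k => LinearMap.congr_fun hq ⟨v, k⟩
  have sat : (b.rs (om_mem (s := s))).Sat := by
    unfold Fb.rs
    exact Fb.res_sat hP
  refine ⟨hZ, cl, q, fun v k => ⟨(Fb.rs_L (h := om_mem)).2 ⟨l _ (m v k), subset_closure
    (b.Ex_mem (m v k) (l _ (m v k)))⟩, (Fb.rs_φ (h := om_mem) (m v k) (l _ (m v k))).trans
      (congrArg _ (hq v k).symm)⟩, ?_, sat, t⟩
  rintro ⟨η, p⟩
  obtain ⟨⟨w, p'⟩, ⟨v, a, e⟩, e'⟩ := id p
  exact ⟨v, a, (hq v a).trans (Subtype.ext ((congrArg b.φ e).trans e'))⟩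

end

/-- words -/
abbrev Wo (c : Cg D) := Σ n, Fin n → Fl c.Q

theorem wo_cnt {t : Set (Fld D)} (ht : t.Countable) :
    {u : Wo c | ∀ i, (u.2 i).1 ∈ t}.Countable :=
  (Set.countable_iUnion fun n => (Set.countable_pi fun _ : Fin n => ht.preimage
    (Subtype.val_injective (p := c.Q.fld))).image fun u => (⟨n, u⟩ : Wo c)).mono
      fun u hu => Set.mem_iUnion.2 ⟨u.1, Set.mem_image_of_mem _ (x := u.2) hu⟩

theorem ex_cld (hM : MfAll c.Q) (hF : FSL c.Q) {F0 : Set (Fld D)} {vs : Set (Completion D)}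
    {Op : Wo c → Set (Completion D →L[ℂ] Completion D)} (c1 : F0.Countable) (c3 : vs.Countable)
    (oc : ∀ u, (Op u).Countable) (h1 : ∀ B ∈ F0, c.Q.fld B) : ∃ s, s.Countable ∧ Cld c s ∧
      F0 ⊆ s ∧ (∀ v ∈ vs, v ∈ (Dc c s).topologicalClosure) ∧ ∀ u : Wo c, (∀ i, (u.2 i).1 ∈ s) →
        ∀ A ∈ Op u, ∀ v ∈ (Dc c s).topologicalClosure,
          A v ∈ (Dc c s).topologicalClosure ∧ star A v ∈ (Dc c s).topologicalClosure := by
  choose cv v1 v2 v3 using ex_cv c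
  choose sc s1 s2 s3 using ex_sc hM hF
  obtain ⟨s', sc', hs'⟩ := ex_closed (fun p : Wo c × Wo c => Set.range (fun i => (p.1.2 i).1) ∪
    Set.range fun i => (p.2.2 i).1) (fun _ => (Set.finite_range _).union (Set.finite_range _))
    (fun t ht => Set.Countable.mono (fun p k => by
      exact ⟨fun i => k (.inl ⟨i, rfl⟩), fun i => k (.inr ⟨i, rfl⟩)⟩) ((wo_cnt ht).prod (wo_cnt ht)))
    (fun p => (F0 ∪ ⋃ i, sc (p.2.2 i)) ∪ ((⋃ v ∈ vs, cv v) ∪
      ⋃ A ∈ Op p.2, ⋃ j, cv (A (W1 p.1.2 (tot _ j))) ∪ cv (star A (W1 p.1.2 (tot _ j)))))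
    fun p => (c1.union (Set.countable_iUnion fun _ => s1 _)).union ((c3.biUnion fun _ _ =>
      v1 _).union ((oc _).biUnion fun _ _ => Set.countable_iUnion fun _ => (v1 _).union (v1 _)))
  let s := s' ∩ c.Q.fld
  have hs := fun (u u' : Wo c) (a : ∀ i, (u.2 i).1 ∈ s) (b : ∀ i, (u'.2 i).1 ∈ s) =>
    hs' (u, u') (by
      rintro _ (⟨i, rfl⟩ | ⟨i, rfl⟩)
      exacts [(a i).1, (b i).1])
  have h0 := hs ⟨0, Fin.elim0⟩ ⟨0, Fin.elim0⟩ (fun i => i.elim0) fun i => i.elim0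
  have k := fun B (k : B ∈ s) => s3 ⟨B, k.2⟩ s fun C a => ⟨hs ⟨0, Fin.elim0⟩
    ⟨1, fun _ => ⟨B, k.2⟩⟩ (fun i => i.elim0) (fun _ => k) (.inl (.inr (Set.mem_iUnion.2 ⟨0, a⟩))),
      s2 _ C a⟩
  have cS : ∀ v, cv v ⊆ s' → v ∈ (Dc c s).topologicalClosure := fun v k =>
    Dc_mono (t := s) (fun B a => ⟨k a, v2 v B a⟩) (v3 v)
  refine ⟨s, sc'.mono Set.inter_subset_left, ⟨fun _ k => k.2, fun B a => (k B a).1,
    fun B a => (k B a).2.1, fun B a => (k B a).2.2.1, fun B a => (k B a).2.2.2.1,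
    fun B a => (k B a).2.2.2.2⟩, fun B k => ⟨h0 (.inl (.inl k)), h1 B k⟩, fun v k =>
    cS v ((Set.subset_biUnion_of_mem k).trans ((Set.subset_union_left.trans
      Set.subset_union_right).trans h0)), fun u b A a v hv => ?_⟩
  have k := fun n u' m j => Set.union_subset_iff.1 (Set.iUnion_subset_iff.1
    ((Set.subset_biUnion_of_mem a).trans ((Set.subset_union_right.trans
      Set.subset_union_right).trans (hs ⟨n, u'⟩ u m b))) j)
  exact ⟨inv_of A (fun n u' m j => cS _ (k n u' m j).1) v hv,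
    inv_of _ (fun n u' m j => cS _ (k n u' m j).2) v hv⟩

theorem ex_ap {H : Type*} [NormedAddCommGroup H] [InnerProductSpace ℂ H] [CompleteSpace H]
    {M : VonNeumannAlgebra H} {Ω : H} (E : ModData M Ω) (v : H) : ∃ Y : ℕ → _, (∀ n, Y n ∈ M) ∧
      (Summable fun n => ‖E.Th rr v - Y n Ω‖ ^ 2) ∧
      Summable fun n => ‖E.J (E.Th ss v) - star (Y n) Ω‖ ^ 2 := by
  obtain ⟨d, a, k⟩ := ex_fast (res_gS E v)
  choose Y a e using a
  refine ⟨Y, a, .of_nonneg_of_le (fun _ => sq_nonneg _) (fun n => ?_) k,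
    .of_nonneg_of_le (fun _ => sq_nonneg _) (fun n => ?_) k⟩ <;> rw [e n] <;>
    refine pow_le_pow_left₀ (norm_nonneg _) ?_ 2
  exacts [le_max_left _ _, le_max_right _ _]

/-- **row PACK** -/
theorem pack (hZ : Ctr c Z) (hM : MfAll c.Q) (hF : FSL c.Q) : PACK c Z := by
  intro F0 ops vs R c1 c2 c3 c4 h1 h2 h3
  obtain ⟨X, F, K, _, _, _, b, s0, hP⟩ := hZ.toCen.ex_sys
  choose pj p1 using ex_pj (c := c)
  haveI := c4.to_subtype
  have E : ∀ r : R, ModData (c.N (Rc r 0)) c.Om := fun r =>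
    (G.Sq.ex_md c (G.X.rc_open r) (G.X.rc_ne (h3 r r.2)) (G.X.rc_w0 (h3 r r.2))).some
  choose Y y1 y2 y3 using fun r => ex_ap (E r)
  let Op : Wo c → Set (Completion D →L[ℂ] Completion D) := fun u => ops ∪ ((⋃ i, ⋃ g ∈
    ex_loc.choose, Set.range (pj (u.2 i) g)) ∪ ⋃ r, ⋃ j, Set.range (Y r (W1 u.2 (tot _ j))))
  have oc : ∀ u, (Op u).Countable := fun u => c2.union ((Set.countable_iUnion fun _ =>
    ex_loc.choose_spec.1.biUnion fun _ _ => Set.countable_range _).union (Set.countable_iUnion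
      fun _ => Set.countable_iUnion fun _ => Set.countable_range _))
  have oz : ∀ u, ∀ A ∈ Op u, A ∈ Z.commutant := fun u A hA => by
    have k : ∀ O, A ∈ c.N O → A ∈ Z.commutant := fun O a =>
      VonNeumannAlgebra.mem_commutant_iff.2 fun z hz =>
        (VonNeumannAlgebra.mem_commutant_iff.1 (hZ.sub O z hz).2 A a).symm
    simp only [Op, Set.mem_union, Set.mem_iUnion] at hA
    obtain a | ⟨i, g, a, n, rfl⟩ | ⟨r, j, n, rfl⟩ := hA
    exacts [h2 A a, k _ ((p1 _ g (ex_loc.choose_spec.2.1 g a)).1 n), k _ (y1 r _ n)]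
  obtain ⟨s, sc, cl, f0, vS, oS⟩ := ex_cld hM hF c1 c3 oc h1
  let J := {u : Wo c // ∀ i, (u.2 i).1 ∈ s}
  haveI : Countable J := (wo_cnt sc).to_subtype
  have Sc := Submodule.isClosed_topologicalClosure (Dc c s)
  let ww : J × ℕ → Completion D := fun p => W1 p.1.1.2 (tot _ p.2)
  have hw := fun p : J × ℕ => pt_mem p.1.2 (tot _ p.2)
  have om := om_mem (c := c) (s := s)
  have oS' : c.Om ∈ (Dc c s).topologicalClosure := subset_closure om
  have kk := (s0.all fun u : J => s0.temp _ (W1 u.1.2) fun _ => trivial).mono fun x k =>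
    kk_of (b x) (t := Set.range ww) fun n u a => ⟨k ⟨⟨n, u⟩, a⟩, fun j => ⟨(⟨⟨n, u⟩, a⟩, j), rfl⟩⟩
  obtain ⟨sy, dn⟩ := s0.rs hP om hw kk
  have lim : ∀ {v} {d : ℕ → _}, (Summable fun n => ‖v - d n‖ ^ 2) → ∀ᶠ x in F,
      Tendsto (fun n => ((b x).rs om).φ (d n)) atTop (𝓝 (((b x).rs om).φ v)) := fun k =>
    (s0.lim trivial (fun _ => trivial) k).mono fun x e => ((ContinuousLinearMap.adjoint
      ((b x).jx _).toContinuousLinearMap).continuous.tendsto _).comp e.2.2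
  refine ⟨X, F, fun x => ⟨(b x).Ex (Dc c s), (b x).rs om⟩, _, sy, Sc, oS', vS, fun A a =>
    oS ⟨0, Fin.elim0⟩ (fun i => i.elim0) A (.inl a), fun B k f hf =>
    subset_closure ⟨_, cl.mem (f0 k) hf D0_vac, rfl⟩, ?_⟩
  have yo : ∀ r (p : J × ℕ) n, Y r (ww p) n ∈ Op p.1.1 := fun r p n =>
    .inr (.inr (Set.mem_iUnion₂.2 ⟨r, p.2, n, rfl⟩))
  have e1 := fun r p => mem_fast Sc (y2 r (ww p)) fun n => (oS _ p.1.2 _ (yo r p n) _ oS').1
  have e2 := fun r p => mem_fast Sc (y3 r (ww p)) fun n => (oS _ p.1.2 _ (yo r p n) _ oS').2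
  have e3 := fun r => inv_of _ fun n u a j => e1 r (⟨⟨n, u⟩, a⟩, j)
  choose m m1 m2 using fun p => ex_fast (m2 hZ cl (hw p))
  haveI := sy.cnt
  filter_upwards [kk, dn, sy.all fun u : J => sy.temp _ (W1 u.1.2) (pt_mem u.2),
    sy.all fun u : J => (eventually_countable_ball (oc u.1)).2 fun A a =>
      sy.top A (oz _ A a) (fun v k => (oS _ u.2 A a v k).1) fun v k => (oS _ u.2 A a v k).2,
    sy.all fun p => lim (m2 p), sy.all fun r => sy.top _ (rr_com (E r) (hZ.sub _)) (e3 r)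
      (by rw [← map_star, star_rr]; exact e3 r), sy.all fun r => sy.all fun p =>
      (sy.mem (hw p)).and ((sy.mem (e2 r p)).and ((lim (y2 r (ww p))).and (lim (y3 r (ww p)))))]
    with x k1 k2 k3 k4 k5 k6 k7
  obtain ⟨d⟩ := ex_fd (b x) (hP x) hZ cl (fun v k => (k1 v k).1) fun n u a => k3 ⟨⟨n, u⟩, a⟩
  refine d.lnk f0 k2 ?_ (fun B a B' _ e g hg => ?_) fun r hr => ⟨E ⟨r, hr⟩, k6 _, ?_⟩
  · rintro _ ⟨p, rfl⟩
    exact mem_closure_of_tendsto (k5 p) (.of_forall fun n => ⟨_, m1 p n, rfl⟩)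
  · have k := p1 ⟨B, cl.fld B a⟩ g (ex_loc.choose_spec.2.1 g hg)
    exact ⟨_, fun i => ⟨k.1 i, k4 ⟨⟨1, fun _ => ⟨B, cl.fld B a⟩⟩, fun _ => a⟩ _ (.inr (.inl
      (Set.mem_iUnion.2 ⟨0, Set.mem_biUnion hg ⟨i, rfl⟩⟩)))⟩, k.2 B' e⟩
  · rintro _ ⟨p, rfl⟩
    obtain ⟨a1, a2, a3, a4⟩ := k7 ⟨r, hr⟩ p
    exact ⟨a1, a2, mem_closure_of_tendsto (a3.prodMk_nhds a4)
      (.of_forall fun n => ⟨_, y1 ⟨r, hr⟩ (ww p) n, k4 p.1 _ (yo _ p n), rfl⟩)⟩

end

end Vale.Agent.N352.U
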