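import Vale.Agent.N352.U.As1
import Vale.Agent.N352.U.Ct
import Vale.Agent.N352.U.Ft
import Vale.Agent.N352.U.Mi
import Vale.Agent.N352.U.Pc

/-!
# N352, block U: all rows
-/

set_option linter.all false

namespace Vale.Agent.N352.U

universe u

/-- **the rows of block U** -/
theorem rows (D : Type u) [NormedAddCommGroup D] [InnerProductSpace ℂ D] : Rows D :=
  ⟨P352X.EG.e0_thm, ctr, fun _ _ z _ => pack z, fun c Z _ _ _ => nlg c Z, fun _ _ _ _ _ => gxi ft,
    mixi, confi⟩

end Vale.Agent.N352.U
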