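import Vale.Agent.N352.X.Defs
import Vale.Agent.N352.Wd

/-!
# N352, block U: degenerate vacua, vocabulary (helper72)
-/

set_option linter.all false

open MeasureTheory Filter Topology
open scoped SchwartzMap ComplexConjugate

namespace Vale.Agent.N352.U

open Vale.Agent.P352 Vale.Agent.P352.GF Vale.Agent.P352.BW Vale.Agent.P352.H246
open Vale.Agent.P352.H496 Vale.Agent.P352.H755 Vale.Agent.P352.H15
open Vale.Agent.P352X Vale.Agent.P352X.EB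
open Vale.Agent.P352X.EG (Cg)
open UniformSpace (Completion)

noncomputable section

section hilbert

variable {H K K' : Type*} [NormedAddCommGroup H] [InnerProductSpace ℂ H] [CompleteSpace H]
  [NormedAddCommGroup K] [InnerProductSpace ℂ K] [CompleteSpace K]
  [NormedAddCommGroup K'] [InnerProductSpace ℂ K'] [CompleteSpace K']

/-- an abelian algebra with a separating unit vector -/
structure Cen (Z : VonNeumannAlgebra H) (Ω : H) : Prop where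
  nrm : ‖Ω‖ = 1
  comm : ∀ a ∈ Z, a ∈ Z.commutant
  cyc : Dense {v | ∃ X ∈ Z.commutant, X Ω = v}

/-- a fibre: the vectors of `L` and the operators of `P` have values `φ v` and `π X` -/
structure Fb (Z : VonNeumannAlgebra H) (Ω : H) (K : Type*) [NormedAddCommGroup K]
    [InnerProductSpace ℂ K] [CompleteSpace K] where
  L : Submodule ℂ H
  φ : H → K
  P : StarSubalgebra ℂ (H →L[ℂ] H)
  π : (H →L[ℂ] H) → K →L[ℂ] K
  χ : (H →L[ℂ] H) → ℂ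
  om : Ω ∈ L
  nrm : ‖φ Ω‖ = 1
  add : ∀ v ∈ L, ∀ w ∈ L, φ (v + w) = φ v + φ w
  smul : ∀ (a : ℂ), ∀ v ∈ L, φ (a • v) = a • φ v
  dns : Dense (φ '' L)
  le : ∀ X ∈ P, X ∈ Z.commutant
  zp : ∀ z ∈ Z, z ∈ P ∧ π z = χ z • 1
  act : ∀ X ∈ P, ∀ v ∈ L, X v ∈ L ∧ φ (X v) = π X (φ v)
  nle : ∀ X ∈ P, ‖π X‖ ≤ ‖X‖
  cls : IsClosed (P : Set (H →L[ℂ] H))
  rel : ∀ a1 ∈ L, ∀ b1 ∈ L, ∀ a2 ∈ L, ∀ b2 ∈ L, ∀ a3 ∈ L, ∀ b3 ∈ L,
    (∀ z ∈ Z, inner ℂ a1 (z b1) + inner ℂ a2 (z b2) = inner ℂ a3 (z b3)) →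
    inner ℂ (φ a1) (φ b1) + inner ℂ (φ a2) (φ b2) = inner ℂ (φ a3) (φ b3)

/-- a system of fibres for the subspace `S`; properties hold for generic points -/
structure Sys {Z : VonNeumannAlgebra H} {Ω : H} {X : Type*} (F : Filter X) (S : Submodule ℂ H)
    {K : X → Type*} [∀ x, NormedAddCommGroup (K x)] [∀ x, InnerProductSpace ℂ (K x)]
    [∀ x, CompleteSpace (K x)] (b : ∀ x, Fb Z Ω (K x)) : Prop where
  cnt : CountableInterFilter F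
  top : ∀ Y ∈ Z.commutant, (∀ v ∈ S, Y v ∈ S) → (∀ v ∈ S, star Y v ∈ S) → ∀ᶠ x in F, Y ∈ (b x).P
  fast : ∀ d : ℕ → H, (∀ n, d n ∈ S) → (Summable fun n => ‖d n‖ ^ 2) →
    ∀ᶠ x in F, (∀ n, d n ∈ (b x).L) ∧ Tendsto (fun n => (b x).φ (d n)) atTop (𝓝 0)
  temp : ∀ (E : Type) [NormedAddCommGroup E] [NormedSpace ℝ E] [FiniteDimensional ℝ E]
    (Λ : 𝓢(E, ℂ) →L[ℂ] H), (∀ f, Λ f ∈ S) →
    ∀ᶠ x in F, (∀ f, Λ f ∈ (b x).L) ∧ Continuous fun f => (b x).φ (Λ f)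
  glue : ∀ v1 ∈ S, ∀ w1 ∈ S, ∀ v2 ∈ S, ∀ w2 ∈ S, (∀ᶠ x in F,
    inner ℂ ((b x).φ v1) ((b x).φ w1) = inner ℂ ((b x).φ v2) ((b x).φ w2)) →
    inner ℂ v1 w1 = inner ℂ v2 w2

end hilbert

variable {D : Type*} [NormedAddCommGroup D] [InnerProductSpace ℂ D]

/-- The translation invariant vectors are invariant under all similitudes. -/
def IVac (Q : Theory D) : Prop := ∀ z, (∀ a, Ue Q 1 GF.one a z = z) →
  ∀ s L, 0 < s → IsLor L → Ue Q s L 0 z = z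

/-- `Z` is the centre of the net -/
structure Ctr (c : Cg D) (Z : VonNeumannAlgebra (Completion D)) : Prop extends Cen Z c.Om where
  sub : ∀ O, ∀ z ∈ Z, z ∈ c.N O ∧ z ∈ (c.N O).commutant
  U : ∀ s L a, Ug c.Q s L a ∈ Z.commutant
  Γ : c.Γ ∈ Z.commutant
  vac : ∀ v, (∀ a, Ut c.Q a v = v) → v ∈ closure {w | ∃ z ∈ Z, z c.Om = w}

/-- row CTR: the centre exists, after a change of the net -/
def CTR (c : Cg D) : Prop := IVac c.Q → ∃ (N : Set V → VonNeumannAlgebra (Completion D))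
  (h : LNg c.Q c.G c.A c.Γ N) (Z : VonNeumannAlgebra (Completion D)),
    Ctr ⟨c.Q, c.G, c.A, c.Γ, N, h⟩ Z ∧ ∀ a b y, IsNull a → IsNull b → GF.mdot a b = 1 →
      ∀ X ∈ N (Wdg a b y), X ∈ c.N (Wdg a b y)

/-- `K(u) - 2 u^2 P_b` is affine, on tempered families -/
def EEt (c : G.Ctx D) : Prop := ∀ (lo hi : ℝ) ψ (Φ Λ : Sch →L[ℂ] Completion D),
  (∀ g, Gn c.SK (Φ g) (Λ g)) → (∀ u ∈ Set.Ioo lo hi, ∃ g, Ut c.Q (-(u • vb)) ψ = Φ g) →
  Dm (Pb c.Q) ψ → ∃ k0 k1, ∀ u ∈ Set.Ioo lo hi,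
    gen (c.Ky (u • vb)) ψ = k0 + (u : ℂ) • k1 + ((2 * u ^ 2 : ℝ) : ℂ) • gen (Pb c.Q) ψ

/-- row PFT: the polynomial families -/
def PFT (c : G.Ctx D) : Prop := G.GRP c → EEt c → G.COV c.Q → G.PF c

/-- row MIXI: mixing, for vectors orthogonal to the translation invariant vectors -/
def MIXI (c : Cg D) : Prop := IVac c.Q → ∀ ξ w : Completion D,
  (∀ v, (∀ a, Ut c.Q a v = v) → inner ℂ ξ v = 0) → Tendsto (fun r : ℝ =>
    inner ℂ ξ (Ue c.Q (Real.sqrt (r * 1)) (TPD.Lsc r 1) 0 w)) (𝓝[>] 0) (𝓝 0)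

/-- row CONFI: from the extension to the conformal symmetry, without uniqueness of the vacuum -/
def CONFI (c : G.X.Ctx D) : Prop := IVac c.Q → MfAll c.Q → FSL c.Q → G.X.FIN c →
  ∃ (D' : Submodule ℂ (Completion D)) (Q' : Theory D') (G' : D' → D') (e : Fld D → Fld D')
    (L : Fld D'), G.X.ExtC c.Q c.Γ Q' G' e ∧ AfW c.N Q' (↑) ∧ Q'.IsStress (fun m n => e (c.T m n)) ∧
    Q'.IsScalar L 2 ∧
    (∀ f v, IsTest f → tr (fun m n => e (c.T m n)) f v = (3 : ℂ) • L (box f) v) ∧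
    ∀ Q'' : Theory D', IsEnl Q' Q'' → IsImpr Q'' (fun m n => e (c.T m n))
      (improve (fun m n => e (c.T m n)) L) ∧ ConfAct Q'' (improve (fun m n => e (c.T m n)) L) ∧
      (Gr Q'' G' → CFS Q'' G' (improve (fun m n => e (c.T m n)) L) ∧
      ∀ B, Q'.fld B → ∃ (n : ℕ) (p : Fin n → Bool) (C : Fin n → Fld D'),
        (∀ i, DescS Q'' G' (improve (fun m n => e (c.T m n)) L) (p i) (C i)) ∧
        ∀ f v, IsTest f → B f v = ∑ i, C i f v)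

end

end Vale.Agent.N352.U
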