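import Vale.Agent.N352.Elem
import Vale.Agent.N352.U.Defs
import Vale.Agent.P352.H755.ChB

/-!
# N352, block U: mixing for tensors of dimension four (helper79)
-/

set_option linter.all false

open Filter Topology

namespace Vale.Agent.N352.U.Mn

open Vale.Agent.P352 Vale.Agent.P352.GF Vale.Agent.P352.BW Vale.Agent.P352.H246
open Vale.Agent.P352.H496 Vale.Agent.P352.H755 Vale.Agent.P352.H15
open Vale.Agent.P352X
open Vale.Agent.P352X.EG (Cg)
open UniformSpace (Completion)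

noncomputable section

variable {D D' : Type*} [NormedAddCommGroup D] [InnerProductSpace ℂ D]
  [NormedAddCommGroup D'] [InnerProductSpace ℂ D']

/-- invariant functionals vanish on the vectors created by a tensor of dimension four -/
theorem perp {R : Theory D'} {S t : Ix → Ix → Fld D'} (h : H496.IsImpr R S t) (l : D' →L[ℂ] ℂ)
    (h1 : ∀ a v, l (R.U 1 GF.one a v) = l v) (h2 : ∀ v, l (R.U 2 GF.one 0 v) = l v)
    {F : Ix → Ix → V → ℝ} (hF : ∀ m n, Tst (F m n)) : l (smt t F R.vac) = 0 := by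
  rw [smt, map_sum]
  refine Finset.sum_eq_zero fun m _ => ?_
  rw [map_sum]
  refine Finset.sum_eq_zero fun n _ => ?_
  obtain ⟨g, e⟩ := (hF m n).isTest
  have key : ∀ s a (g : Sch), 0 < s → t m n (ev g) R.vac =
      R.U s GF.one a (t m n (fun x => ev g (sim s GF.one a x)) R.vac) := fun s a g hs => by
    have k := h.cov m n s GF.one a (ev g) R.vac hs H496.isLor_one ⟨g, rfl⟩
    rw [R.U_vac s _ a hs H496.isLor_one] at k
    simp [GF.one, bas, apply_ite Complex.ofReal, ite_smul] at k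
    exact k
  have li : ∀ (f g : Sch) (a : ℂ), t m n (ev (f + a • g)) R.vac =
      t m n (ev f) R.vac + a • t m n (ev g) R.vac := fun f g a =>
    h.lin m n (ev f) (ev g) a _ ⟨f, rfl⟩ ⟨g, rfl⟩
  let Λ : Sch →L[ℂ] D' :=
    ⟨⟨⟨fun f => t m n (ev f) R.vac, fun f g => by simpa using li f g 1⟩, fun a f => by
      have z : t m n (ev 0) R.vac = 0 := by simpa using li 0 0 1
      simpa [z] using li 0 f a⟩, h.cont m n _⟩
  rw [← e]
  refine Grp.inv_zero (l ∘L Λ) 1 (by norm_num) (fun a g => ?_) (fun g => ?_) g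
  · refine (congrArg l (key 1 a _ one_pos)).trans ?_
    rw [h1, Grp.tsl_sim]
    rfl
  · rw [one_mul]
    refine (congrArg l (key 2 0 g two_pos)).trans ?_
    rw [h2, show (fun x => ev g (sim 2 GF.one 0 x)) =
      ev (Grp.simS two_pos H496.isLor_one 0 g) from (funext (Grp.simS_apply _ _ _ g)).symm]
    rfl

/-- mixing for the vectors created by a tensor of dimension four -/
theorem mx_of (c : Cg D) (m : MIXI c) (hI : IVac c.Q) {R : Theory D'} {S t : Ix → Ix → Fld D'}
    (h : H496.IsImpr R S t) {H : Type*} [NormedAddCommGroup H] [InnerProductSpace ℂ H]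
    [CompleteSpace H] (j : Completion D →L[ℂ] H) (i : D' →ₗᵢ[ℂ] H)
    (jj : ∀ z w, inner ℂ (j z) (j w) = inner ℂ z w) (o : j c.Om = i R.vac)
    (k : ∀ s L a z v, 0 < s → IsLor L →
      inner ℂ (j (Ue c.Q s L a z)) (i (R.U s L a v)) = inner ℂ (j z) (i v))
    (r : ∀ F, (∀ m n, Tst (F m n)) → ∃ x, j x = i (smt t F R.vac))
    (F : Ix → Ix → V → ℝ) (w : D') (hF : ∀ m n, Tst (F m n)) :
    Tendsto (fun r : ℝ => inner ℂ (smt t F R.vac) (R.U (Real.sqrt (r * 1)) (TPD.Lsc r 1) 0 w))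
    (𝓝[>] 0) (𝓝 (inner ℂ (smt t F R.vac) R.vac * inner ℂ R.vac w)) := by
  obtain ⟨x, e⟩ := r F hF
  have o1 := H496.isLor_one
  have ort : ∀ v, (∀ a, Ut c.Q a v = v) → inner ℂ x v = 0 := fun v hv => by
    have v1 : ∀ a, Ue c.Q 1 GF.one a v = v := fun a => (Ug_apply _ one_pos o1 _ _).symm.trans (hv a)
    rw [← jj, e, ← inner_conj_symm, map_eq_zero]
    refine perp h (innerSL ℂ (j v) ∘L i.toContinuousLinearMap) (fun a y => ?_) (fun y => ?_) hF
    · have := k 1 _ a v y one_pos o1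
      rwa [v1] at this
    · have := k 2 _ 0 v y two_pos o1
      rwa [hI v v1 2 _ two_pos o1] at this
  rw [← i.inner_map_map, ← e, ← o, jj, ort _ fun a => (G.ip_ut c a).vac, zero_mul]
  refine (m hI x (ContinuousLinearMap.adjoint j (i w)) ort).congr'
    (eventually_nhdsWithin_of_forall fun r hr => ?_)
  have p1 := Real.sqrt_pos.2 (mul_pos hr one_pos)
  have p2 : IsLor (TPD.Lsc r 1) := (Grp.lsc hr one_pos).1
  obtain ⟨z, q⟩ : ∃ z, Ue c.Q (Real.sqrt (r * 1)) (TPD.Lsc r 1) 0 z = x :=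
    ⟨_, (Ug_apply _ p1 p2 _ _).symm.trans (DFunLike.congr_fun (G.ip_ug c p1 p2 0).uni.2 x)⟩
  show inner ℂ x (Ue _ _ _ _ _) = inner ℂ _ (R.U _ _ _ w)
  rw [← i.inner_map_map, ← e, ← q, k _ _ _ _ _ p1 p2, ← ContinuousLinearMap.adjoint_inner_right]
  exact ue_inner p1 p2 _ _ _

end

end Vale.Agent.N352.U.Mn
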