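import Vale.Agent.N352.Main
import Vale.Agent.N352.U.As1
import Vale.Agent.N352.U.Mx0

/-!
# N352, block U: the main theorem without uniqueness of the vacuum (helper79)
-/

set_option linter.all false

open Filter Topology

namespace Vale.Agent.N352.U.Mn

open Vale.Agent.P352 Vale.Agent.P352.GF Vale.Agent.P352.BW Vale.Agent.P352.H246
open Vale.Agent.P352.H496 Vale.Agent.P352.H755 Vale.Agent.P352.H15
open Vale.Agent.P352X Vale.Agent.P352L Vale.Agent.P352R
open Vale.Agent.N352.Pf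
open Vale.Agent.P352X.EG (Cg)
open UniformSpace (Completion)

noncomputable section

universe u v

variable {D : Type u} [NormedAddCommGroup D] [InnerProductSpace ℂ D]
  {D' : Type v} [NormedAddCommGroup D'] [InnerProductSpace ℂ D']

variable (ρ : Rows D) (c : Cg D) {T : Ix → Ix → Fld D} (hT : Stress0 c.Q T)
  (hA : ND.PCh c.Q T c.A) (hM : MfAll c.Q) (hF : FSL c.Q) (hI : IVac c.Q)
include ρ hT hA hM hF hI

/-- **the local extension** -/
theorem exten : ∃ S, c.Q.IsStress S ∧ ND.PCh c.Q S c.A ∧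
      ∃ (E : Submodule ℂ (Completion D)) (P : Theory E) (G' : E → E) (e : Fld D → Fld E)
        (t : Ix → Ix → Fld E), Ext c.Q c.Γ c.N P G' e ∧ Desc P G' t ∧
        ∀ R, P352R.P.IsEnl P R → P352R.P.Gr R G' → Conf R G' (fun m n => e (S m n)) t := by
  obtain ⟨S, a1, a2, E, P, G', e, L, h1, h0, h2, h3, h4, h5⟩ := ρ.final c hI hM hF hT hA
  refine ⟨S, a1, a2, E, P, G', e, improve (fun m n => e (S m n)) L, ext_of h1 h0, fun B hB => ?_,
    fun R n g => ?_⟩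
  · obtain ⟨n, p, C, u, w⟩ := ((h5 P ⟨rfl, rfl, fun _ h => h, fun _ h => h⟩).2.2 h1.toGr).2 B hB
    exact ⟨n, p, C, fun i => Br.desc (u i), w⟩
  have n := Br.enl.1 n
  refine core (Br.gr.1 g) (H746.isStress_enl n h2) (scalar_enl n h3) (h5 R n).1.traceless
    (mx_of c (ρ.mixi c) hI (h5 R n).1 (.id ℂ _) E.subtypeₗᵢ (fun _ _ => rfl) ?_
      (fun s M a z v hs hM => ?_) fun F _ => ⟨_, rfl⟩)
  · rw [n.vac]
    exact h1.vac.symm
  · rw [n.U]
    show inner ℂ _ (P.U s M a v : Completion D) = _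
    rw [h1.U _ _ _ _ hs hM]
    exact ue_inner hs hM _ _ _

open EG Fss.G in
/-- **a theory that contains the relatively local scalars is conformally invariant** -/
theorem key {R : Theory D'} {i G' T' A'} (h : Over c.Q T R i G' T' A')
    (hX : Max c.Q c.Γ c.N R i) : ∃ t, Conf R G' T' t := by
  obtain ⟨h, g, gn, hT', hP, hx⟩ := h
  have g := Br.gr.1 g
  have hT' := Br.stress0.1 hT'
  have r := m1_gr c.hN.toGr
  have r' := m1_gr g
  choose F C hC c4 using ρ.nolog c hI hM hF hT hA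
  obtain ⟨h1, h4⟩ := Cw.fss r (Cw.cj r c.hN.der) (Cw.cd_of r hF) hT hA hC c4
  choose C' c1 c2 using fun m n =>
    Cw.scl_ext (Br.sect.1 h) r r' (hT.bose m n) (hT'.bose m n) (hx m n) (hC m n)
  obtain ⟨d1, d2⟩ :=
    Cw.fss r' (Cw.cj r' gn) (fun s hs => h.cov s _ 0 hs H496.isLor_one) hT' hP c1 c4
  obtain ⟨E, P, G1, e, L, a1, a2, -, a4, a5, -⟩ := ρ.conf c hI hM hF h1 h4
  have hl := pot_ext (ext_of a1 a2) h1 a4 a5
  obtain ⟨B, b1, b2⟩ := hX E P G1 e L (ext_of a1 a2) a4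
  obtain ⟨b3, b4⟩ := scal_sect h d1 (fun m n => c2 m n _) hl.trace (fun s M a f hs hM hf => by
    have k : ((s ^ 2 : ℝ) : ℂ) ≠ 0 := Complex.ofReal_ne_zero.2 (by positivity)
    rw [show P352R.P.Ue c.Q s M a _ = _ from (Ug_apply _ hs hM _ _).symm, G.Sq.pot hl a hs hM hf,
      ← Complex.coe_smul, smul_smul, Complex.ofReal_inv, mul_inv_cancel₀ k, one_smul]) b1 b2
  suffices k : Conf R G' (fun m n => C' m n (4, 0)) (improve (fun m n => C' m n (4, 0)) B) from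
    ⟨_, k.form, Br.impr.2 (Fss.impr hT' hP d1 d2 (Br.impr.1 k.impr)), k.act, k.cfs, k.desc⟩
  refine core g d1 b3 b4 (mx_of c (ρ.mixi c) hI
    (isImpr d1 ⟨rfl, rfl, fun _ h => h, fun _ h => h⟩ b3 b4) (jc i) Completion.toComplₗᵢ jc_inner
    (jc_om h) (fun s M a z v hs hM => ?_) fun F hF' => ?_)
  · exact (congrArg₂ _ (jc_ue h hs hM a z) (ue_coe hs hM a v).symm).trans (ue_inner hs hM _ _ _)
  let Z := LinearMap.range (jc i).toLinearMap
  have z1 : ∀ f, IsTest f → ((B f R.vac : D') : Completion D') ∈ Z := fun f hf =>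
    ⟨_, (b2 f hf).symm⟩
  have z2 : ∀ m n f, IsTest f → ((C' m n (4, 0) f R.vac : D') : Completion D') ∈ Z :=
    fun m n f hf => ⟨_, (jc_coe _).trans <| by rw [c2 m n _ f _ hf, h.vac]⟩
  show ((smt (improve (fun m n => C' m n (4, 0)) B) F R.vac : D') : Completion D') ∈ Z
  rw [← Completion.coe_toComplL (𝕜 := ℂ)]
  simp only [smt, improve, map_sum, map_add, map_sub, map_smul, Completion.coe_toComplL]
  refine Z.sum_mem fun m _ => Z.sum_mem fun n _ => ?_
  have hf := (hF' m n).isTest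
  exact Z.sub_mem (Z.add_mem (z2 m n _ hf) (Z.smul_mem _ (z1 _ (Ap.test_pd _ (Ap.test_pd _ hf)))))
    (Z.smul_mem _ (Z.sum_mem fun k _ => Z.smul_mem _ (z1 _ (Ap.test_pd _ (Ap.test_pd _ hf)))))

end

end Vale.Agent.N352.U.Mn

namespace Vale.Agent.N352.U

open P352.GF P352R P352R.P P352R.G P352R.GI
open UniformSpace (Completion)

universe u v

variable {D : Type u} [NormedAddCommGroup D] [InnerProductSpace ℂ D]
  {D' : Type v} [NormedAddCommGroup D'] [InnerProductSpace ℂ D']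

/-- **the theorem** -/
theorem main (ρ : Rows D) (Q : Theory D) (G T A Γ N) (a : Stress0 Q T) (b : PCh Q T A)
    (c : IVac Q) (d : Flds Q) (e : LNg Q G A Γ N) :
    (∃ S, Q.IsStress S ∧ PCh Q S A ∧ ∃ (E : Submodule ℂ (Completion D)) (P : Theory E)
      (G' : E → E) (e : Fld D → Fld E) (t : Ix → Ix → Fld E), Ext Q Γ N P G' e ∧ Desc P G' t ∧
        ∀ R, IsEnl P R → Gr R G' → Conf R G' (fun m n => e (S m n)) t) ∧
    (MfA Q ∧ FSL Q ∧ Over Q T Q .id G T A) ∧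
    ∀ (R : Theory D') i G' T' A', Over Q T R i G' T' A' → Max Q Γ N R i → ∃ t, Conf R G' T' t := by
  have k : MfA Q ∧ FSL Q := d.elim (fun d =>
    (Cf.cfg_all Q G A Γ _ (Br.lng.1 e) d).imp_left Br.mfa.2) id
  have m := Br.mfa.1 k.1
  exact ⟨Mn.exten ρ ⟨Q, G, A, Γ, N, Br.lng.1 e⟩ (Br.stress0.1 a) b m k.2 c,
    ⟨k.1, k.2, ⟨rfl, fun _ _ _ _ _ _ => rfl, Pf.cova (Br.gr.1 e.toGr) m k.2,
      fun B C p q => ⟨B, C, p, q, fun _ _ _ => rfl, fun _ _ _ => rfl⟩⟩, e.toGr, e.der, a, b,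
      fun _ _ _ _ _ => rfl⟩, fun R i G' T' A' =>
    Mn.key ρ ⟨Q, G, A, Γ, N, Br.lng.1 e⟩ (Br.stress0.1 a) b m k.2 c⟩

end Vale.Agent.N352.U
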