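import Vale.Agent.N352.Brg
import Vale.Agent.N352.DefU
import Vale.Agent.N352.U.Main

/-!
# N352, block U: the public form (helper79)
-/

set_option linter.all false

namespace Vale.Agent.N352.Bg

open P352.GF P352R
open UniformSpace (Completion)

universe u v

variable {D : Type u} [NormedAddCommGroup D] [InnerProductSpace ℂ D]
  {D' : Type v} [NormedAddCommGroup D'] [InnerProductSpace ℂ D']

theorem ivac_of {Q : Theory D} (h : Df.UVac Q) : Df.IVac Q := fun z a s L hs hL => by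
  obtain ⟨c, rfl⟩ := h z a
  have e := ue_coe (Q := Q) hs hL 0 (c • Q.vac)
  rw [Completion.coe_smul, show Q.U s L 0 (c • Q.vac) = _ from (um Q hs hL 0).map_smul c _,
    Completion.coe_smul, show um Q hs hL 0 Q.vac = _ from Q.U_vac _ _ _ hs hL] at e
  exact e

variable (D') in
/-- **the theorem** -/
theorem thmI (ρ : U.Rows D) : Df.ThI D D' where
  ext Q G T A Γ N h := by
    obtain ⟨S, a, b, E, P, G', e, t, c, d, k⟩ := (U.main (D' := D) ρ Q G T A Γ N
      (stress0.1 h.1) h.2 h.3 (flds.1 h.4) (lng.1 h.5)).1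
    exact ⟨S, a, b, E, P, G', e, t, ext.2 c, desc d, fun R p q => conf (k R (enl.1 p) (gr.1 q))⟩
  self Q G T A Γ N h :=
    have ⟨a, b, c⟩ := (U.main (D' := D) ρ Q G T A Γ N
      (stress0.1 h.1) h.2 h.3 (flds.1 h.4) (lng.1 h.5)).2.1
    ⟨mfa.2 a, fsl.2 b, ovr.2 c⟩
  max Q G T A Γ N R i G' T' A' h a b :=
    ((U.main ρ Q G T A Γ N (stress0.1 h.1) h.2 h.3 (flds.1 h.4) (lng.1 h.5)).2.2 R i G' T' A'
      (ovr.1 a) (max.1 b)).imp fun _ => conf
  uni _ := ivac_of
  net := (thm D D').net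
  sub := (thm D D').sub
  gen := (thm D D').gen

end Vale.Agent.N352.Bg
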