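import Vale.Agent.N352.Elem
import Mathlib.Analysis.InnerProductSpace.PiL2
import Mathlib.Analysis.Calculus.BumpFunction.Normed
import Mathlib.Analysis.Calculus.BumpFunction.FiniteDimension

/-!
# N352, block U: the direct sum of two copies of a theory has a degenerate vacuum (helper79)
-/

set_option linter.all false

open Filter Topology MeasureTheory
open scoped ComplexConjugate ContDiff

namespace Vale.Agent.N352.U.Sm

open P352.GF P352R.P P352R.G
open UniformSpace (Completion)

noncomputable section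

variable {D : Type*} [NormedAddCommGroup D] [InnerProductSpace ℂ D] {Q : Theory D}

theorem ex_one (y : V) : ∃ g, In (Metric.closedBall y 1) g ∧ ∫ x, g x = 1 := by
  let φ : ContDiffBump y := ⟨1 / 2, 1, by norm_num, by norm_num⟩
  have c : HasCompactSupport fun x => (φ.normed volume x : ℂ) :=
    φ.hasCompactSupport_normed.comp_left Complex.ofReal_zero
  have s : ContDiff ℝ ∞ fun x => (φ.normed volume x : ℂ) :=
    Complex.ofRealCLM.contDiff.comp φ.contDiff_normed
  refine ⟨fun x => (φ.normed volume x : ℂ), ⟨⟨c.toSchwartzMap s, rfl⟩, c, ?_⟩, ?_⟩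
  · exact (tsupport_comp_subset Complex.ofReal_zero _).trans φ.tsupport_normed_eq.le
  · exact integral_ofReal.trans (congrArg _ φ.integral_normed)

theorem ex_cc {K : Set V} (hK : IsCompact K) : ∃ g, In (cc K) g ∧ ∫ x, g x = 1 := by
  obtain ⟨r, hr⟩ := hK.isBounded.subset_closedBall 0
  obtain ⟨g, a, b⟩ := ex_one (bas 1 (2 * r + 3))
  refine ⟨g, ⟨a.1, a.2.1, fun y hy x hx => ?_⟩, b⟩
  have h1 := fun i => (norm_le_pi_norm x i).trans (mem_closedBall_zero_iff.1 (hr hx))
  have h2 := fun i => (dist_le_pi_dist y _ i).trans (Metric.mem_closedBall.1 (a.2.2 hy))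
  have x0 := abs_le.1 (h1 0)
  have x1 := abs_le.1 (h1 1)
  have y0 := abs_le.1 (h2 0)
  have y1 := abs_le.1 (h2 1)
  simp [bas] at y0 y1
  simp [mdot, Fin.sum_univ_four, eta, o]
  nlinarith [mul_self_nonneg (x 2 - y 2), mul_self_nonneg (x 3 - y 3)]

/-- two copies of the domain -/
abbrev D2 (D : Type*) := PiLp 2 fun _ : Fin 2 => D

/-- diagonal operators -/
def dg (X : Fin 2 → D → D) (v : D2 D) : D2 D := WithLp.toLp 2 fun i => X i (v i)

/-- diagonal fields -/
def pr (B : Fin 2 → Fld D) : Fld (D2 D) := fun f => dg fun i => B i f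

theorem dg_ap (X : Fin 2 → D → D) (v i) : dg X v i = X i (v i) := rfl

theorem pr_ap (B : Fin 2 → Fld D) (f v i) : pr B f v i = B i f (v i) := rfl

/-- the inclusions -/
def sg (i : Fin 2) : D →ₗᵢ[ℂ] D2 D where
  toFun := PiLp.single (β := fun _ => D) 2 i
  map_add' _ _ := PiLp.single_add 2 i
  map_smul' c a := congrArg (WithLp.toLp 2) (Pi.single_smul (f := fun _ => D) i c a)
  norm_map' := PiLp.norm_single 2 (fun _ => D) i

theorem sg_ap (i k : Fin 2) (x : D) : sg i x k = if k = i then x else 0 := Pi.single_apply i x k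

theorem sum_ap {ι : Type*} (s : Finset ι) (F : ι → D2 D) (i) :
    (∑ n ∈ s, F n) i = ∑ n ∈ s, F n i := map_sum (PiLp.projₗ (𝕜 := ℂ) 2 (fun _ => D) i) F s

theorem sum_sg (v : D2 D) : ∑ i, sg i (v i) = v := by
  ext k
  simp only [sum_ap, sg_ap, Finset.sum_ite_eq, Finset.mem_univ, if_true]

theorem inner_sg (i) (x : D) (v : D2 D) : inner ℂ (sg i x) v = inner ℂ x (v i) := by
  rw [PiLp.inner_apply, Finset.sum_eq_single i (fun k _ e => by simp [sg_ap, e]) (by simp), sg_ap,
    if_pos rfl]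

theorem pr_inj {B C : Fin 2 → Fld D} (h : pr B = pr C) : B = C := by
  funext i f x
  simpa only [pr_ap, sg_ap, if_true] using congrArg (fun P : Fld (D2 D) => P f (sg i x) i) h

theorem pr_sg (i) (C : Fld D) (f v) : pr (Pi.single i C) f v = sg i (C f (v i)) := by
  ext k
  rw [pr_ap, sg_ap]
  split_ifs with h
  · rw [h, Pi.single_eq_same]
  · rw [Pi.single_eq_of_ne h]
    rfl

theorem single_ind {p : Fld D → Prop} (h0 : p 0) {C} (h : p C) (i k : Fin 2) :
    p ((Pi.single i C : Fin 2 → Fld D) k) := by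
  by_cases e : k = i
  · rwa [e, Pi.single_eq_same]
  · rwa [Pi.single_eq_of_ne e]

/-- the identity and zero are fields -/
structure Ok (Q : Theory D) : Prop where
  one : Q.bose fun f v => (∫ x, f x) • v
  zero : Q.bose 0

/-- the normalization -/
def c2 : ℂ := ((√2)⁻¹ : ℝ)

theorem c2_ne : c2 ≠ 0 := Complex.ofReal_ne_zero.2 (by positivity)

theorem c2_conj : conj c2 = c2 := Complex.conj_ofReal _

/-- **the direct sum** -/
def sm (h : Ok Q) : Theory (D2 D) where
  vac := WithLp.toLp 2 fun _ => c2 • Q.vac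
  fld B := ∃ C, (∀ i, Q.fld (C i)) ∧ B = pr C
  bose B := ∃ C, (∀ i, Q.bose (C i)) ∧ B = pr C
  U s L a := dg fun _ => Q.U s L a
  norm_vac := by
    rw [PiLp.norm_eq_of_L2]
    simp [norm_smul, Q.norm_vac, c2]
  cyclic S h0 h1 := by
    obtain ⟨g, hg, i1⟩ := ex_one 0
    have z := Q.bose_fld _ h.zero
    have d : ∀ i, Dense (S.comap (sg i).toLinearMap : Set D) := fun i =>
      Q.cyclic _ (by
        have := S.smul_mem c2⁻¹ (h1 _ g _ ⟨_, single_ind z (Q.bose_fld _ h.one) i, rfl⟩ hg.1 h0)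
        rw [pr_sg, i1, one_smul, ← map_smul, smul_smul, inv_mul_cancel₀ c2_ne, one_smul] at this
        exact this) fun C f v hC hf hv => by
        have := h1 _ f _ ⟨_, single_ind z hC i, rfl⟩ hf hv
        rw [pr_sg] at this
        simpa [sg_ap] using this
    intro v
    rw [← sum_sg v]
    exact S.topologicalClosure.sum_mem fun i _ =>
      map_mem_closure (sg i).continuous (d i (v i)) fun _ a => a
  lin := by
    rintro _ f g c v ⟨C, a, rfl⟩ hf hg
    ext i
    exact Q.lin _ f g c _ (a i) hf hg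
  cont := by
    rintro _ v ⟨C, a, rfl⟩
    exact (PiLp.continuous_toLp 2 _).comp (continuous_pi fun i => Q.cont _ _ (a i))
  adj := by
    rintro _ ⟨C, a, rfl⟩
    choose C' b c using fun i => Q.adj _ (a i)
    exact ⟨_, ⟨C', b, rfl⟩, fun f v w hf => by simp only [PiLp.inner_apply, pr_ap, c _ _ _ _ hf]⟩
  bose_fld _ := Exists.imp fun _ a => ⟨fun i => Q.bose_fld _ (a.1 i), a.2⟩
  loc := by
    rintro _ _ f g v ⟨C, a, rfl⟩ ⟨C', b, rfl⟩ hf hg s
    ext i
    exact Q.loc _ _ f g _ (a i) (b i) hf hg s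
  U_inner s L a v w hs hL := by simp only [PiLp.inner_apply, dg_ap, Q.U_inner _ _ _ _ _ hs hL]
  U_vac s L a hs hL := by
    ext i
    exact (P352.U_smul hs hL a c2 _).trans (congrArg _ (Q.U_vac s L a hs hL))
  transl := by
    rintro _ a f v ⟨C, b, rfl⟩ hf
    ext i
    exact Q.transl _ a f _ (b i) hf
  spectrum v := by
    choose ν a b c using fun i => Q.spectrum (v i)
    refine ⟨ν 0 + ν 1, inferInstance, ae_add_measure_iff.2 ⟨b 0, b 1⟩, fun x => ?_⟩
    have : ∀ i, Integrable (fun p : V => Complex.exp (Complex.I * mdot p x)) (ν i) := fun i =>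
      (integrable_const (1 : ℝ)).mono' (Continuous.aestronglyMeasurable (by
        unfold mdot
        fun_prop)) (ae_of_all _ fun p => (Complex.norm_exp_I_mul_ofReal _).le)
    rw [integral_add_measure (this 0) (this 1), ← c, ← c, PiLp.inner_apply, Fin.sum_univ_two]
    rfl

variable {h : Ok Q} {T : Ix → Ix → Fld D} {A : (V → V) → D → D}

theorem bose_pr {C : Fin 2 → Fld D} (a : (sm h).bose (pr C)) (i) : Q.bose (C i) := by
  obtain ⟨C', b, e⟩ := a
  exact pr_inj e ▸ b i

/-- the stress tensor -/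
def T2 (T : Ix → Ix → Fld D) : Ix → Ix → Fld (D2 D) := fun m n => pr fun _ => T m n

/-- the generators -/
def A2 (A : (V → V) → D → D) : (V → V) → D2 D → D2 D := fun X => dg fun _ => A X

theorem st0 (a : Stress0 Q T) : Stress0 (sm h) (T2 T) where
  bose m n := ⟨_, fun _ => a.bose m n, rfl⟩
  symm m n f v hf := by
    ext i
    exact a.symm m n f _ hf
  herm m n f v w hf := by simp only [PiLp.inner_apply, T2, pr_ap, a.herm _ _ _ _ _ hf]
  cov m n L x f v hL hf := by
    ext i
    simp only [sum_ap]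
    exact a.cov m n L x f _ hL hf
  conserved n f v hf := by
    ext i
    rw [sum_ap]
    exact a.conserved n f _ hf
  charge := by
    rintro F n _ f v w hF ⟨C, b, rfl⟩ hf hc
    simp only [PiLp.inner_apply]
    exact tendsto_finset_sum _ fun i _ => a.charge F n _ f _ _ hF (b i) hf hc

theorem cur_ap (X g) (u : D2 D) (i) : cur (T2 T) X g u i = cur T X g (u i) := sum_ap _ _ i

theorem pch (a : PCh Q T A) : PCh (sm h) (T2 T) (A2 A) := by
  rintro F X _ f v w hF hX ⟨C, b, rfl⟩ hf hc
  simp only [PiLp.inner_apply, PiLp.sub_apply, cur_ap, pr_ap]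
  exact tendsto_finset_sum _ fun i _ => a F X _ f _ _ hF hX (b i) hf hc

theorem rep (a : Rep Q A) : Rep (sm h) (A2 A) where
  mul s L x s' L' x' v b c d e := by
    ext i
    exact a.mul s L x s' L' x' _ b c d e
  add r r' c X X' v b d := by
    ext i
    exact a.add r r' c X X' _ b d
  der s L x X v b c d e f := by
    have := HasDerivAt.fun_sum (u := Finset.univ) fun i _ =>
      ((sg i).toContinuousLinearMap.restrictScalars ℝ).hasFDerivAt.comp_hasDerivAt 0
        (a.der s L x X (v i) b c d e f)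
    exact (funext fun e => sum_sg ((sm h).U (s e) (L e) (x e) v)) ▸
      sum_sg (Complex.I • A2 A X v) ▸ this

theorem gr (g : Gr Q id) (a : Rep Q A) : Gr (sm h) id where
  inv _ := rfl
  herm _ _ := rfl
  bose _ _ _ _ _ := rfl
  split := by
    rintro _ ⟨C, b, rfl⟩
    choose C1 C2 c d e using fun i => g.split _ (b i)
    refine ⟨_, _, ⟨C1, c, rfl⟩, ⟨⟨C2, fun i => (d i).1, rfl⟩, fun f v hf => ?_⟩, fun f v hf => ?_⟩
    · ext i
      exact (d i).2 f _ hf
    · ext i
      exact e i f _ hf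
  anti := by
    have k : ∀ C, Fer (sm h) id (pr C) → ∀ i, Fer Q id (C i) := fun C ⟨⟨C', b, e⟩, c⟩ i =>
      ⟨pr_inj e ▸ b i, fun f v hf => by
        simpa [pr_ap, sg_ap] using congrArg (fun w : D2 D => w i) (c f (sg i v) hf)⟩
    rintro _ _ f f' v ⟨⟨C, b, rfl⟩, c⟩ ⟨⟨C', b', rfl⟩, c'⟩ hf hf' s
    ext i
    exact g.anti _ _ f f' _ (k C ⟨⟨C, b, rfl⟩, c⟩ i) (k C' ⟨⟨C', b', rfl⟩, c'⟩ i) hf hf' s
  GU _ _ _ _ _ _ := rfl
  mul s L x s' L' x' b c d e := .inl fun v => (rep (h := h) a).mul s L x s' L' x' v b c d e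

theorem mfa (a : MfA Q) : MfA (sm h) := by
  rintro _ ⟨C, b, rfl⟩
  choose n B c d using fun i => a _ (b i)
  let q := (Fintype.equivFin (Σ i, Fin (n i))).symm
  refine ⟨_, fun j => pr (Pi.single (q j).1 (B (q j).1 (q j).2)), fun j => ?_, fun f v hf => ?_⟩
  · obtain ⟨k, Φ, x, ⟨e1, e2⟩, e3⟩ := c (q j).1 (q j).2
    refine ⟨k, fun y => pr (Pi.single (q j).1 (Φ y)), x, ⟨fun y =>
      ⟨_, single_ind (Q.bose_fld _ h.zero) (e1 y) _, rfl⟩, fun y L f v hL hf => ?_⟩,
      congrArg (fun E => pr (Pi.single (q j).1 E)) e3⟩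
    ext i
    rw [sum_ap]
    by_cases e : i = (q j).1
    · simp only [pr_ap, e, Pi.single_eq_same, PiLp.smul_apply, sm, dg_ap]
      exact e2 y L f _ hL hf
    · simp only [pr_ap, Pi.single_eq_of_ne e, PiLp.smul_apply, sm, dg_ap, Pi.zero_apply]
      exact (Finset.sum_eq_zero fun _ _ => by
        rw [show Q.U 1 L 0 0 = 0 from map_zero (um Q one_pos hL 0), smul_zero]).symm
  · rw [q.sum_comp fun j => pr (Pi.single j.1 (B j.1 j.2)) f v, Fintype.sum_sigma, ← sum_sg (pr C f v)]
    simp only [pr_sg, pr_ap, d _ f _ hf, map_sum]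

theorem fsl (a : FSL Q) : FSL (sm h) := by
  rintro _ ⟨C, b, rfl⟩
  choose F B c using fun i => a _ (b i)
  classical
  refine ⟨Finset.univ.biUnion F, fun p => pr fun i => if p ∈ F i then B i p else 0,
    fun p => ⟨⟨_, fun i => ?_, rfl⟩, fun e => ⟨_, fun i => ?_, rfl⟩⟩, fun s f v hs hf => ?_⟩
  · split_ifs
    exacts [((c i).1 p).1, Q.bose_fld _ h.zero]
  · split_ifs
    exacts [((c i).1 p).2 (bose_pr e i), h.zero]
  · ext i
    rw [sum_ap, ← Finset.sum_subset (Finset.subset_biUnion_of_mem F (Finset.mem_univ i))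
      fun p _ e => ?_]
    · refine ((c i).2 s f _ hs hf).trans (Finset.sum_congr rfl fun p e => ?_)
      simp only [PiLp.smul_apply, sm, dg_ap, pr_ap, if_pos e]
    · simp only [PiLp.smul_apply, sm, dg_ap, pr_ap, if_neg e, Pi.zero_apply]
      rw [show Q.U s one 0 0 = 0 from map_zero (um Q hs lor1 0), smul_zero]

/-! ### the Hilbert space -/

/-- the projections -/
def p (i : Fin 2) : Completion (D2 D) →L[ℂ] Completion D :=
  (PiLp.proj (𝕜 := ℂ) 2 (fun _ => D) i).completion

/-- the inclusions -/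
def j (i : Fin 2) : Completion D →L[ℂ] Completion (D2 D) := jc (sg i)

theorem p_coe (i) (v : D2 D) : p i (v : Completion (D2 D)) = (v i : D) :=
  ContinuousLinearMap.completion_apply_coe _ v

theorem j_coe (i) (x : D) : j i (x : Completion D) = (sg i x : D2 D) := jc_coe x

theorem p_j (i k) (x : Completion D) : p k (j i x) = if k = i then x else 0 :=
  Completion.induction_on x (isClosed_eq (by fun_prop) (by split_ifs <;> fun_prop)) fun x => by
    rw [j_coe, p_coe, sg_ap]
    split_ifs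
    exacts [rfl, Completion.coe_zero]

theorem inner_j (i) (x : Completion D) (z) : inner ℂ (j i x) z = inner ℂ x (p i z) :=
  Completion.induction_on₂ x z (isClosed_eq (by fun_prop) (by fun_prop)) fun x z => by
    rw [j_coe, p_coe, Completion.inner_coe, Completion.inner_coe, inner_sg]

theorem inner_p (z w : Completion (D2 D)) : inner ℂ z w = ∑ i, inner ℂ (p i z) (p i w) :=
  Completion.induction_on₂ z w (isClosed_eq (by fun_prop) (by fun_prop)) fun z w => by
    simp only [p_coe, Completion.inner_coe, PiLp.inner_apply]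

theorem ext_p {z w : Completion (D2 D)} (e : ∀ i, p i z = p i w) : z = w :=
  ext_inner_right ℂ fun y => by simp only [inner_p, e]

theorem p_ue {s : ℝ} {L : Ix → V} (hs : 0 < s) (hL : IsLor L) (a : V) (i) (z) :
    p i (Ue (sm h) s L a z) = Ue Q s L a (p i z) :=
  Completion.induction_on z (isClosed_eq ((p i).continuous.comp Completion.continuous_map)
    (Completion.continuous_map.comp (p i).continuous)) fun v => by
      rw [ue_coe hs hL, p_coe, p_coe, ue_coe hs hL]
      rfl

theorem ue_smul {s : ℝ} {L : Ix → V} (hs : 0 < s) (hL : IsLor L) (a : V) (c : ℂ) (z) :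
    Ue Q s L a (c • z) = c • Ue Q s L a z := map_smul (jc (ui Q hs hL a)) c z

theorem ue_om {s : ℝ} {L : Ix → V} (hs : 0 < s) (hL : IsLor L) (a : V) :
    Ue Q s L a (om Q) = om Q := by rw [om, ue_coe hs hL, Q.U_vac _ _ _ hs hL]

theorem p_om (i) : p i (om (sm h)) = c2 • om Q := (p_coe i _).trans (Completion.coe_smul _ _)

theorem ivac (a : UVac Q) (z) (b : ∀ x, Ue (sm h) 1 one x z = z) (s : ℝ) (L) (hs : 0 < s)
    (hL : IsLor L) : Ue (sm h) s L 0 z = z := ext_p fun i => by
  obtain ⟨c, e⟩ := a (p i z) fun x => by rw [← p_ue (h := h) one_pos lor1, b]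
  rw [p_ue hs hL, e, ue_smul hs hL, ue_om hs hL]

theorem not_uvac : ¬UVac (sm h) := fun a => by
  obtain ⟨c, e⟩ := a (j 0 (om Q)) fun x => ext_p fun i => by
    rw [p_ue one_pos lor1, p_j]
    split_ifs
    exacts [ue_om one_pos lor1 x, map_zero (jc (ui Q one_pos lor1 x))]
  have e0 := congrArg (p 0) e
  have e1 := congrArg (p 1) e
  rw [p_j, map_smul, p_om] at e0 e1
  rw [if_pos rfl, ← e1, if_neg (by decide)] at e0
  have := congrArg norm e0
  rw [om, Completion.norm_coe, Q.norm_vac, norm_zero] at this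
  exact one_ne_zero this

theorem inf (a : ¬FiniteDimensional ℂ (Completion D)) :
    ¬FiniteDimensional ℂ (Completion (D2 D)) := fun _ =>
  a (FiniteDimensional.of_injective (j 0).toLinearMap fun x y e => by
    simpa [p_j] using congrArg (p 0) e)

theorem trace (a : Stress0 Q T) {f} (hf : IsTest f) (b : tr T f Q.vac ≠ 0) :
    tr (T2 T) f (sm h).vac ≠ 0 := fun e => b <| by
  have := congrArg (fun w : D2 D => w 0) e
  simp only [tr, sum_ap, PiLp.smul_apply, T2, pr_ap, sm, PiLp.zero_apply,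
    fun m => show T m m f (c2 • Q.vac) = _ from map_smul (fm (Q.bose_fld _ (a.bose m m)) hf) _ _,
    smul_comm _ c2, ← Finset.smul_sum] at this
  exact (smul_eq_zero.1 this).resolve_left c2_ne

/-! ### the net -/

/-- block diagonal operators with blocks in `M` -/
def Bd (M : VonNeumannAlgebra (Completion D)) (Z : Completion (D2 D) →L[ℂ] Completion (D2 D)) :
    Prop := ∀ i, ∃ Y ∈ M, ∀ z, p i (Z z) = Y (p i z)

/-- the operator with the blocks `Y` -/
def dm (Y : Fin 2 → Completion D →L[ℂ] Completion D) :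
    Completion (D2 D) →L[ℂ] Completion (D2 D) := ∑ i, j i ∘L Y i ∘L p i

theorem p_dm (Y : Fin 2 → Completion D →L[ℂ] Completion D) (i z) : p i (dm Y z) = Y i (p i z) := by
  simp only [dm, ContinuousLinearMap.sum_apply, map_sum, ContinuousLinearMap.comp_apply, p_j,
    Finset.sum_ite_eq, Finset.mem_univ, if_true]

variable {M : VonNeumannAlgebra (Completion D)} {Z : Completion (D2 D) →L[ℂ] Completion (D2 D)}

theorem Bd.star (a : Bd M Z) : Bd M (star Z) := fun i => by
  obtain ⟨Y, b, c⟩ := a i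
  refine ⟨Star.star Y, star_mem b, fun z => ext_inner_left ℂ fun x => ?_⟩
  have : Z (j i x) = j i (Y x) := ext_p fun k => by
    obtain ⟨Y', -, c'⟩ := a k
    by_cases e : k = i
    · rw [e, c, p_j, p_j, if_pos rfl, if_pos rfl]
    · rw [c', p_j, p_j, if_neg e, if_neg e, map_zero]
  rw [← inner_j, ContinuousLinearMap.star_eq_adjoint, ContinuousLinearMap.star_eq_adjoint,
    ContinuousLinearMap.adjoint_inner_right, ContinuousLinearMap.adjoint_inner_right, this, inner_j]

theorem cen : (∀ W, Bd M W → W * Z = Z * W) ↔ Bd M.commutant Z := by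
  refine ⟨fun a i => ?_, fun a W b => ContinuousLinearMap.ext fun z => ext_p fun i => ?_⟩
  · have k : ∀ Y ∈ M, ∀ z, Y (p i (Z z)) = p i (Z (j i (Y (p i z)))) := fun Y b z => by
      have := a (j i ∘L Y ∘L p i) fun k => by
        by_cases e : k = i
        · exact ⟨Y, b, fun z => by simp [p_j, e]⟩
        · exact ⟨0, zero_mem _, fun z => by simp [p_j, e]⟩
      simpa [p_j] using congrArg (fun W => p i (W z)) this
    refine ⟨p i ∘L Z ∘L j i, VonNeumannAlgebra.mem_commutant_iff.2 fun Y b =>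
      ContinuousLinearMap.ext fun x => ?_, k 1 (one_mem _)⟩
    simpa [p_j] using k Y b (j i x)
  · obtain ⟨Y, c, d⟩ := a i
    obtain ⟨Y', c', d'⟩ := b i
    simp only [ContinuousLinearMap.mul_apply, d, d']
    exact congrArg (fun W => W (p i z)) (VonNeumannAlgebra.mem_commutant_iff.1 c Y' c')

/-- the sum of two copies of a von Neumann algebra -/
def n2 (M : VonNeumannAlgebra (Completion D)) : VonNeumannAlgebra (Completion (D2 D)) where
  toStarSubalgebra := StarSubalgebra.centralizer ℂ {W | Bd M.commutant W}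
  centralizer_centralizer' := by simp

theorem mem_n2 : Z ∈ n2 M ↔ Bd M Z := by
  rw [← M.commutant_commutant, ← cen, M.commutant_commutant]
  exact (StarSubalgebra.mem_centralizer_iff ℂ).trans
    ⟨fun a W b => (a W b).1, fun a W b => ⟨a W b, a _ (Bd.star b)⟩⟩

theorem mem_n2c : Z ∈ (n2 M).commutant ↔ Bd M.commutant Z := by
  simp only [VonNeumannAlgebra.mem_commutant_iff, mem_n2, cen]

theorem lnm {N : Set V → VonNeumannAlgebra (Completion D)} (a : LNm Q A N) :
    LNm (sm h) (A2 A) fun O => n2 (N O) where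
  toRep := rep a.toRep
  fld := by
    rintro O _ f ⟨C, b, rfl⟩ hf
    choose X c d using fun i => a.fld O _ f (b i) hf
    refine ⟨dg X, fun v w => by simp only [PiLp.inner_apply, pr_ap, dg_ap, c], fun Y y v w => ?_⟩
    choose Y' y1 y2 using mem_n2c.1 y
    simp only [inner_p, y2, p_coe, dg_ap, pr_ap, d _ _ (y1 _)]
  mono O O' b X c := mem_n2.2 fun i => (mem_n2.1 c i).imp fun Y d => ⟨a.mono O O' b Y d.1, d.2⟩
  cov s L y O X b hs hL := by
    choose X' c d using mem_n2.1 b
    choose Y e k using fun i => a.cov s L y O _ (c i) hs hL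
    exact ⟨dm Y, mem_n2.2 fun i => ⟨_, e i, p_dm Y i⟩, fun z => ext_p fun i => by
      rw [p_dm, p_ue hs hL, p_ue hs hL, k, d]⟩
  loc x y X b c d e := mem_n2c.2 fun i =>
    (mem_n2.1 e i).imp fun Y k => ⟨a.loc x y Y b c d k.1, k.2⟩

/-! ### reconstruction -/

theorem al_adj {W X X'} (a : Al Q W X X') (v w : D) : inner ℂ (X v) w = inner ℂ v (X' w) := by
  induction a generalizing v w with
  | one => rfl
  | add _ _ _ _ _ _ b c => simp only [inner_add_left, inner_add_right, b, c]
  | smul z _ _ _ b => simp only [inner_smul_left, inner_smul_right, b, starRingEnd_apply]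
  | fld _ _ g _ _ _ _ c d _ b => rw [c _ _ _ d.1, b]

theorem al_dg {W X X'} (a : Al Q W X X') : Al (sm h) W (dg fun _ => X) (dg fun _ => X') := by
  induction a with
  | one => exact .one
  | add _ _ _ _ _ _ b c => exact .add _ _ _ _ b c
  | smul z _ _ _ b => exact .smul z _ _ b
  | fld B C g _ _ b c d e _ k =>
    exact Al.fld (Q := sm h) (pr fun _ => B) (pr fun _ => C) g _ _ ⟨_, fun _ => b, rfl⟩
      ⟨_, fun _ => c, rfl⟩ (fun f v w hf => by simp only [PiLp.inner_apply, pr_ap, d _ _ _ hf]) e k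

theorem recon (a : Rec Q) : Rec (sm h) := by
  intro k d φ m w
  choose Φ b c using fun i => a k d (fun μ f => c2⁻¹ • p i (φ μ f))
    ⟨fun μ f g z hf hg => by rw [m.lin μ f g z hf hg, map_add, map_smul, smul_add, smul_comm],
      fun μ => ((p i).continuous.comp (m.cont μ)).const_smul c2⁻¹, fun μ s L x f hs hL hf => by
        rw [m.cov μ s L x f hs hL hf, map_sum, Finset.smul_sum]
        refine Finset.sum_congr rfl fun ν _ => ?_
        rw [map_smul, p_ue hs hL, ue_smul hs hL, smul_comm]⟩ fun μ f X X' hf al => by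
      obtain ⟨g, g1, g2⟩ := ex_cc hf.2.1
      have g3 : ∫ x, bar g x = 1 := (integral_conj (f := g)).trans (by rw [g2, map_one])
      have o : (sm h).fld (pr (Pi.single i fun f v => (∫ x, f x) • v)) :=
        ⟨_, single_ind (Q.bose_fld _ h.zero) (Q.bose_fld _ h.one) i, rfl⟩
      have := w μ f _ _ hf (.fld _ _ g _ _ o o (fun f v w hf => by
        rw [pr_sg, pr_sg, inner_sg, ← inner_conj_symm v, inner_sg, inner_conj_symm, inner_smul_left,
          inner_smul_right]
        exact congrArg (· * _) (integral_conj (f := f)).symm) g1 (al_dg al))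
      have e1 : X (c2 • Q.vac) = c2 • X Q.vac := ext_inner_right ℂ fun y => by
        rw [al_adj al, inner_smul_left, inner_smul_left, al_adj al]
      have e2 : ∀ z : ℂ, X' (z • Q.vac) = z • X' Q.vac := fun z => ext_inner_left ℂ fun y => by
        rw [← al_adj al, inner_smul_right, inner_smul_right, al_adj al]
      have e3 : dg (fun _ => X') (sg i (c2 • Q.vac)) = sg i (c2 • X' Q.vac) := by
        ext k
        rw [dg_ap, sg_ap, sg_ap]
        split_ifs
        exacts [e2 c2, by simpa using e2 0]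
      simp only [pr_sg, g2, g3, one_smul, dg_ap, sm, e1, e3] at this
      rw [← j_coe, ← j_coe, inner_j, ← inner_conj_symm (φ μ _), inner_j, inner_conj_symm,
        Completion.coe_smul, Completion.coe_smul, inner_smul_left, inner_smul_right, c2_conj,
        mul_right_inj' c2_ne] at this
      rw [inner_smul_left, inner_smul_right, this, map_inv₀, c2_conj]
  refine ⟨fun μ => pr fun i => Φ i μ, fun μ => ⟨⟨_, fun i => b i μ, rfl⟩, fun f hf =>
    ext_p fun i => ?_⟩⟩
  rw [p_coe, pr_ap, show Φ i μ f ((sm h).vac i) = _ from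
    map_smul (fm (Q.bose_fld _ (b i μ)) hf) c2 _, Completion.coe_smul]
  exact (congrArg (c2 • ·) (c i μ f hf)).trans (smul_inv_smul₀ c2_ne _)

/-- **the direct sum satisfies all hypotheses, and its vacuum is degenerate** -/
theorem all {N : Set V → VonNeumannAlgebra (Completion D)} (h : Ok Q) (a : Stress0 Q T)
    (b : PCh Q T A) (c : UVac Q) (d : MfA Q) (e : FSL Q) (n : LNg Q id A 1 N) (r : Rec Q)
    (k : ¬FiniteDimensional ℂ (Completion D) ∧ ∃ f, IsTest f ∧ tr T f Q.vac ≠ 0) :
    ∃ (R : Theory (D2 D)) (T : Ix → Ix → Fld (D2 D)) (A : (V → V) → D2 D → D2 D)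
      (N : Set V → VonNeumannAlgebra (Completion (D2 D))), Stress0 R T ∧ PCh R T A ∧
      (∀ z, (∀ x, Ue R 1 one x z = z) → ∀ s L, 0 < s → IsLor L → Ue R s L 0 z = z) ∧
      (MfA R ∧ FSL R) ∧ LNg R id A 1 N ∧ ¬UVac R ∧ Max R 1 N R .id ∧
      ¬FiniteDimensional ℂ (Completion (D2 D)) ∧ ∃ f, IsTest f ∧ tr T f R.vac ≠ 0 :=
  have l := lnm_of n
  ⟨sm h, _, _, _, st0 a, pch b, ivac c, ⟨mfa d, fsl e⟩, lng_of (lnm l) (gr n.toGr l.toRep),
    not_uvac, max_of_rec (recon r) _ _, inf k.1, k.2.imp fun _ x => ⟨x.1, trace a x.1 x.2⟩⟩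

end

end Vale.Agent.N352.U.Sm
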