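import Vale.Agent.N352.Brg
import Vale.Agent.N352.DefU
import Vale.Agent.N352.U.Sum

/-!
# N352, block U: a theory with a degenerate vacuum that satisfies all hypotheses (helper79)
-/

set_option linter.all false

namespace Vale.Agent.N352.Bg

open P352.GF P352R

theorem al_enl {D : Type*} [NormedAddCommGroup D] [InnerProductSpace ℂ D] {Q R : Theory D}
    (h : ∀ B, Q.fld B → R.fld B) {W X X'} (a : P.Al Q W X X') : P.Al R W X X' := by
  induction a with
  | one => exact .one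
  | add _ _ _ _ _ _ b c => exact .add _ _ _ _ b c
  | smul z _ _ _ b => exact .smul z _ _ b
  | fld B C g _ _ b c d e _ k => exact .fld B C g _ _ (h B b) (h C c) d e k

/-- **the witness with a degenerate vacuum** -/
theorem witD : ∃ (E : Type) (_ : NormedAddCommGroup E) (_ : InnerProductSpace ℂ E), Df.WitD E := by
  obtain ⟨A, N, ⟨a, b, -, f, n, u, x⟩, -, m, ⟨-, g, -⟩, -, k⟩ := fr.topQ rec_fr
  let c : P352X.EG.Cg _ := ⟨fr.tq, id, A, 1, N, Br.lng.1 (lng_of n g)⟩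
  obtain ⟨R, T, A, N, a, b, c, d, e, f, g, h⟩ := U.Sm.all (Q := (Tn.bg c).Q)
    ⟨(Tn.bg_big c).one, zero_mem _⟩ (Br.stress0.2 (Tn.bg_st0 (c := c) (Br.stress0.1 a)))
    (Tn.bg_pch (c := c) (fun m n => fr.tq.bose_fld _ (a.bose m n)) b) u
    (Br.mfa.2 (Tn.bg_mfa (c := c) (Br.mfa.1 m))) (Tn.bg_fsl (c := c) f) (Br.lng.2 (Tn.bg c).hN)
    (fun k d φ p q => (x k d φ ⟨p.lin, p.cont, p.cov⟩ fun μ f X X' s t =>
      q μ f X X' s (al_enl (fun _ => Tn.bg_fld (c := c)) t)).imp fun _ r μ =>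
        ⟨Tn.bg_bose (c := c) (r μ).1, (r μ).2⟩) k
  exact ⟨_, _, _, R, T, A, N, ⟨stress0.2 a, b, c, flds.2 (.inr d), lng.2 e⟩, f, max.2 g, h⟩

end Vale.Agent.N352.Bg
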