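import Vale.Agent.N352.U.Vr
import Vale.Agent.N352.U.Ct
import Vale.Agent.N352.U.Brg
import Vale.Agent.N352.DefV

/-!
# N352, block U: the virial current and the vacua (helper72)
-/

set_option linter.all false

open Filter Topology Set

namespace Vale.Agent.N352.U.Vr

open Vale.Agent.P352 Vale.Agent.P352.GF Vale.Agent.P352.BW Vale.Agent.P352.H246
open Vale.Agent.P352.H496 Vale.Agent.P352.H755 Vale.Agent.P352.H15
open Vale.Agent.P352X Vale.Agent.P352X.EB
open Vale.Agent.P352X.EG (Cg Sh sg)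
open UniformSpace (Completion)
open G Zc

variable {D : Type*} [NormedAddCommGroup D] [InnerProductSpace ℂ D]

/-- the theory without its net -/
def cf (c : Cg D) : E.Cf D :=
  ⟨c.Q, c.G, c.A, c.Γ, ⟨c.hN.toGr, c.hN.vac, c.hN.add, c.hN.der, c.hN.ext⟩⟩

theorem wcm {c : Cg D} {t : Completion D →L[ℂ] Completion D} {X X' : D → D}
    (h : ∀ K, Bornology.IsBounded K → t ∈ (c.N K).commutant) (p : Al c.Q univ X X') (v w : D) :
    inner ℂ ((X' w : D) : Completion D) (t v) = inner ℂ (w : Completion D) (t (X v : D)) := by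
  induction p generalizing v w with
  | one => rfl
  | add X X' Y Y' _ _ a b =>
    simp only [Completion.coe_add, inner_add_left, map_add, inner_add_right, a, b]
  | smul z X X' _ a =>
    simp only [Completion.coe_smul, inner_smul_left, map_smul, inner_smul_right, a,
      starRingEnd_apply, star_star]
  | fld A B g X X' hA hB e hg _ a =>
    obtain ⟨Z, k, q⟩ := c.hN.fld _ A g hA ⟨hg.1, hg.2.1, le_rfl⟩
    rw [a, ← q t (h _ hg.2.1.isCompact.isBounded), show Z w = B (bar g) w from
      ext_inner_left ℂ fun u => by rw [← k, e g _ _ hg.1]]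

theorem cn_net (c : Cg D) : Cn (cf c) := by
  refine ⟨_, EG.SGx.rs (c := c) (O := Metric.ball 0 1) Metric.isOpen_ball
    (Metric.nonempty_ball.2 one_pos), ?_⟩
  rintro _ ⟨Y, hY, rfl⟩
  have hK := Metric.isBounded_ball (x := (0 : V)) (r := 1)
  obtain ⟨t, m, p, k⟩ := lim2 hK (po_mem hY (c.hN.gam _ _ hY) false) ((gd c).par_po false Y)
  obtain ⟨t', m', p', k'⟩ := lim2 hK (po_mem hY (c.hN.gam _ _ hY) true) ((gd c).par_po true Y)
  simp only [Cg.gp, cond, mul_one] at p k p' k'
  have z : t' c.Om = 0 := by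
    have e := comm_apply (star_mem (k' _ _ 0 np0).1) (k' _ _ 0 np0).2 c.Om
    have o := (gd c).par_app ((gd c).par_star p') c.Om
    have j : ∀ v, t' v = (t' * c.Γ) (c.Γ v) := fun v => by
      rw [ContinuousLinearMap.mul_apply, (gd c).gg]
    rw [EG.SGx.gv, sg_true, neg_one_smul] at o
    replace e := congrArg (inner ℂ c.Om) e
    rw [j (star (t' * c.Γ) c.Om), o, map_neg, st_r, inner_neg_right, ← st_l (t' * c.Γ),
      ContinuousLinearMap.mul_apply, EG.SGx.gv, inner_self_eq_norm_sq_to_K,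
      inner_self_eq_norm_sq_to_K] at e
    norm_cast at e
    exact norm_eq_zero.1 (by nlinarith [sq_nonneg ‖star (t' * c.Γ) c.Om‖, norm_nonneg (t' c.Om)])
  have q : ∀ K, Bornology.IsBounded K → star t ∈ (c.N K).commutant := fun K b =>
    star_mem (bd_com b fun a b y h => (k a b y h).2)
  refine ⟨t c.Om, m.1, fun w i => ?_, fun P P' a => ⟨star t (P c.Q.vac : D), t (P' c.Q.vac : D),
    fun K K' b _ => ⟨?_, ?_⟩⟩, ?_⟩
  · have := m'.2 w i
    rw [z, inner_zero_right] at this
    rw [m.2 w i, ← po_add (Γ := c.Γ) Y, ContinuousLinearMap.add_apply, inner_add_right, ← this,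
      add_zero, po_add]
  · exact ((wcm q b _ _).trans (st_r _ _ _)).symm
  · exact ((st_r _ _ _).symm.trans (wcm q a _ _)).trans (st_r _ _ _) |>.symm
  · show c.Γ _ = _
    rw [(gd c).par_app p, EG.SGx.gv, sg_false, one_smul]

end Vale.Agent.N352.U.Vr

namespace Vale.Agent.N352.Bg

open P352.GF P352R

/-- **a virial current forbids the spontaneous breaking of the similitudes** -/
theorem thmV (D : Type*) [NormedAddCommGroup D] [InnerProductSpace ℂ D] : Df.ThV D := by
  intro Q G T A Γ N J a b v d e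
  have n := Br.lng.1 (lng.1 e)
  have k : P.MfA Q ∧ P.FSL Q := (flds.1 d).elim (fun d =>
    (Cf.cfg_all Q G A Γ _ n d).imp_left Br.mfa.2) id
  exact ⟨a, b, U.Vr.ivac (c := U.Vr.cf ⟨Q, G, A, Γ, N, n⟩) (fun s y hs =>
    Pf.cova n.toGr (Br.mfa.1 k.1) k.2 s _ y hs P352.H496.isLor_one) (U.Vr.cn_net _) a.bose b
      (v.bose o) v.charge, d, e⟩

end Vale.Agent.N352.Bg
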