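import Vale.Agent.N352.U.Vr
import Vale.Agent.N352.U.Ct

/-!
# N352, block U: the vacua are created at infinity, without a net (helper72)
-/

set_option linter.all false

open Filter Topology Set

namespace Vale.Agent.N352.U.Vr

open Vale.Agent.P352 Vale.Agent.P352.GF Vale.Agent.P352.BW Vale.Agent.P352.H246
open Vale.Agent.P352.H496 Vale.Agent.P352.H755 Vale.Agent.P352.H15
open Vale.Agent.P352X Vale.Agent.P352X.EB
open UniformSpace (Completion)
open E (Cf sg_row)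

section hilbert

variable {H : Type*} [NormedAddCommGroup H] [InnerProductSpace ℂ H] [CompleteSpace H]

theorem rz (M : Submodule ℂ (H × ℂ)) {C : ℝ} (h : ∀ p ∈ M, ‖p.2‖ ≤ C * ‖p.1‖) :
    ∃ ζ : H, ∀ p ∈ M, p.2 = inner ℂ ζ p.1 := by
  have e := M.toLinearPMap_graph_eq fun p m k => by simpa [k] using h p m
  obtain ⟨f, k, -⟩ := exists_extension_norm_eq _ (M.toLinearPMap.toFun.mkContinuous C fun x =>
    h _ (e ▸ M.toLinearPMap.mem_graph x))
  refine ⟨(InnerProductSpace.toDual ℂ H).symm f, fun p m => ?_⟩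
  obtain ⟨x, a, b⟩ := (LinearPMap.mem_graph_iff _).1 (e.symm ▸ m)
  rw [InnerProductSpace.toDual_symm_apply, ← a, k, ← b]
  rfl

theorem mean {u : V → H →L[ℂ] H} (hu : ∀ a b x, u a (u b x) = u (a + b) x)
    (hn : ∀ a x, ‖u a x‖ = ‖x‖) (x : H) : ∃ η, (∀ a, u a η = η) ∧ ∀ (R : ℝ) (φ : H → ℂ) (z : ℂ)
      (C : ℝ), IsLinearMap ℝ φ → Continuous φ → (∀ a ∈ Fr R, ‖φ (u a x) - z‖ ≤ C) →
      ‖φ η - z‖ ≤ C := by
  have l : ∀ a, IsLinearMap ℝ (u a) := fun a => ((u a).restrictScalars ℝ).toLinearMap.isLinear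
  have f0 : ∀ t : ℝ, (bas 1 t : V) 0 = 0 ∧ (bas 1 t : V) 1 = t := fun t => by simp [bas]
  obtain ⟨η, m, f⟩ := Zc.ex_fix (K := convexHull ℝ ((fun a => u a x) '' Fr 0))
    (Nonempty.convexHull ⟨_, bas 1 1, by simp [Fr, f0], rfl⟩) (convex_convexHull ℝ _)
  have i : ∀ a ∈ Fr 0, u a η = η := fun a ha => f _ (hn a) (convexHull_min (by
    rintro _ ⟨b, hb, rfl⟩
    refine subset_convexHull ℝ _ ⟨a + b, ?_, (hu _ _ _).symm⟩
    simp only [Fr, mem_setOf_eq, Pi.add_apply] at ha hb ⊢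
    linarith [abs_add_le (a 0) (b 0)]) ((convex_convexHull ℝ _).is_linear_preimage (l a)))
  have j : ∀ a, u a η = η := fun a => by
    have p := abs_nonneg (a 0)
    have q := neg_abs_le (a 1)
    rw [← i (bas 1 (|a 0| + |a 1| + 1)) (by simp [Fr, f0]; linarith [abs_nonneg (a 1)]), hu, i, i]
    · simp [Fr, f0]; linarith [abs_nonneg (a 1)]
    · simp [Fr, f0]; linarith
  refine ⟨η, j, fun R φ z C a b k => ?_⟩
  rw [← j (bas 1 R), ← mem_closedBall_iff_norm]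
  refine closure_minimal (t := u (bas 1 R) ⁻¹' (φ ⁻¹' Metric.closedBall z C)) (convexHull_min ?_
    (((convex_closedBall z C).is_linear_preimage a).is_linear_preimage (l _)))
    ((Metric.isClosed_closedBall.preimage b).preimage (u _).continuous) m
  rintro _ ⟨y, hy, rfl⟩
  rw [mem_preimage, mem_preimage, hu, mem_closedBall_iff_norm]
  exact k _ (by simpa [Fr, f0] using hy)

end hilbert

variable {D : Type*} [NormedAddCommGroup D] [InnerProductSpace ℂ D] {c : Cf D} {Q : Theory D}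
  {O O' : Set V} {j k Y Y' P P' X X' : D → D} {ρ : ℝ} {a : V}

theorem Cm.add (h : Cm Q O j) (h' : Cm Q O k) : Cm Q O fun v => j v + k v := fun P P' p v => by
  show j _ + k _ = P (j v + k v)
  rw [h P P' p, h' P P' p, p.map_add]

theorem Cm.smul (h : Cm Q O j) (z : ℂ) : Cm Q O fun v => z • j v := fun P P' p v => by
  show z • j _ = P (z • j v)
  rw [h P P' p, p.map_smul]

theorem Cm.comp (h : Cm Q O j) (h' : Cm Q O k) : Cm Q O fun v => j (k v) := fun P P' p v => by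
  show j (k _) = P (j (k v))
  rw [h' P P' p, h P P' p]

theorem Cm.of (h : Cm Q O j) (e : ∀ v, k v = j v) : Cm Q O k := (funext e).symm ▸ h

/-- space-like separated regions -/
def Sp (O O' : Set V) : Prop := ∀ x ∈ O, ∀ y ∈ O', GF.mdot (fun m => x m - y m) (fun m => x m - y m) < 0

theorem gsub (v w : D) : c.G (v - w) = c.G v - c.G w := by
  rw [sub_eq_add_neg, E.Bas.gadd, ← neg_one_smul ℂ w, E.Bas.gsmul, neg_one_smul, sub_eq_add_neg]

/-- twisted locality for polynomials -/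
theorem tw (s : Sp O' O) (p : Al c.Q O' Y Y') : Cm c.Q O (fun v => Y v + c.G (Y (c.G v))) ∧
    Cm c.Q O fun v => Y (c.G v) - c.G (Y v) := by
  have n : Cm c.Q O fun v => v := fun _ _ _ _ => rfl
  induction p with
  | one => exact ⟨(n.add n).of fun v => by rw [c.hN.inv], (n.sub n).of fun v => by simp⟩
  | add X X' Y Y' _ _ a b => exact ⟨(a.1.add b.1).of fun v => by simp only [E.Bas.gadd]; abel,
      (a.2.add b.2).of fun v => by simp only [E.Bas.gadd]; abel⟩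
  | smul z X X' _ a => exact ⟨(a.1.smul z).of fun v => by rw [E.Bas.gsmul, smul_add],
      (a.2.smul z).of fun v => by rw [E.Bas.gsmul, smul_sub]⟩
  | fld A B g X X' hA _ _ hg _ a =>
    obtain ⟨C, C', h1, h2, h3⟩ := c.hN.split A hA
    have sp : ∀ f, In O f → Sep g f := fun f k x hx y hy => s x (hg.2.2 hx) y (k.2.2 hy)
    have b := cm_of (O := O) (Fss.fl (c.Q.bose_fld _ h1) hg.1) fun B f v hB k =>
      c.Q.loc _ _ _ _ _ h1 hB hg.1 k.1 (sp f k)
    have d := cm_of (O := O) (Fss.fl h2.1 hg.1 ∘ₗ ⟨⟨c.G, E.Bas.gadd⟩, E.Bas.gsmul⟩)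
      fun B f v hB k => by
        obtain ⟨F, F', e1, e2, e3⟩ := c.hN.split B hB
        show C' g (c.G _) = B f (C' g (c.G v))
        rw [e3 f _ k.1, e3 f _ k.1, E.Bas.gadd, ← c.hN.bose F f v e1 k.1, ← neg_neg (c.G (F' f v)),
          ← e2.2 f v k.1, ← Fss.fl_apply h2.1 hg.1, map_add, map_neg, Fss.fl_apply, Fss.fl_apply,
          c.hN.anti _ _ _ _ _ h2 e2 hg.1 k.1 (sp f k), neg_neg,
          c.Q.loc _ _ _ _ _ e1 h2.1 k.1 hg.1 (EG.Bas.sep_symm (sp f k))]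
    refine ⟨((b.comp a.1).sub (d.comp a.2)).of fun v => ?_, ((b.comp a.2).add (d.comp a.1)).of
      fun v => ?_⟩ <;>
    simp only [LinearMap.comp_apply, LinearMap.coe_mk, AddHom.coe_mk, gsub, E.Bas.gadd, c.hN.inv,
      map_add, map_sub, Fss.fl_apply, h3 g _ hg.1, c.hN.bose C g _ h1 hg.1, h2.2 g _ hg.1] <;>
    abel

theorem tw' (s : Sp O' O) (y : Al c.Q O' Y Y') (p : Al c.Q O P P') (u : D) :
    2 * inner ℂ u (Y (P c.Q.vac)) = inner ℂ (P' u) (Y c.Q.vac + c.G (Y c.Q.vac)) -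
      inner ℂ (P' (c.G u)) (Y c.Q.vac - c.G (Y c.Q.vac)) := by
  have a := (tw s y).1 P P' p c.Q.vac
  have b := (tw s y).2 P P' p c.Q.vac
  simp only [c.hN.vac] at a b
  rw [p.adj', p.adj', c.hN.herm, ← a, ← b, gsub, c.hN.inv, inner_add_right, inner_sub_right]
  ring

theorem gn (v : D) : ‖c.G v‖ = ‖v‖ := by
  rw [@norm_eq_sqrt_re_inner ℂ, c.hN.herm, c.hN.inv, ← norm_eq_sqrt_re_inner]

theorem tb (s : Sp O' O) (y : Al c.Q O' Y Y') (p : Al c.Q O P P') :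
    ‖Y' (P c.Q.vac)‖ ≤ √((‖P' (P c.Q.vac)‖ + ‖P' (c.G (P c.Q.vac))‖) * ‖Y (Y' c.Q.vac)‖) := by
  have e := congrArg norm (tw' s (y.mul y.star) p (P c.Q.vac))
  rw [← y.adj', inner_self_eq_norm_sq_to_K, norm_mul, norm_pow] at e
  have a := norm_inner_le_norm (𝕜 := ℂ) (P' (P c.Q.vac)) (Y (Y' c.Q.vac) + c.G (Y (Y' c.Q.vac)))
  have b := norm_inner_le_norm (𝕜 := ℂ) (P' (c.G (P c.Q.vac)))
    (Y (Y' c.Q.vac) - c.G (Y (Y' c.Q.vac)))
  have d := norm_add_le (Y (Y' c.Q.vac)) (c.G (Y (Y' c.Q.vac)))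
  have f := norm_sub_le (Y (Y' c.Q.vac)) (c.G (Y (Y' c.Q.vac)))
  have g := e.trans_le (norm_sub_le _ _)
  rw [gn] at d f
  simp only [Complex.norm_ofNat, Complex.coe_algebraMap, Complex.norm_real, norm_norm] at g
  refine Real.le_sqrt_of_sq_le ?_
  nlinarith [mul_le_mul_of_nonneg_left d (norm_nonneg (P' (P c.Q.vac))),
    mul_le_mul_of_nonneg_left f (norm_nonneg (P' (c.G (P c.Q.vac))))]

theorem tv (s : Sp O' O) (y : Al c.Q O' Y Y') (p : Al c.Q O P P') :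
    inner ℂ (Y' c.Q.vac) (P c.Q.vac) = inner ℂ (P' c.Q.vac) (c.G (Y c.Q.vac)) := by
  have e := tw' s y p c.Q.vac
  rw [c.hN.vac, inner_add_right, inner_sub_right, ← y.adj'] at e
  linear_combination e / 2

theorem Sp.symm (s : Sp O O') : Sp O' O := fun x hx y hy => by
  have := s y hy x hx
  rw [P352X.mdot_eq] at this ⊢
  linarith

theorem sp_fr {R : ℝ} (h : 2 * ρ ≤ R) : Sp (Metric.ball 0 ρ) (Fr R) := fun x hx y hy => by
  have p := fun n => abs_lt.1 ((norm_le_pi_norm x n).trans_lt (mem_ball_zero_iff.1 hx))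
  have q : R + |y 0| < y 1 := hy
  rw [P352X.mdot_eq]
  nlinarith [p 0, p 1, le_abs_self (y 0), neg_abs_le (y 0), mul_self_nonneg (x 2 - y 2),
    mul_self_nonneg (x 3 - y 3)]

theorem trn (hc : Cd c.Q) (x : Al c.Q (Metric.ball 0 ρ) X X') {R : ℝ} (ha : a ∈ Fr (R + 2 * ρ)) :
    ∃ Z Z', Al c.Q (Fr R) Z Z' ∧ (∀ v, c.Q.U 1 GF.one a (X v) = Z (c.Q.U 1 GF.one a v)) ∧
      (∀ v, c.Q.U 1 GF.one a (X' v) = Z' (c.Q.U 1 GF.one a v)) ∧
      Ut c.Q a (X c.Q.vac : D) = (Z c.Q.vac : D) ∧ Ut c.Q a (X' c.Q.vac : D) = (Z' c.Q.vac : D) := by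
  have o := H496.isLor_one
  obtain ⟨Z, Z', z, e, e'⟩ := cov_al one_pos o (hc 1 a one_pos) x
  refine ⟨Z, Z', z.mono ?_, e, e', by rw [Ut, Grp.coe one_pos o, e, c.Q.U_vac _ _ _ one_pos o],
    by rw [Ut, Grp.coe one_pos o, e', c.Q.U_vac _ _ _ one_pos o]⟩
  rintro _ ⟨y, hy, rfl⟩
  have p := fun n => abs_lt.1 ((norm_le_pi_norm y n).trans_lt (mem_ball_zero_iff.1 hy))
  simp only [Fr, mem_setOf_eq, Fss.sim_dil, one_smul, Pi.add_apply] at ha ⊢
  linarith [abs_add_le (a 0) (y 0), abs_lt.2 (p 0), (p 1).1]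

theorem Cm.mono (h : Cm Q O k) (s : O' ⊆ O) : Cm Q O' k := fun P P' p => h P P' (p.mono s)

theorem fr_mono {R R' : ℝ} (h : R ≤ R') : Fr R' ⊆ Fr R := fun x hx =>
  lt_of_le_of_lt (by linarith) (show R' + |x 0| < x 1 from hx)

theorem mean2 (c : Cf D) (ψ ψ' : Completion D) : ∃ η η', Iv c.Q η ∧ Iv c.Q η' ∧
    (∀ w, Iv c.Q w → inner ℂ w η = inner ℂ w ψ ∧ inner ℂ w η' = inner ℂ w ψ') ∧
    (∀ R r C, (∀ a ∈ Fr R, ‖inner ℂ (Ut c.Q a ψ) r‖ ≤ C) → ‖inner ℂ η r‖ ≤ C) ∧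
    ∀ R q r, (∀ a ∈ Fr R, inner ℂ q (Ut c.Q a ψ') = inner ℂ (Ut c.Q a ψ) r) →
      inner ℂ q η' = inner ℂ η r := by
  let e := WithLp.prodContinuousLinearEquiv 2 ℂ (Completion D) (Completion D)
  obtain ⟨ξ, i, m⟩ := mean (u := fun a => e.symm.toContinuousLinearMap ∘L
    ((Ut c.Q a).prodMap (Ut c.Q a)) ∘L e.toContinuousLinearMap)
    (fun a b x => by simp [(sg_row c).ut, Prod.map]) (fun a x => by
      simp [WithLp.prod_norm_eq_of_L2, e, E.gr_nrm]) (e.symm (ψ, ψ'))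
  obtain ⟨⟨η, η'⟩, rfl⟩ := e.symm.surjective ξ
  replace i : ∀ a, Ut c.Q a η = η ∧ Ut c.Q a η' = η' := fun a => by simpa using i a
  replace m : ∀ (R : ℝ) (q r : Completion D) (z : ℂ) (C : ℝ), (∀ a ∈ Fr R,
      ‖inner ℂ q (Ut c.Q a ψ') - inner ℂ (Ut c.Q a ψ) r - z‖ ≤ C) →
      ‖inner ℂ q η' - inner ℂ η r - z‖ ≤ C := fun R q r z C h => by
    simpa using m R (fun ξ => inner ℂ q (e ξ).2 - inner ℂ (e ξ).1 r) z C
      ⟨fun _ _ => by simp [inner_add_left, inner_add_right]; ring, fun t _ => by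
        simp [← Complex.coe_smul, inner_smul_left, inner_smul_right]; ring⟩ (by fun_prop)
      (by simpa using h)
  have m0 := fun R q r z h => sub_eq_zero.1 (norm_le_zero_iff.1 (m R q r z 0 h))
  refine ⟨η, η', fun a => (i a).1, fun a => (i a).2, fun w k => ⟨?_, by
    simpa using m0 0 w 0 (inner ℂ w ψ') fun a _ => by simp [k.inn]⟩, fun R r C h => by
    simpa using m R 0 r 0 C (by simpa using h), fun R q r h => sub_eq_zero.1
      (m0 R q r 0 fun a ha => by simp [h a ha])⟩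
  have := m0 0 0 w (-inner ℂ ψ w) fun a _ => by
    rw [← inner_conj_symm (Ut _ _ _), k.inn]; simp
  rw [inner_zero_left, zero_sub, neg_inj] at this
  rw [← inner_conj_symm, this, inner_conj_symm]

/-- **the vacua are even and created at infinity** -/
theorem cn_free (hc : Cd c.Q) : Cn c := by
  have o := H496.isLor_one
  refine ⟨_, Completion.denseRange_coe.dense_image (Completion.continuous_coe D)
    (dense_PS (Q := c.Q)), ?_⟩
  rintro _ ⟨v, hv, rfl⟩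
  obtain ⟨X, X', x, rfl⟩ := gen_iff.2 hv
  obtain ⟨η, η', i, i', m, mb, me⟩ := mean2 c (X c.Q.vac : D) (X' c.Q.vac : D)
  refine ⟨η, i, fun w k => (m w k).1, fun P P' p => ?_, ?_⟩
  · obtain ⟨ρ, x, p⟩ := ((al_bd x).and (al_bd p)).exists
    have un := fun a v => H246.U_nrm0 (Q := c.Q) one_pos o a v
    have uv := fun a => c.Q.U_vac _ _ a one_pos o
    obtain ⟨ζ', h'⟩ := exists_riesz p.map_add p.map_smul η (C := √((‖X' (X c.Q.vac)‖ +
        ‖X' (c.G (X c.Q.vac))‖) * ‖P (P' c.Q.vac)‖)) fun v => by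
      rw [← inner_conj_symm, RCLike.norm_conj]
      refine mb (2 * ρ + 2 * ρ) _ _ fun a ha => ?_
      obtain ⟨Z, Z', z, e, e', u, -⟩ := trn hc x ha
      have t := tb (sp_fr le_rfl) p z
      rw [u, Completion.inner_coe, ← p.adj']
      refine (norm_inner_le_norm _ _).trans (mul_le_mul_of_nonneg_right (t.trans_eq ?_)
        (norm_nonneg _))
      conv_lhs => rw [← uv a, ← e, ← c.hN.GU _ _ _ _ one_pos o, ← e', ← e', un, un, uv]
    refine (rz (H := Completion D) ⟨⟨⟨{q | ∃ K K' R, Al c.Q univ K K' ∧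
        Cm c.Q (Fr R) K ∧ q = (((K' c.Q.vac : D) : Completion D),
          inner ℂ ((K (P c.Q.vac) : D) : Completion D) η)}, ?_⟩, fun _ => 0, fun _ => 0, 0, .zero,
          (Cm.smul (fun _ _ _ _ => rfl) 0).of fun v => (zero_smul ℂ v).symm,
          by simp [Completion.coe_zero, Prod.ext_iff]⟩, ?_⟩
        (C := √((‖P' (P c.Q.vac)‖ + ‖P' (c.G (P c.Q.vac))‖) * ‖X (X' c.Q.vac)‖)) ?_).imp
      fun ζ h => ⟨ζ', fun K K' k ⟨R, l⟩ => ⟨by
        rw [← inner_conj_symm, show inner ℂ _ η = _ from h _ ⟨K, K', R, k, l, rfl⟩,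
          inner_conj_symm], by rw [← inner_conj_symm, ← h', inner_conj_symm]⟩⟩
    · rintro _ _ ⟨K, K', R, k, l, rfl⟩ ⟨J, J', R', k', l', rfl⟩
      exact ⟨_, _, max R R', .add _ _ _ _ k k', (l.mono (fr_mono (le_max_left _ _))).add
        (l'.mono (fr_mono (le_max_right _ _))), by simp [Completion.coe_add, inner_add_left]⟩
    · rintro z _ ⟨K, K', R, k, l, rfl⟩
      exact ⟨_, _, R, .smul (star z) _ _ k, l.smul _, by
        simp [Completion.coe_smul, inner_smul_left]⟩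
    rintro _ ⟨K, K', R, k, l, rfl⟩
    rw [← inner_conj_symm, RCLike.norm_conj]
    refine mb (max R (2 * ρ) + 2 * ρ) _ _ fun a ha => ?_
    obtain ⟨Z, Z', z, e, e', u, -⟩ := trn hc x ha
    have t := tb (sp_fr (le_max_right _ _)).symm z p
    rw [u, Completion.inner_coe, z.adj, ← l _ _ (z.star.mono (fr_mono (le_max_left _ _))),
      ← k.adj', Completion.norm_coe, mul_comm]
    refine (norm_inner_le_norm _ _).trans (mul_le_mul_of_nonneg_left (t.trans_eq ?_)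
      (norm_nonneg _))
    rw [← un a (X _), e, e', uv]
  obtain ⟨ρ, x⟩ := (al_bd x).exists
  have g : ∀ w, Iv c.Q w → Iv c.Q (c.Γ w) := fun w k a =>
    (DFunLike.congr_fun (E.SGx.gU0 c ⟨1, _, a, one_pos, o⟩) w).symm.trans (congrArg c.Γ (k a))
  have gi : ∀ v w, inner ℂ (c.Γ v) w = inner ℂ v (c.Γ w) := fun v w => by
    rw [← ContinuousLinearMap.adjoint_inner_right, ← ContinuousLinearMap.star_eq_adjoint, E.SGx.gs]
  have gm : ∀ v, ‖c.Γ v‖ = ‖v‖ := ContinuousLinearMap.norm_map_of_mem_unitary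
    ⟨by rw [E.SGx.gs, E.SGx.g2], by rw [E.SGx.gs, E.SGx.g2]⟩
  have a := me (2 * ρ + 2 * ρ) (c.Γ (X' c.Q.vac : D)) (X c.Q.vac : D) fun a ha => by
    obtain ⟨Z, Z', z, -, -, u, u'⟩ := trn hc x ha
    rw [u, u', c.hN.ext, Completion.inner_coe, Completion.inner_coe, ← inner_conj_symm,
      ← tv (sp_fr le_rfl) x.star z, inner_conj_symm]
  have b := me (2 * ρ + 2 * ρ) (X' c.Q.vac : D) (c.Γ (X c.Q.vac : D)) fun a ha => by
    obtain ⟨Z, Z', z, -, -, u, u'⟩ := trn hc x ha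
    rw [u, u', c.hN.ext, Completion.inner_coe, Completion.inner_coe, tv (sp_fr le_rfl) x z.star]
  rw [gi, ← inner_conj_symm, ← (m _ (g _ i')).2, ← (m _ i).1, inner_self_eq_norm_sq_to_K] at a
  rw [← gi, ← inner_conj_symm, ← (m _ (g _ i)).1, ← (m _ i').2, inner_self_eq_norm_sq_to_K] at b
  have d := norm_inner_le_norm (𝕜 := ℂ) (c.Γ η') η'
  have f := norm_sub_sq (𝕜 := ℂ) (c.Γ η) η
  rw [← RCLike.norm_conj, a, gm] at d
  rw [← b, gm] at f
  simp only [norm_pow, Complex.coe_algebraMap, Complex.norm_real, norm_norm, map_pow,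
    Complex.conj_ofReal, ← Complex.ofReal_pow, RCLike.re_to_complex, Complex.ofReal_re] at d f
  exact sub_eq_zero.1 (norm_eq_zero.1 (pow_eq_zero_iff two_ne_zero |>.1
    (le_antisymm (by nlinarith) (sq_nonneg _))))

end Vale.Agent.N352.U.Vr
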