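import Vale.Agent.N352.U.Defs

/-!
# N352, block U: abelian algebras with a separating vector
-/

set_option linter.all false

open MeasureTheory Filter Topology
open scoped ComplexConjugate

namespace Vale.Agent.N352.U

noncomputable section

variable {H : Type*} [NormedAddCommGroup H] [InnerProductSpace ℂ H] [CompleteSpace H]
  {Z : VonNeumannAlgebra H} {Ω : H} {a b S T : H →L[ℂ] H}

theorem cm (ha : a ∈ Z) (hb : b ∈ Z.commutant) (v : H) : a (b v) = b (a v) :=
  DFunLike.congr_fun (VonNeumannAlgebra.mem_commutant_iff.1 hb a ha) v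

theorem mem_of_com (h : ∀ b ∈ Z.commutant, b * a = a * b) : a ∈ Z :=
  Z.commutant_commutant ▸ VonNeumannAlgebra.mem_commutant_iff.2 h

theorem smem (c : ℂ) (ha : a ∈ Z) : c • a ∈ Z := Z.toStarSubalgebra.smul_mem ha c

theorem st_l (a : H →L[ℂ] H) (v w : H) : inner ℂ (star a v) w = inner ℂ v (a w) :=
  ContinuousLinearMap.adjoint_inner_left _ _ _

theorem st_r (a : H →L[ℂ] H) (v w : H) : inner ℂ v (star a w) = inner ℂ (a v) w :=
  ContinuousLinearMap.adjoint_inner_right _ _ _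

/-- evaluation at a vector -/
def evl (Z : VonNeumannAlgebra H) (v : H) : Z.toStarSubalgebra →ₗ[ℂ] H where
  toFun a := a.1 v
  map_add' _ _ := rfl
  map_smul' _ _ := rfl

/-- the cyclic subspace -/
def H0 (Z : VonNeumannAlgebra H) (Ω : H) : Submodule ℂ H :=
  (LinearMap.range (evl Z Ω)).topologicalClosure

instance : CompleteSpace (H0 Z Ω) := (Submodule.isClosed_topologicalClosure _).completeSpace_coe

/-- the projection on the cyclic subspace -/
def e0 (Z : VonNeumannAlgebra H) (Ω : H) : H →L[ℂ] H := (H0 Z Ω).starProjection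

theorem H0_mem (ha : a ∈ Z) : a Ω ∈ H0 Z Ω := Submodule.le_topologicalClosure _ ⟨⟨a, ha⟩, rfl⟩

theorem H0_ind {p : H → Prop} (hp : IsClosed {v | p v}) (h : ∀ a ∈ Z, p (a Ω)) :
    ∀ v ∈ H0 Z Ω, p v := fun v hv =>
  closure_minimal (s := (LinearMap.range (evl Z Ω) : Set H)) (by
    rintro _ ⟨a, rfl⟩; exact h _ a.2) hp hv

theorem H0_inv (ha : a ∈ Z) : ∀ v ∈ H0 Z Ω, a v ∈ H0 Z Ω :=
  H0_ind ((Submodule.isClosed_topologicalClosure _).preimage a.continuous)
    fun b hb => H0_mem (mul_mem ha hb)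

theorem e0_mem (v : H) : e0 Z Ω v ∈ H0 Z Ω := Submodule.starProjection_apply_mem _ _

theorem e0_of {v : H} (h : v ∈ H0 Z Ω) : e0 Z Ω v = v := Submodule.starProjection_eq_self_iff.2 h

theorem e0_om : e0 Z Ω Ω = Ω := e0_of (H0_mem (one_mem Z))

theorem e0_st : star (e0 Z Ω) = e0 Z Ω := (isStarProjection_starProjection).isSelfAdjoint

theorem e0_inn (v w : H) : inner ℂ (e0 Z Ω v) w = inner ℂ v (e0 Z Ω w) := by
  rw [← st_l, e0_st]

theorem e0_com : e0 Z Ω ∈ Z.commutant := by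
  refine (VonNeumannAlgebra.IsStarProjection.mem_iff isStarProjection_starProjection _).2 ?_
  intro y hy
  rw [VonNeumannAlgebra.commutant_commutant] at hy
  rw [Submodule.range_starProjection]
  exact H0_inv hy

theorem H0_ext {v w : H} (hv : v ∈ H0 Z Ω) (hw : w ∈ H0 Z Ω)
    (h : ∀ a ∈ Z, inner ℂ (a Ω) v = inner ℂ (a Ω) w) : v = w := by
  have := H0_ind (p := fun u => inner ℂ u (v - w) = 0)
    (isClosed_eq (by fun_prop) continuous_const) (fun a ha => by rw [inner_sub_right, h a ha, sub_self])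
  exact sub_eq_zero.1 (inner_self_eq_zero.1 (this _ (sub_mem hv hw)))

/-- bounded vectors come from the commutant -/
theorem ex_op {v : H} {C : ℝ} (hC : 0 ≤ C) (h : ∀ a ∈ Z, ‖a v‖ ≤ C * ‖a Ω‖) :
    ∃ R ∈ Z.commutant, R Ω = v ∧ ‖R‖ ≤ C := by
  let j : Z.toStarSubalgebra →ₗ[ℂ] H0 Z Ω := (evl Z Ω).codRestrict _ fun a => H0_mem a.2
  have hj : DenseRange j := by
    rw [DenseRange, Subtype.dense_iff]
    exact fun u hu => closure_mono (by rintro _ ⟨a, rfl⟩; exact ⟨_, ⟨a, rfl⟩, rfl⟩) hu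
  have hb : ∀ a, ‖evl Z v a‖ ≤ C * ‖j a‖ := fun a => h _ a.2
  let R := (evl Z v).extendOfNorm j ∘L (H0 Z Ω).orthogonalProjection
  have k : ∀ a ∈ Z, R (a Ω) = a v := fun a ha => by
    have := (evl Z v).extendOfNorm_eq hj ⟨C, hb⟩ ⟨a, ha⟩
    rwa [← (H0 Z Ω).orthogonalProjection_mem_subspace_eq_self (j _)] at this
  have k2 : ∀ u, R (e0 Z Ω u) = R u := fun u => congrArg ((evl Z v).extendOfNorm j)
    ((H0 Z Ω).orthogonalProjection_mem_subspace_eq_self ⟨_, e0_mem u⟩)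
  refine ⟨R, VonNeumannAlgebra.mem_commutant_iff.2 fun a ha => ContinuousLinearMap.ext fun u => ?_,
    k 1 (one_mem Z), ContinuousLinearMap.opNorm_le_bound _ hC fun u => ?_⟩
  · show a (R u) = R (a u)
    rw [← k2 u, ← k2 (a u), ← cm ha e0_com]
    exact H0_ind (p := fun w => a (R w) = R (a w)) (isClosed_eq (by fun_prop) (by fun_prop))
      (fun b hb => by rw [k b hb]; exact (k _ (mul_mem ha hb)).symm) _ (e0_mem u)
  · exact ((evl Z v).norm_extendOfNorm_apply_le hj C hb _).trans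
      (mul_le_mul_of_nonneg_left ((H0 Z Ω).norm_orthogonalProjection_apply_le u) hC)

namespace Cen

variable (h : Cen Z Ω)
include h

theorem ind {p : H → Prop} (hp : IsClosed {v | p v}) (k : ∀ a ∈ Z.commutant, p (a Ω)) (v : H) :
    p v := h.cyc.induction (P := p) (by rintro _ ⟨a, ha, rfl⟩; exact k a ha) hp v

theorem sep (ha : a ∈ Z) (e : a Ω = 0) : a = 0 := ContinuousLinearMap.ext <|
  h.ind (isClosed_eq a.continuous continuous_const) fun b hb => by
    rw [cm ha hb, e, map_zero]; rfl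

theorem nst (ha : a ∈ Z) : ‖star a Ω‖ = ‖a Ω‖ := by
  rw [← sq_eq_sq₀ (norm_nonneg _) (norm_nonneg _), ← inner_self_eq_norm_sq (𝕜 := ℂ),
    ← inner_self_eq_norm_sq (𝕜 := ℂ), st_l, cm ha (h.comm _ (star_mem ha)), st_r]

theorem nst_le (hS : S ∈ Z.commutant) : ‖e0 Z Ω (star S Ω)‖ ≤ ‖e0 Z Ω (S Ω)‖ := by
  have := H0_ind (p := fun u => ‖inner ℂ u (e0 Z Ω (star S Ω))‖ ≤ ‖e0 Z Ω (S Ω)‖ * ‖u‖)
    (isClosed_le (by fun_prop) (by fun_prop)) (fun a ha => by
      rw [← e0_inn, e0_of (H0_mem ha), st_r, ← cm ha hS, ← st_r, ← e0_of (H0_mem (star_mem ha)),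
        ← e0_inn, ← h.nst ha]
      exact norm_inner_le_norm _ _) _ (e0_mem (star S Ω))
  rw [inner_self_eq_norm_sq_to_K, norm_pow, RCLike.norm_ofReal, abs_norm, sq] at this
  nlinarith [norm_nonneg (e0 Z Ω (star S Ω)), norm_nonneg (e0 Z Ω (S Ω))]

theorem ab0 (hS : S ∈ Z.commutant) (hT : T ∈ Z.commutant) :
    e0 Z Ω (S (e0 Z Ω (T Ω))) = e0 Z Ω (T (e0 Z Ω (S Ω))) := by
  refine H0_ext (e0_mem _) (e0_mem _) fun z hz => ?_
  obtain ⟨w, h1, h2⟩ := mem_closure_iff_seq_limit.1 (e0_mem (Z := Z) (Ω := Ω) (T Ω))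
  choose w h3 using h1
  have h4 : Tendsto (fun n => star (w n).1 Ω) atTop (𝓝 (e0 Z Ω (star T Ω))) := by
    refine tendsto_iff_norm_sub_tendsto_zero.2 (squeeze_zero (fun _ => norm_nonneg _) (fun n => ?_)
      (tendsto_iff_norm_sub_tendsto_zero.1 h2))
    have := h.nst_le (sub_mem (h.comm _ (w n).2) hT)
    simp only [star_sub, ContinuousLinearMap.sub_apply, map_sub, e0_of (H0_mem (w n).2),
      e0_of (H0_mem (star_mem (w n).2))] at this
    rwa [← h3 n]
  rw [← e0_inn, ← e0_inn, e0_of (H0_mem hz), ← st_l T, ← cm hz (star_mem hT),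
    ← e0_of (e0_mem (S Ω)), ← e0_inn, ← cm hz e0_com]
  refine tendsto_nhds_unique (tendsto_const_nhds.inner ((S.continuous.tendsto _).comp h2))
    ((((z.continuous.tendsto _).comp h4).inner tendsto_const_nhds).congr fun n => ?_)
  simp only [Function.comp_apply, ← h3 n]
  rw [← e0_inn, e0_of (H0_inv hz _ (H0_mem (star_mem (w n).2))), cm hz (h.comm _ (star_mem (w n).2)),
    st_l, cm (w n).2 hS]
  rfl

theorem ab (hS : S ∈ Z.commutant) (hT : T ∈ Z.commutant) :
    Commute (e0 Z Ω * S * e0 Z Ω) (e0 Z Ω * T * e0 Z Ω) := by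
  refine ContinuousLinearMap.ext fun u => ?_
  simp only [ContinuousLinearMap.mul_apply, e0_of (e0_mem _)]
  refine H0_ind (p := fun w => e0 Z Ω (S (e0 Z Ω (T w))) = e0 Z Ω (T (e0 Z Ω (S w))))
    (isClosed_eq (by fun_prop) (by fun_prop)) (fun a ha => ?_) _ (e0_mem u)
  simp only [← cm ha hT, ← cm ha hS, ← cm ha e0_com, h.ab0 hS hT]

theorem bd (hS : S ∈ Z.commutant) (hT : T ∈ Z.commutant) :
    ‖S (e0 Z Ω (T Ω))‖ ≤ ‖T‖ * ‖S Ω‖ := by
  set e := e0 Z Ω
  have e2 : ‖e‖ ≤ 1 := Submodule.starProjection_norm_le _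
  have n1 : ‖e * T * e‖ ≤ ‖T‖ := (norm_mul₃_le).trans (by
    nlinarith [mul_le_mul e2 e2 (norm_nonneg _) zero_le_one, norm_nonneg T, norm_nonneg e])
  have s1 : star (e * T * e) = e * star T * e := by simp only [star_mul, e, e0_st, mul_assoc]
  have pA : 0 ≤ e * (star S * S) * e := by
    simpa only [star_mul, e, e0_st, mul_assoc] using star_mul_self_nonneg (S * e)
  have pB : 0 ≤ algebraMap ℝ _ (‖T‖ ^ 2) - star (e * T * e) * (e * T * e) := by
    rw [sub_nonneg, ← CStarAlgebra.norm_le_iff_le_algebraMap _ (by positivity)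
      (star_mul_self_nonneg _), CStarRing.norm_star_mul_self, sq]
    exact mul_le_mul n1 n1 (norm_nonneg _) (norm_nonneg _)
  have c1 := h.ab (mul_mem (star_mem hS) hS) hT
  have c2 := h.ab (mul_mem (star_mem hS) hS) (star_mem hT)
  rw [← s1] at c2
  have := ((ContinuousLinearMap.nonneg_iff_isPositive _).1 (Commute.mul_nonneg pA pB
    ((Algebra.commute_algebraMap_right _ _).sub_right (c2.mul_right c1)))).re_inner_nonneg_right Ω
  rw [mul_sub, ← mul_assoc _ (star (e * T * e)), c2.eq, ← Algebra.commutes, Algebra.algebraMap_eq_smul_one] at this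
  simp only [ContinuousLinearMap.sub_apply, ContinuousLinearMap.mul_apply, inner_sub_right, st_r,
    ContinuousLinearMap.smul_apply, ContinuousLinearMap.one_apply, e, e0_om, ← e0_inn,
    e0_of (e0_mem _), map_sub, ← Complex.coe_smul, inner_smul_right, inner_self_eq_norm_sq_to_K] at this
  refine le_of_sq_le_sq ?_ (by positivity)
  rw [mul_pow, ← sub_nonneg]
  simpa [← Complex.ofReal_pow] using this

/-- **the conditional expectation** -/
theorem ex_ce (hT : T ∈ Z.commutant) : ∃ m ∈ Z, m Ω = e0 Z Ω (T Ω) ∧ ‖m‖ ≤ ‖T‖ := by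
  have hj : DenseRange (evl Z.commutant Ω) :=
    h.cyc.mono (by rintro _ ⟨a, ha, rfl⟩; exact ⟨⟨a, ha⟩, rfl⟩)
  have hb : ∀ a, ‖evl Z.commutant (e0 Z Ω (T Ω)) a‖ ≤ ‖T‖ * ‖evl Z.commutant Ω a‖ :=
    fun a => h.bd a.2 hT
  have k : ∀ a ∈ Z.commutant, (evl Z.commutant (e0 Z Ω (T Ω))).extendOfNorm (evl Z.commutant Ω)
      (a Ω) = a (e0 Z Ω (T Ω)) := fun a ha => LinearMap.extendOfNorm_eq hj ⟨_, hb⟩ ⟨a, ha⟩
  refine ⟨_, ?_, k 1 (one_mem _), LinearMap.opNorm_extendOfNorm_le hj (norm_nonneg _) hb⟩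
  refine mem_of_com fun a ha => ContinuousLinearMap.ext <| h.ind (isClosed_eq (by fun_prop) (by fun_prop))
    fun b hb => ?_
  simp only [ContinuousLinearMap.mul_apply]
  rw [k b hb]
  exact (k _ (mul_mem ha hb)).symm

end Cen

end

end Vale.Agent.N352.U
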