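import Vale.Agent.N352.U.A1

/-!
# N352, block U: the Gelfand picture, densities and cutoffs
-/

set_option linter.all false

open MeasureTheory Filter Topology
open scoped ComplexConjugate

namespace Vale.Agent.N352.U

noncomputable section

universe u

variable {H : Type u} [NormedAddCommGroup H] [InnerProductSpace ℂ H] [CompleteSpace H]
  {Z : VonNeumannAlgebra H} {Ω : H} {X : Type*} [TopologicalSpace X]

/-- the algebra is the image of the continuous functions -/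
structure Rh (Z : VonNeumannAlgebra H) (Ω : H) (ρ : C(X, ℂ) →⋆ₐ[ℂ] (H →L[ℂ] H)) : Prop
    extends Cen Z Ω where
  mem : ∀ f, ρ f ∈ Z
  sur : ∀ a ∈ Z, ∃ f, ρ f = a
  inj : Function.Injective ρ

theorem vn_closed (Z : VonNeumannAlgebra H) : IsClosed (Z : Set (H →L[ℂ] H)) :=
  Z.centralizer_centralizer ▸ Set.isClosed_centralizer _

theorem Cen.ex_rh (h : Cen Z Ω) : ∃ (X : Type u) (_ : TopologicalSpace X) (_ : CompactSpace X)
    (_ : T2Space X) (ρ : C(X, ℂ) →⋆ₐ[ℂ] (H →L[ℂ] H)), Rh Z Ω ρ := by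
  letI : CommCStarAlgebra Z.toStarSubalgebra :=
    { StarSubalgebra.cstarAlgebra Z.toStarSubalgebra (h_closed := vn_closed Z) with
      mul_comm := fun a b => Subtype.ext
        (VonNeumannAlgebra.mem_commutant_iff.1 (h.comm _ b.2) _ a.2) }
  let g := (gelfandStarTransform Z.toStarSubalgebra).symm
  exact ⟨_, inferInstance, inferInstance, inferInstance, Z.toStarSubalgebra.subtype.comp
    (StarAlgHomClass.toStarAlgHom g), h,
    fun f => (g f).2, fun a ha => ⟨g.symm ⟨a, ha⟩, congrArg Subtype.val (g.apply_symm_apply _)⟩,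
    Subtype.val_injective.comp g.injective⟩

variable {ρ : C(X, ℂ) →⋆ₐ[ℂ] (H →L[ℂ] H)} {v w v' w' : H} {f g f' g' : C(X, ℂ)} {C : ℝ}

theorem rm (f g : C(X, ℂ)) (v : H) : ρ (f * g) v = ρ f (ρ g v) := by rw [map_mul]; rfl

theorem rc (f g : C(X, ℂ)) (v : H) : ρ f (ρ g v) = ρ g (ρ f v) := by rw [← rm, mul_comm, rm]

theorem rl (f : C(X, ℂ)) (v w : H) : inner ℂ (ρ f v) w = inner ℂ v (ρ (star f) w) := by
  rw [map_star, st_r]

variable (ρ Ω) in
/-- `f` is the density of the pair `v`, `w` -/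
def Mr (v w : H) (f : C(X, ℂ)) : Prop := ∀ k, inner ℂ v (ρ k w) = inner ℂ Ω (ρ (k * f) Ω)

variable (ρ Ω) in
/-- bounded vectors -/
def Bd (v : H) (C : ℝ) : Prop := ∀ k, ‖ρ k v‖ ≤ C * ‖ρ k Ω‖

theorem Mr.mul (m : Mr Ω ρ v w f) (g : C(X, ℂ)) : Mr Ω ρ v (ρ g w) (g * f) := fun k => by
  rw [← rm, m, mul_assoc]

theorem Mr.swap (m : Mr Ω ρ (ρ g v) w f) : Mr Ω ρ v (ρ (star g) w) f := fun k => by
  rw [rc, ← rl, m]

theorem Mr.symm (m : Mr Ω ρ v w f) : Mr Ω ρ w v (star f) := fun k => by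
  rw [← inner_conj_symm, rl, m, inner_conj_symm, rl, star_mul', star_star]

theorem Mr.add (m : Mr Ω ρ v w f) (m' : Mr Ω ρ v' w f') : Mr Ω ρ (v + v') w (f + f') := fun k => by
  rw [inner_add_left, m, m', mul_add, map_add, ContinuousLinearMap.add_apply, inner_add_right]

theorem Mr.smul (m : Mr Ω ρ v w f) (a : ℂ) : Mr Ω ρ (a • v) w (conj a • f) := fun k => by
  rw [inner_smul_left, m, mul_smul_comm, map_smul, ContinuousLinearMap.smul_apply, inner_smul_right]

theorem Mr.one : Mr Ω ρ Ω Ω 1 := fun k => by rw [mul_one]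

theorem Mr.sq (m : Mr Ω ρ v v f) (k : C(X, ℂ)) :
    (inner ℂ (ρ k Ω) (ρ (f * k) Ω)).re = ‖ρ k v‖ ^ 2 := by
  rw [rl, ← rm, mul_left_comm, mul_comm, ← m, rm, ← rl, ← inner_self_eq_norm_sq (𝕜 := ℂ)]
  rfl

theorem Bd.abs (b : Bd Ω ρ v C) : Bd Ω ρ v |C| := fun k =>
  (b k).trans (mul_le_mul_of_nonneg_right (le_abs_self C) (norm_nonneg _))

namespace Rh

variable (h : Rh Z Ω ρ)
include h

theorem cm {Y : H →L[ℂ] H} (hY : Y ∈ Z.commutant) (f : C(X, ℂ)) (v : H) : ρ f (Y v) = Y (ρ f v) :=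
  U.cm (h.mem f) hY v

theorem zero (e : ρ f Ω = 0) : f = 0 := h.inj ((h.sep (h.mem f) e).trans (map_zero ρ).symm)

theorem faith (p : ∀ k, 0 ≤ (inner ℂ (ρ k Ω) (ρ (f * k) Ω)).re) (x : X) : 0 ≤ (f x).re := by
  let n : C(X, ℝ) := ⟨fun y => max (-(f y).re) 0, by fun_prop⟩
  let k : C(X, ℂ) := ⟨fun y => (Real.sqrt (n y) : ℝ), by fun_prop⟩
  let m : C(X, ℂ) := ⟨fun y => (n y : ℝ), by fun_prop⟩
  have e : star k * (f * k) + star (star k * (f * k)) = -((2 : ℂ) • (star m * m)) := by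
    ext y
    have a : Real.sqrt (n y) * Real.sqrt (n y) = n y := Real.mul_self_sqrt (le_max_right _ _)
    have b : (f y).re * n y = -(n y * n y) := by
      show _ * max _ _ = -(max _ _ * max _ _)
      rcases le_total (-(f y).re) 0 with c | c <;> simp [c]
    apply Complex.ext <;> simp [k, m]
    linear_combination 2 * (f y).re * a + 2 * b
  have q := p k
  have e2 := congrArg (fun z => (inner ℂ Ω (ρ z Ω)).re) e
  simp only [map_add, map_neg, map_smul, ContinuousLinearMap.add_apply, inner_add_right,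
    ContinuousLinearMap.neg_apply, ContinuousLinearMap.smul_apply, inner_neg_right,
    inner_smul_right, ← rl] at e2
  rw [← inner_conj_symm (ρ _ Ω) Ω, rm, ← rl, rm (star m), ← rl, inner_self_eq_norm_sq_to_K] at e2
  have e3 : ‖ρ m Ω‖ ^ 2 ≤ 0 := by
    simp [← Complex.ofReal_pow] at e2
    rw [rm] at q
    have := inner_re_symm (𝕜 := ℂ) (ρ k Ω) (ρ f (ρ k Ω))
    simp only [RCLike.re_to_complex] at this
    linarith
  have := DFunLike.congr_fun (h.zero (norm_eq_zero.1 (pow_eq_zero_iff two_ne_zero |>.1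
    (e3.antisymm (sq_nonneg _))))) x
  simpa [m, n] using this

theorem uniq (m : Mr Ω ρ v w f) (m' : Mr Ω ρ v w f') : f = f' := by
  refine sub_eq_zero.1 (h.zero (inner_self_eq_zero.1 (?_ : inner ℂ _ _ = 0)))
  rw [rl, ← rm, mul_sub, map_sub, ContinuousLinearMap.sub_apply, inner_sub_right, ← m, ← m',
    sub_self]

theorem ex_op (b : Bd Ω ρ v C) : ∃ R ∈ Z.commutant, R Ω = v :=
  have ⟨R, a, c, _⟩ := U.ex_op (Z := Z) (Ω := Ω) (abs_nonneg C) fun a ha => by
    obtain ⟨k, rfl⟩ := h.sur a ha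
    exact b.abs k
  ⟨R, a, c⟩

theorem ex_mr {C' : ℝ} (b : Bd Ω ρ v C) (b' : Bd Ω ρ w C') : ∃ f, Mr Ω ρ v w f := by
  obtain ⟨R, a, rfl⟩ := h.ex_op b
  obtain ⟨R', a', rfl⟩ := h.ex_op b'
  obtain ⟨m, c, d, -⟩ := h.ex_ce (mul_mem (star_mem a) a')
  obtain ⟨f, rfl⟩ := h.sur m c
  refine ⟨f, fun k => ?_⟩
  rw [rm, d, h.cm e0_com, ← e0_inn, e0_om, ContinuousLinearMap.mul_apply, h.cm (star_mem a), st_r]

theorem le_of (m : Mr Ω ρ v v f) (m' : Mr Ω ρ w w g) (b : ∀ k, ‖ρ k v‖ ≤ C * ‖ρ k w‖) (x : X) :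
    (f x).re ≤ C ^ 2 * (g x).re := by
  have := h.faith (f := ((C ^ 2 : ℝ) : ℂ) • g - f) (fun k => by
    rw [sub_mul, smul_mul_assoc, map_sub, map_smul, ContinuousLinearMap.sub_apply,
      ContinuousLinearMap.smul_apply, inner_sub_right, inner_smul_right, Complex.sub_re,
      Complex.re_ofReal_mul, m.sq, m'.sq, sub_nonneg, ← mul_pow]
    exact pow_le_pow_left₀ (norm_nonneg _) (b k) 2) x
  simpa [← Complex.ofReal_pow] using this

theorem pos (m : Mr Ω ρ v v f) (x : X) : 0 ≤ (f x).re :=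
  h.faith (fun k => m.sq k ▸ sq_nonneg _) x

/-- **cutoffs**, abstract form -/
theorem cut0 {K : Type*} [NormedAddCommGroup K] [InnerProductSpace ℂ K] [CompleteSpace K]
    (π : C(X, ℂ) →ₗ[ℂ] K →L[ℂ] K) (hm : ∀ f g η, π (f * g) η = π f (π g η)) (h1 : ∀ η, π 1 η = η)
    (ha : ∀ f η η', inner ℂ (π f η) η' = inner ℂ η (π (star f) η'))
    (hs : ∀ η, (∀ j : K →L[ℂ] H, (∀ f η, j (π f η) = ρ f (j η)) → j η = 0) → η = 0) (ξ : K) :
    ∃ c, (∀ k, k * c = 0 → k = 0) ∧ ‖ρ c‖ ≤ 1 ∧ ‖Ω - ρ c Ω‖ ≤ ‖ξ‖ ∧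
      ∀ k, ‖π (k * c) ξ‖ ≤ ‖ρ k Ω‖ := by
  let e := WithLp.prodContinuousLinearEquiv 2 ℂ H K
  let t : C(X, ℂ) →ₗ[ℂ] WithLp 2 (H × K) :=
    { toFun := fun f => WithLp.toLp 2 (ρ f Ω, π f ξ)
      map_add' := fun f g => by simp only [map_add]; rfl
      map_smul' := fun f g => by simp only [map_smul]; rfl }
  let G := (LinearMap.range t).topologicalClosure
  haveI : CompleteSpace G := (Submodule.isClosed_topologicalClosure _).completeSpace_coe
  have tm : ∀ f, t f ∈ G := fun f => Submodule.le_topologicalClosure _ ⟨f, rfl⟩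
  have ind : ∀ {p : WithLp 2 (H × K) → Prop}, IsClosed {u | p u} → (∀ f, p (t f)) →
      ∀ u ∈ G, p u := fun hp k u hu => closure_minimal (s := (LinearMap.range t : Set _))
        (by rintro _ ⟨a, rfl⟩; exact k a) hp (by rwa [← Submodule.topologicalClosure_coe])
  have inv : ∀ f, ∀ u ∈ G, WithLp.toLp 2 (ρ f u.fst, π f u.snd) ∈ G := fun f =>
    ind ((Submodule.isClosed_topologicalClosure _).preimage (by fun_prop)) fun g => by
      simpa only [t, ← rm, ← hm, LinearMap.coe_mk, AddHom.coe_mk, WithLp.toLp_fst, WithLp.toLp_snd]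
        using tm (f * g)
  obtain ⟨u, u1, u2⟩ : ∃ u ∈ G, ∀ s ∈ G, inner ℂ (WithLp.toLp 2 (Ω, (0 : K)) - u) s = 0 :=
    ⟨_, G.starProjection_apply_mem _, fun s hs => G.starProjection_inner_eq_zero _ s hs⟩
  have u3 : ∀ k, ‖ρ k u.fst‖ ^ 2 + ‖π k u.snd‖ ^ 2 ≤ ‖ρ k Ω‖ * ‖ρ k u.fst‖ := fun k => by
    have := u2 _ (inv (star k * k) u u1)
    rw [inner_sub_left, sub_eq_zero] at this
    simp only [WithLp.prod_inner_apply, WithLp.toLp_fst, WithLp.toLp_snd, inner_zero_left,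
      add_zero, rm, hm, ← rl, ← ha, WithLp.ofLp_fst, WithLp.ofLp_snd, map_zero] at this
    have b := re_inner_le_norm (𝕜 := ℂ) (ρ k Ω) (ρ k u.fst)
    rwa [this, map_add, inner_self_eq_norm_sq, inner_self_eq_norm_sq] at b
  have u4 : Bd Ω ρ u.fst 1 := fun k => by
    nlinarith [u3 k, norm_nonneg (ρ k u.fst), norm_nonneg (ρ k Ω), sq_nonneg ‖π k u.snd‖]
  obtain ⟨R, r1, r2, r3⟩ := U.ex_op (Z := Z) (Ω := Ω) zero_le_one fun a ha => by
    obtain ⟨k, rfl⟩ := h.sur a ha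
    exact u4 k
  obtain ⟨m, m1, m2, m3⟩ := h.ex_ce r1
  obtain ⟨c, rfl⟩ := h.sur m m1
  rw [r2, e0_of (ind (p := fun s => s.fst ∈ H0 Z Ω) ((Submodule.isClosed_topologicalClosure
    _).preimage (by fun_prop)) (fun f => H0_mem (h.mem f)) u u1)] at m2
  have u5 : u.snd = π c ξ := by
    refine sub_eq_zero.1 (hs _ fun j hj => inner_self_eq_zero.1 (h.ind (p := fun y =>
      inner ℂ y (j (u.snd - π c ξ)) = 0) (isClosed_eq (by fun_prop) continuous_const)
      (fun Y hY => ?_) _))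
    have := ind (p := fun s => ‖inner ℂ (Y Ω) (j s.snd)‖ ≤ ‖Y‖ * ‖j ξ‖ * ‖s.fst‖)
      (isClosed_le (by fun_prop) (by fun_prop)) (fun f => by
        show ‖inner ℂ _ (j (π f ξ))‖ ≤ _ * ‖ρ f Ω‖
        rw [hj, ← st_l, U.cm (star_mem (h.mem f)) hY, ← h.nst (h.mem f), mul_right_comm]
        exact (norm_inner_le_norm _ _).trans
          (mul_le_mul_of_nonneg_right (Y.le_opNorm _) (norm_nonneg _))) _ (sub_mem u1 (tm c))
    have e : (u - t c).fst = 0 := sub_eq_zero.2 m2.symm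
    rwa [e, norm_zero, mul_zero, norm_le_zero_iff] at this
  refine ⟨c, fun k hk => h.zero (inner_self_eq_zero.1 (?_ : inner ℂ _ _ = 0)), m3.trans r3, ?_,
    fun k => ?_⟩
  · have := u2 _ (tm (star k * k))
    rw [inner_sub_left, sub_eq_zero] at this
    simp only [t, WithLp.prod_inner_apply, inner_zero_left, add_zero, rm, hm, ← rl, ← ha,
      WithLp.ofLp_fst, WithLp.ofLp_snd, LinearMap.coe_mk, AddHom.coe_mk, map_zero] at this
    rw [this, ← m2, u5, ← rm, ← hm, hk]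
    simp
  · have a := u2 _ (sub_mem u1 (tm 1))
    have b := norm_add_sq_eq_norm_sq_add_norm_sq_of_inner_eq_zero _ _ a
    have d := WithLp.norm_fst_le (p := 2) H (WithLp.toLp 2 (Ω, (0 : K)) - u)
    have e : WithLp.toLp 2 (Ω, (0 : K)) - u + (u - t 1) = WithLp.toLp 2 (0, -ξ) := by
      rw [sub_add_sub_cancel]
      simp [t, h1, ← WithLp.toLp_sub]
    rw [e, WithLp.norm_toLp_snd, norm_neg] at b
    rw [m2]
    refine d.trans (le_of_sq_le_sq ?_ (norm_nonneg _))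
    nlinarith [mul_self_nonneg ‖u - t 1‖]
  · rw [hm, ← u5]
    nlinarith [u3 k, u4 k, norm_nonneg (ρ k u.fst), norm_nonneg (ρ k Ω), norm_nonneg (π k u.snd)]

/-- **cutoffs** -/
theorem cut {P : Type*} [MeasurableSpace P] {ν : Measure P} {ξ : P → H} (hξ : MemLp ξ 2 ν) :
    ∃ c, (∀ k, k * c = 0 → k = 0) ∧ ‖ρ c‖ ≤ 1 ∧ ‖Ω - ρ c Ω‖ ^ 2 ≤ ∫ p, ‖ξ p‖ ^ 2 ∂ν ∧
      ∀ k, ∫ p, ‖ρ (k * c) (ξ p)‖ ^ 2 ∂ν ≤ ‖ρ k Ω‖ ^ 2 := by
  have n : ∀ η : Lp H 2 ν, ‖η‖ ^ 2 = ∫ p, ‖η p‖ ^ 2 ∂ν := fun η => by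
    rw [← inner_self_eq_norm_sq (𝕜 := ℂ), L2.inner_def, ← integral_re (L2.integrable_inner _ _)]
    simp only [inner_self_eq_norm_sq]
  have co := fun f => (ρ f).coeFn_compLpL (p := 2) (μ := ν)
  obtain ⟨c, a, b, d, e⟩ := h.cut0 (K := Lp H 2 ν)
    { toFun := fun f => (ρ f).compLpL 2 ν
      map_add' := fun f g => by rw [map_add, ContinuousLinearMap.add_compLpL]
      map_smul' := fun f g => by rw [map_smul, ContinuousLinearMap.smul_compLpL]; rfl }
    (fun f g η => Lp.ext <| by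
      filter_upwards [co (f * g) η, co f ((ρ g).compLpL 2 ν η), co g η] with p a b c
      exact a.trans ((rm ..).trans (b.trans (congrArg _ c)).symm))
    (fun η => Lp.ext <| by
      filter_upwards [co 1 η] with p a
      exact a.trans (by rw [map_one]; rfl))
    (fun f η η' => by
      rw [L2.inner_def, L2.inner_def]
      refine integral_congr_ae ?_
      filter_upwards [co f η, co (star f) η'] with p a b
      exact (congrArg (inner ℂ · _) a).trans ((rl ..).trans (congrArg _ b.symm)))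
    (fun η hη => Lp.ext <| by
      have i := fun (η : Lp H 2 ν) s (hs : ν s < ⊤) =>
        integrableOn_Lp_of_measure_ne_top η fact_one_le_two_ennreal.elim hs.ne
      refine (Lp.ae_eq_zero_of_forall_setIntegral_eq_zero η (by simp) (by simp)
        (fun s _ hs => i η s hs) fun s ms hs => ?_).trans (Lp.coeFn_zero _ _ _).symm
      refine hη (LinearMap.mkContinuous
        { toFun := fun η => ∫ p in s, η p ∂ν
          map_add' := fun a b => (integral_congr_ae (ae_restrict_of_ae (Lp.coeFn_add a b))).trans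
            (integral_add' (i a s hs) (i b s hs))
          map_smul' := fun a b => (integral_congr_ae (ae_restrict_of_ae (Lp.coeFn_smul a b))).trans
            (integral_smul a _) } (ν.real s ^ (1 / (2 : ENNReal).toReal)) fun η => ?_) fun f η => ?_
      · show ‖∫ p in s, η p ∂ν‖ ≤ _
        have := re_inner_le_norm (𝕜 := ℂ) (indicatorConstLp 2 ms hs.ne (∫ p in s, η p ∂ν)) η
        rw [L2.inner_indicatorConstLp_eq_inner_setIntegral, inner_self_eq_norm_sq,
          norm_indicatorConstLp (by simp) (by simp), mul_assoc, sq] at this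
        exact (norm_nonneg _).eq_or_lt.elim (fun a => a ▸ by positivity)
          (le_of_mul_le_mul_left this)
      · exact (integral_congr_ae (ae_restrict_of_ae (co f η))).trans
          ((ρ f).integral_comp_comm (i η s hs))) (hξ.toLp ξ)
  refine ⟨c, a, b, (pow_le_pow_left₀ (norm_nonneg _) d 2).trans_eq ((n _).trans
    (integral_congr_ae (hξ.coeFn_toLp.mono fun p a => by simp only [a]))), fun k =>
    le_of_eq_of_le ?_ (pow_le_pow_left₀ (norm_nonneg _) (e k) 2)⟩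
  rw [n]
  refine integral_congr_ae ?_
  filter_upwards [co (k * c) (hξ.toLp ξ), hξ.coeFn_toLp] with p a b
  exact congrArg (‖·‖ ^ 2) (a.trans (congrArg _ b)).symm

end Rh

end

end Vale.Agent.N352.U
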