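import Vale.Agent.N352.U.A2

/-!
# N352, block U: the system of fibres
-/

set_option linter.all false

open MeasureTheory Filter Topology
open scoped ComplexConjugate SchwartzMap
open UniformSpace (Completion)

namespace Vale.Agent.N352.U

open Vale.Agent.P352X

noncomputable section

universe u

variable {H : Type u} [NormedAddCommGroup H] [InnerProductSpace ℂ H] [CompleteSpace H]
  {Z : VonNeumannAlgebra H} {Ω : H} {X : Type*} [TopologicalSpace X]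

/-- tempered maps are of Hilbert-Schmidt type -/
theorem hs_temp {E : Type} [NormedAddCommGroup E] [NormedSpace ℝ E] [FiniteDimensional ℝ E]
    (Λ : 𝓢(E, ℂ) →L[ℂ] H) : ∃ (P : Type) (_ : MeasurableSpace P) (ν : Measure P) (ξ : P → H)
      (C : ℝ) (N : ℕ), MemLp ξ 2 ν ∧ ∀ (A : H →L[ℂ] H) f B, 0 < B →
        ∫ p, ‖A (ξ p)‖ ^ 2 ∂ν ≤ B ^ 2 → ‖A (Λ f)‖ ≤ C * ST.sn E ℂ N f * B := by
  borelize E
  let lam : E ≃L[ℝ] EuclideanSpace ℝ (Fin (Module.finrank ℝ E)) := toEuclidean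
  let μ : Measure E := volume.map lam.symm
  obtain ⟨φ, ψ, h1, h2⟩ := Wk.ex_pair μ
  obtain ⟨K, -, hK⟩ := Wk.low lam
  obtain ⟨C, m, hC, hΛ⟩ := ST.clm_sn_c Λ
  obtain ⟨A0, a0, hA⟩ := Wk.sn_atm lam ψ m
  let ν := μ.prod (volume : Measure (EuclideanSpace ℝ (Fin (Module.finrank ℝ E))))
  haveI : ν.IsAddHaarMeasure := inferInstance
  let r := ν.integrablePower
  obtain ⟨C1, N, hc⟩ := Wk.co_bd' μ φ hK (m + m + r + r)
  let w : E × EuclideanSpace ℝ (Fin (Module.finrank ℝ E)) → ℝ := fun p => ((1 + ‖p‖) ^ r)⁻¹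
  have iw : Integrable w ν := Api4.integrable_w ν
  have w1 : ∀ p, w p ≤ 1 := fun p => inv_le_one_of_one_le₀ (one_le_pow₀ (by simp))
  have w0 : ∀ p, 0 < w p := fun p => by positivity
  let ξ := fun p => (((1 + ‖p‖) ^ (m + m + r))⁻¹ : ℝ) • Λ (Wk.atm lam ψ p)
  have cξ : Continuous ξ := by
    refine Continuous.smul (M := ℝ) ?_ (Λ.continuous.comp (Wk.continuous_atm lam ψ))
    exact Continuous.inv₀ (by fun_prop) fun p => by positivity
  have bξ : ∀ p, ‖ξ p‖ ≤ C * A0 * w p := fun p => by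
    rw [norm_smul, Real.norm_of_nonneg (by positivity), inv_mul_le_iff₀ (by positivity)]
    refine (hΛ _).trans ((mul_le_mul_of_nonneg_left (hA p) hC).trans_eq ?_)
    simp only [w, pow_add]
    field_simp
  have mξ : MemLp ξ 2 ν := (memLp_two_iff_integrable_sq_norm cξ.aestronglyMeasurable).2
    ((iw.const_mul ((C * A0) ^ 2)).mono' (cξ.norm.pow 2).aestronglyMeasurable
      (Eventually.of_forall fun p => by
        rw [Real.norm_of_nonneg (sq_nonneg _)]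
        refine (pow_le_pow_left₀ (norm_nonneg _) (bξ p) 2).trans ?_
        rw [mul_pow]
        exact mul_le_mul_of_nonneg_left (by nlinarith [w1 p, w0 p]) (sq_nonneg _)))
  refine ⟨_, inferInstance, ν, ξ, C1 * ((∫ p, w p ∂ν) + 1), N, mξ, fun A f B hB hi => ?_⟩
  have s0 : 0 ≤ C1 * ST.sn E ℂ N f := le_trans (by positivity) (hc 0 f)
  have i2 := (memLp_two_iff_integrable_sq_norm (A.continuous.comp cξ).aestronglyMeasurable).1
    (A.comp_memLp' mξ)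
  refine (congrArg norm (Wk.recon lam rfl h1 h2 (A ∘L Λ) f)).trans_le
    ((norm_integral_le_of_norm_le (((iw.const_mul B).add (i2.div_const B)).const_mul
      (C1 * ST.sn E ℂ N f)) (Eventually.of_forall fun p => ?_)).trans ?_)
  · have e : A (Λ (Wk.atm lam ψ p)) = ((1 + ‖p‖) ^ (m + m + r) : ℝ) • A (ξ p) := by
      rw [A.map_smul_of_tower, smul_inv_smul₀ (by positivity)]
    have b := hc p f
    rw [pow_add _ _ r, mul_right_comm, ← le_div_iff₀ (by positivity), div_eq_mul_inv] at b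
    rw [ContinuousLinearMap.comp_apply, e, norm_smul, norm_smul, Real.norm_of_nonneg
      (by positivity), ← mul_assoc, mul_comm ‖_‖]
    refine (mul_le_mul_of_nonneg_right b (norm_nonneg _)).trans ?_
    rw [mul_assoc]
    refine mul_le_mul_of_nonneg_left ?_ s0
    show w p * _ ≤ B * w p + ‖A (ξ p)‖ ^ 2 / B
    rw [← sub_le_iff_le_add', le_div_iff₀ hB]
    nlinarith [sq_nonneg (‖A (ξ p)‖ - B * w p), mul_nonneg (mul_nonneg (sq_nonneg B) (w0 p).le)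
      (sub_nonneg.2 (w1 p)), mul_nonneg (mul_nonneg hB.le (w0 p).le) (norm_nonneg (A (ξ p)))]
  · rw [integral_const_mul, integral_add' (iw.const_mul B) (i2.div_const B), integral_const_mul,
      integral_div, mul_right_comm C1 (_ + 1), mul_assoc (C1 * _)]
    refine mul_le_mul_of_nonneg_left ?_ s0
    have : (∫ p, ‖(A ∘ ξ) p‖ ^ 2 ∂ν) / B ≤ B := (div_le_iff₀ hB).2 (hi.trans_eq (sq B))
    linarith

variable {ρ : C(X, ℂ) →⋆ₐ[ℂ] (H →L[ℂ] H)} {v w v' w' : H} {f g f' g' : C(X, ℂ)} {C C' : ℝ} {x : X}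
  {Y : H →L[ℂ] H}

theorem Bd.mul (b : Bd Ω ρ v C) (g : C(X, ℂ)) : Bd Ω ρ (ρ g v) (‖ρ g‖ * C) := fun k => by
  rw [rc, mul_assoc]
  exact ((ρ g).le_opNorm _).trans (mul_le_mul_of_nonneg_left (b k) (norm_nonneg _))

theorem Bd.add (b : Bd Ω ρ v C) (b' : Bd Ω ρ w C') : Bd Ω ρ (v + w) (C + C') := fun k => by
  rw [map_add, add_mul]
  exact (norm_add_le _ _).trans (add_le_add (b k) (b' k))

theorem Bd.smul (b : Bd Ω ρ v C) (a : ℂ) : Bd Ω ρ (a • v) (‖a‖ * C) := fun k => by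
  rw [map_smul, norm_smul, mul_assoc]
  exact mul_le_mul_of_nonneg_left (b k) (norm_nonneg _)

variable (Ω ρ) in
/-- the vectors that are bounded near `x` -/
def Lx (x : X) : Submodule ℂ H where
  carrier := {v | ∃ g C, g x = 1 ∧ Bd Ω ρ (ρ g v) C}
  add_mem' := by
    rintro v w ⟨g, C, a, b⟩ ⟨g', C', a', b'⟩
    refine ⟨g * g', _, by simp [a, a'], map_add (ρ (g * g')) v w ▸ Bd.add (C := ‖ρ g'‖ * C)
      (C' := ‖ρ g‖ * C') ?_ ?_⟩
    · simpa only [rm, rc g g'] using b.mul g'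
    · simpa only [rm] using b'.mul g
  zero_mem' := ⟨1, 0, rfl, fun k => by simp⟩
  smul_mem' := by
    rintro c v ⟨g, C, a, b⟩
    exact ⟨g, _, a, map_smul (ρ g) c v ▸ b.smul c⟩

theorem Lx_of (a : g x ≠ 0) (b : Bd Ω ρ (ρ g v) C) : v ∈ Lx Ω ρ x :=
  ⟨(g x)⁻¹ • g, _, by simp [a], by
    rw [map_smul]
    exact b.smul _⟩

variable (Ω ρ) in
/-- the scalar product of the fibre -/
def ip (x : X) (v w : H) : ℂ :=
  Classical.epsilon fun c => ∃ g f, g x = 1 ∧ Mr Ω ρ v (ρ g w) f ∧ f x = c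

theorem Mr.ref (m : Mr Ω ρ v (ρ g w) f) (g' : C(X, ℂ)) : Mr Ω ρ v (ρ (g' * g) w) (g' * f) :=
  rm g' g w ▸ m.mul g'

namespace Rh

variable (h : Rh Z Ω ρ)
include h

theorem ip_eq (a : g x = 1) (m : Mr Ω ρ v (ρ g w) f) : ip Ω ρ x v w = f x := by
  obtain ⟨g', f', a', m', e⟩ := Classical.epsilon_spec
    (p := fun c => ∃ g f, g x = 1 ∧ Mr Ω ρ v (ρ g w) f ∧ f x = c) ⟨_, g, f, a, m, rfl⟩
  have := DFunLike.congr_fun (h.uniq (m.ref g') (mul_comm g g' ▸ m'.ref g)) x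
  simp only [ContinuousMap.mul_apply, a, a', one_mul] at this
  exact e.symm.trans this.symm

theorem ip_eq2 (a : g x = 1) (a' : g' x = 1) (m : Mr Ω ρ (ρ g v) (ρ g' w) f) :
    ip Ω ρ x v w = f x :=
  h.ip_eq (g := star g * g') (by simp [a, a']) (rm (star g) g' w ▸ m.swap)

theorem ex_ip (hv : v ∈ Lx Ω ρ x) (hw : w ∈ Lx Ω ρ x) :
    ∃ g f, g x = 1 ∧ Mr Ω ρ v (ρ g w) f := by
  obtain ⟨g, C, a, b⟩ := hv
  obtain ⟨g', C', a', b'⟩ := hw
  obtain ⟨f, m⟩ := h.ex_mr b b'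
  exact ⟨star g * g', f, by simp [a, a'], rm (star g) g' w ▸ m.swap⟩

theorem ip_symm (hv : v ∈ Lx Ω ρ x) (hw : w ∈ Lx Ω ρ x) :
    conj (ip Ω ρ x w v) = ip Ω ρ x v w := by
  obtain ⟨g, f, a, m⟩ := h.ex_ip hv hw
  rw [h.ip_eq a m, h.ip_eq (g := star g) (by simp [a]) m.symm.swap]
  simp

theorem ip_rel {a1 b1 a2 b2 a3 b3 : H} (p1 : a1 ∈ Lx Ω ρ x) (q1 : b1 ∈ Lx Ω ρ x)
    (p2 : a2 ∈ Lx Ω ρ x) (q2 : b2 ∈ Lx Ω ρ x)
    (e : ∀ k, inner ℂ a1 (ρ k b1) + inner ℂ a2 (ρ k b2) = inner ℂ a3 (ρ k b3)) :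
    ip Ω ρ x a1 b1 + ip Ω ρ x a2 b2 = ip Ω ρ x a3 b3 := by
  obtain ⟨g, f, a, m⟩ := h.ex_ip p1 q1
  obtain ⟨g', f', a', m'⟩ := h.ex_ip p2 q2
  rw [h.ip_eq a m, h.ip_eq a' m', h.ip_eq (g := g' * g) (f := g' * f + g * f') (by simp [a, a'])
    fun k => ?_]
  · simp [a, a']
  · rw [← rm, ← e, rm, rm k, m.ref g', mul_comm g' g, m'.ref g, mul_add, map_add]
    exact (inner_add_right _ _ _).symm

theorem ip_le (hv : v ∈ Lx Ω ρ x) (hw : w ∈ Lx Ω ρ x) (a : g x = 1)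
    (b : ∀ k, ‖ρ k (ρ g v)‖ ≤ C * ‖ρ k (ρ g w)‖) :
    (ip Ω ρ x v v).re ≤ C ^ 2 * (ip Ω ρ x w w).re := by
  obtain ⟨g1, C1, a1, b1⟩ := hv
  obtain ⟨g2, C2, a2, b2⟩ := hw
  have e : (g * g2 * g1) x = 1 := by simp [a, a1, a2]
  have c1 := b1.mul (g * g2)
  have c2 := b2.mul (g * g1)
  rw [← rm] at c1 c2
  rw [mul_right_comm] at c2
  obtain ⟨f1, m1⟩ := h.ex_mr c1 c1
  obtain ⟨f2, m2⟩ := h.ex_mr c2 c2
  rw [h.ip_eq2 e e m1, h.ip_eq2 e e m2]
  refine h.le_of m1 m2 (fun k => ?_) x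
  simpa only [← rm, mul_assoc, mul_comm, mul_left_comm] using b (k * (g2 * g1))

theorem om_mem : Ω ∈ Lx Ω ρ x := ⟨1, 1, rfl, fun k => by simp⟩

theorem ip_om : ip Ω ρ x Ω Ω = 1 := h.ip_eq (g := 1) (f := 1) rfl (by simpa using Mr.one)

theorem act (hY : Y ∈ Z.commutant) (hv : v ∈ Lx Ω ρ x) : Y v ∈ Lx Ω ρ x := by
  obtain ⟨g, C, a, b⟩ := hv
  refine ⟨g, ‖Y‖ * C, a, fun k => ?_⟩
  rw [h.cm hY, h.cm hY, mul_assoc]
  exact (Y.le_opNorm _).trans (mul_le_mul_of_nonneg_left (b k) (norm_nonneg _))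

/-- the space of the fibre before completion -/
def Px (h : Rh Z Ω ρ) (x : X) : Type u := Lx Ω ρ x

instance : AddCommGroup (h.Px x) := inferInstanceAs (AddCommGroup (Lx Ω ρ x))
instance : Module ℂ (h.Px x) := inferInstanceAs (Module ℂ (Lx Ω ρ x))

abbrev core (x : X) : PreInnerProductSpace.Core ℂ (h.Px x) where
  inner v w := ip Ω ρ x v.1 w.1
  conj_inner_symm v w := h.ip_symm v.2 w.2
  re_inner_nonneg v := by
    obtain ⟨g, C, a, b⟩ := v.2
    obtain ⟨f, m⟩ := h.ex_mr b b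
    exact (h.pos m x).trans_eq (congrArg _ (h.ip_eq2 a a m).symm)
  add_left u v w := (h.ip_rel u.2 w.2 v.2 w.2 fun k => (inner_add_left _ _ _).symm).symm
  smul_left v w r := by
    obtain ⟨g, f, a, m⟩ := h.ex_ip v.2 w.2
    exact (h.ip_eq a (m.smul r)).trans (congrArg (conj r * ·) (h.ip_eq a m).symm)

instance : SeminormedAddCommGroup (h.Px x) :=
  InnerProductSpace.Core.toSeminormedAddCommGroup (c := h.core x)

instance : InnerProductSpace ℂ (h.Px x) := InnerProductSpace.ofCore (h.core x)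

/-- vectors of the fibre -/
def mk' (hv : v ∈ Lx Ω ρ x) : h.Px x := ⟨v, hv⟩

open Classical in
/-- the value of a vector -/
def ph (x : X) (v : H) : Completion (h.Px x) :=
  if hv : v ∈ Lx Ω ρ x then (h.mk' hv : Completion (h.Px x)) else 0

theorem ph_eq (hv : v ∈ Lx Ω ρ x) : h.ph x v = (h.mk' hv : Completion (h.Px x)) :=
  dif_pos hv

theorem ph_inner (hv : v ∈ Lx Ω ρ x) (hw : w ∈ Lx Ω ρ x) :
    inner ℂ (h.ph x v) (h.ph x w) = ip Ω ρ x v w := by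
  rw [h.ph_eq hv, h.ph_eq hw, Completion.inner_coe]
  rfl

theorem ph_le (hv : v ∈ Lx Ω ρ x) (hw : w ∈ Lx Ω ρ x) (a : g x = 1) (hC : 0 ≤ C)
    (b : ∀ k, ‖ρ k (ρ g v)‖ ≤ C * ‖ρ k (ρ g w)‖) : ‖h.ph x v‖ ≤ C * ‖h.ph x w‖ := by
  refine le_of_sq_le_sq ?_ (by positivity)
  rw [mul_pow, ← inner_self_eq_norm_sq (𝕜 := ℂ), ← inner_self_eq_norm_sq (𝕜 := ℂ), h.ph_inner hv hv,
    h.ph_inner hw hw]
  exact h.ip_le hv hw a b

theorem ph_om : ‖h.ph x Ω‖ = 1 := by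
  rw [← sq_eq_sq₀ (norm_nonneg _) zero_le_one, ← inner_self_eq_norm_sq (𝕜 := ℂ),
    h.ph_inner h.om_mem h.om_mem, h.ip_om]
  simp

/-- the value of an operator, before completion -/
def op0 (x : X) (hY : Y ∈ Z.commutant) : h.Px x →L[ℂ] h.Px x :=
  LinearMap.mkContinuous
    { toFun := fun v => ⟨Y v.1, h.act hY v.2⟩
      map_add' := fun v w => Subtype.ext (map_add Y _ _)
      map_smul' := fun v w => Subtype.ext (map_smul Y _ _) } ‖Y‖ fun v => by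
    have := h.ph_le (g := 1) (h.act hY v.2) v.2 rfl (norm_nonneg Y) fun k => by
      rw [h.cm hY, h.cm hY]
      exact Y.le_opNorm _
    rwa [h.ph_eq, h.ph_eq, Completion.norm_coe, Completion.norm_coe] at this

open Classical in
/-- the value of an operator -/
def op (x : X) (Y : H →L[ℂ] H) : Completion (h.Px x) →L[ℂ] Completion (h.Px x) :=
  if hY : Y ∈ Z.commutant then (h.op0 x hY).completion else 0

theorem op_ph (hY : Y ∈ Z.commutant) (hv : v ∈ Lx Ω ρ x) : h.ph x (Y v) = h.op x Y (h.ph x v) := by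
  rw [op, dif_pos hY, h.ph_eq hv, ContinuousLinearMap.completion_apply_coe, h.ph_eq (h.act hY hv)]
  rfl

theorem ph_dns : Dense (h.ph x '' Lx Ω ρ x) :=
  Completion.denseRange_coe.mono (by rintro _ ⟨v, rfl⟩; exact ⟨v.1, v.2, h.ph_eq v.2⟩)

theorem ph_add (hv : v ∈ Lx Ω ρ x) (hw : w ∈ Lx Ω ρ x) :
    h.ph x (v + w) = h.ph x v + h.ph x w := by
  rw [h.ph_eq hv, h.ph_eq hw, h.ph_eq (add_mem hv hw), ← Completion.coe_add]
  rfl

theorem ph_smul (a : ℂ) (hv : v ∈ Lx Ω ρ x) : h.ph x (a • v) = a • h.ph x v := by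
  rw [h.ph_eq hv, h.ph_eq (Submodule.smul_mem _ a hv), ← Completion.coe_smul]
  rfl

theorem ph_rho (hv : v ∈ Lx Ω ρ x) : h.ph x (ρ f v) = f x • h.ph x v := by
  have hw := h.act (h.comm _ (h.mem f)) hv
  refine ext_inner_left ℂ fun u => h.ph_dns.induction (P := fun u => inner ℂ u _ = inner ℂ u _)
    ?_ (isClosed_eq (by fun_prop) (by fun_prop)) u
  rintro _ ⟨u, hu, rfl⟩
  obtain ⟨g, k, a, m⟩ := h.ex_ip hu hv
  rw [inner_smul_right, h.ph_inner hu hw, h.ph_inner hu hv, h.ip_eq a m,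
    h.ip_eq a (rc f g v ▸ m.mul f)]
  rfl

open Classical in
/-- the fibre -/
def fb (x : X) : Fb Z Ω (Completion (h.Px x)) where
  L := Lx Ω ρ x
  φ := h.ph x
  P := Z.commutant.toStarSubalgebra
  π := h.op x
  χ z := Function.invFun ρ z x
  om := h.om_mem
  nrm := h.ph_om
  add _ a _ b := h.ph_add a b
  smul a _ b := h.ph_smul a b
  dns := h.ph_dns
  le _ a := a
  zp z hz := ⟨h.comm z hz, by
    obtain ⟨f, rfl⟩ := h.sur z hz
    rw [Function.leftInverse_invFun h.inj f]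
    refine ContinuousLinearMap.ext fun u => h.ph_dns.induction
      (P := fun u => h.op x (ρ f) u = f x • u) ?_
        (isClosed_eq (h.op x (ρ f)).continuous (continuous_const_smul (f x))) u
    rintro _ ⟨u, hu, rfl⟩
    rw [← h.op_ph (h.comm _ hz) hu, h.ph_rho hu]⟩
  act Y a v b := ⟨h.act a b, h.op_ph a b⟩
  nle Y a := ContinuousLinearMap.opNorm_le_bound _ (norm_nonneg _) fun u => h.ph_dns.induction
    (P := fun u => ‖h.op x Y u‖ ≤ ‖Y‖ * ‖u‖) (by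
      rintro _ ⟨v, hv, rfl⟩
      rw [← h.op_ph a hv]
      exact h.ph_le (g := 1) (h.act a hv) hv rfl (norm_nonneg Y) fun k => by
        rw [h.cm a, h.cm a]
        exact Y.le_opNorm _) (isClosed_le (by fun_prop) (by fun_prop)) u
  cls := vn_closed _
  rel a1 p1 b1 q1 a2 p2 b2 q2 a3 p3 b3 q3 e := by
    rw [h.ph_inner p1 q1, h.ph_inner p2 q2, h.ph_inner p3 q3]
    exact h.ip_rel p1 q1 p2 q2 fun k => e _ (h.mem k)

theorem ph_bd (a : g x ≠ 0) (hC : 0 ≤ C) (b : Bd Ω ρ (ρ g v) C) : ‖h.ph x v‖ ≤ ‖g x‖⁻¹ * C := by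
  have hv := Lx_of a b
  have := h.ph_le (g := 1) (h.act (h.comm _ (h.mem g)) hv) h.om_mem rfl hC fun k => by
    simpa using b k
  rwa [h.ph_rho hv, norm_smul, h.ph_om, mul_one, ← le_inv_mul_iff₀ (norm_pos_iff.2 a)] at this

variable [CompactSpace X] [T2Space X]

theorem gen {c : C(X, ℂ)} (hc : ∀ k, k * c = 0 → k = 0) : ∀ᶠ x in residual X, c x ≠ 0 := by
  refine residual_of_dense_open (isOpen_ne_fun c.continuous continuous_const) fun y => ?_
  by_contra hy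
  obtain ⟨k, k0, k1, -⟩ := exists_continuous_zero_one_of_isClosed isClosed_closure
    isClosed_singleton (Set.disjoint_singleton_right.2 hy)
  have := DFunLike.congr_fun (hc ⟨fun z => (k z : ℝ), by fun_prop⟩ (ContinuousMap.ext fun z => by
    by_cases e : c z = 0
    · simp [e]
    · simp [k0 (subset_closure e)])) y
  simp [k1 rfl] at this

theorem cuts (d : ℕ → H) (hd : Summable fun n => ‖d n‖ ^ 2) :
    ∃ c, (∀ k, k * c = 0 → k = 0) ∧ ‖ρ c‖ ≤ 1 ∧ ‖Ω - ρ c Ω‖ ^ 2 ≤ ∑' n, ‖d n‖ ^ 2 ∧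
      ∀ k (s : Finset ℕ), ∑ n ∈ s, ‖ρ k (ρ c (d n))‖ ^ 2 ≤ ‖ρ k Ω‖ ^ 2 := by
  have i : ∀ d : ℕ → H, (Summable fun n => ‖d n‖ ^ 2) →
      Integrable (fun n => ‖d n‖ ^ 2) .count ∧ ∫ n, ‖d n‖ ^ 2 ∂.count = ∑' n, ‖d n‖ ^ 2 :=
    fun d hd => by
      have := integrable_count_iff.2 (hd.congr fun n => (Real.norm_of_nonneg (sq_nonneg _)).symm)
      exact ⟨this, by simp [integral_countable this]⟩
  obtain ⟨c, a, b, e, l⟩ := h.cut (ν := .count) ((memLp_two_iff_integrable_sq_norm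
    (StronglyMeasurable.of_discrete.aestronglyMeasurable)).2 (i d hd).1)
  refine ⟨c, a, b, (i d hd).2 ▸ e, fun k s => le_trans ?_ (l k)⟩
  have : Summable fun n => ‖ρ (k * c) (d n)‖ ^ 2 := .of_nonneg_of_le (fun _ => sq_nonneg _)
    (fun n => (pow_le_pow_left₀ (norm_nonneg _) ((ρ (k * c)).le_opNorm _) 2).trans_eq (mul_pow ..))
    (hd.mul_left _)
  simp only [(i _ this).2, ← rm]
  exact this.sum_le_tsum s fun _ _ => sq_nonneg _

theorem bd_of {d : ℕ → H} (l : ∀ k (s : Finset ℕ), ∑ n ∈ s, ‖ρ k (d n)‖ ^ 2 ≤ ‖ρ k Ω‖ ^ 2) (n : ℕ) :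
    Bd Ω ρ (d n) 1 := fun k => le_of_sq_le_sq (by simpa using l k {n}) (by positivity)

theorem fast (d : ℕ → H) (hd : Summable fun n => ‖d n‖ ^ 2) : ∀ᶠ x in residual X,
    (∀ n, d n ∈ Lx Ω ρ x) ∧ Tendsto (fun n => h.ph x (d n)) atTop (𝓝 0) := by
  obtain ⟨c, a, -, -, l⟩ := h.cuts d hd
  have b := h.bd_of l
  choose f m using fun n => h.ex_mr (b n) (b n)
  filter_upwards [h.gen a] with x hx
  have hv := fun n => Lx_of hx (b n)
  refine ⟨hv, ?_⟩
  have s : Summable fun n => (f n x).re := summable_of_sum_le (fun n => h.pos (m n) x) fun s => by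
    have := h.faith (f := 1 - ∑ n ∈ s, f n) (fun k => by
      simp only [sub_mul, Finset.sum_mul, map_sub, map_sum, ContinuousLinearMap.sub_apply,
        ContinuousLinearMap.sum_apply, inner_sub_right, inner_sum, Complex.sub_re, Complex.re_sum,
        fun n => (m n).sq k, (Mr.one (Ω := Ω) (ρ := ρ)).sq k, sub_nonneg, l k s]) x
    simpa using this
  have e : ∀ n, ‖c x‖ ^ 2 * ‖h.ph x (d n)‖ ^ 2 = (f n x).re := fun n => by
    have w := h.act (h.comm _ (h.mem c)) (hv n)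
    rw [← mul_pow, ← norm_smul, ← h.ph_rho (hv n), ← inner_self_eq_norm_sq (𝕜 := ℂ),
      h.ph_inner w w, h.ip_eq (g := 1) rfl (by simpa using m n)]
    rfl
  have t := (s.tendsto_atTop_zero.const_mul (‖c x‖ ^ 2)⁻¹).sqrt
  rw [mul_zero, Real.sqrt_zero] at t
  refine tendsto_zero_iff_norm_tendsto_zero.2 (t.congr fun n => ?_)
  rw [← e, inv_mul_cancel_left₀ (by positivity), Real.sqrt_sq (norm_nonneg _)]

theorem temp {E : Type} [NormedAddCommGroup E] [NormedSpace ℝ E] [FiniteDimensional ℝ E]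
    (Λ : 𝓢(E, ℂ) →L[ℂ] H) : ∀ᶠ x in residual X,
      (∀ f, Λ f ∈ Lx Ω ρ x) ∧ Continuous fun f => h.ph x (Λ f) := by
  obtain ⟨P, _, ν, ξ, C, N, m, k⟩ := hs_temp Λ
  obtain ⟨c, a, -, -, l⟩ := h.cut m
  have b : ∀ f, Bd Ω ρ (ρ c (Λ f)) (|C| * ST.sn E ℂ N f) := fun f g => by
    rcases (norm_nonneg (ρ g Ω)).eq_or_lt with e | e
    · simp [h.zero (norm_eq_zero.1 e.symm)]
    · rw [← rm]
      refine (k _ f _ e (l g)).trans ?_
      gcongr
      exact le_abs_self C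
  filter_upwards [h.gen a] with x hx
  have hv := fun f => Lx_of hx (b f)
  refine ⟨hv, Wk.cont_of_sn (AddMonoidHom.mk' (fun f => h.ph x (Λ f)) fun f g => by
    rw [map_add, h.ph_add (hv f) (hv g)]) (C := ‖c x‖⁻¹ * |C|) (N := N) fun f => ?_⟩
  rw [mul_assoc]
  exact h.ph_bd hx (by positivity) (b f)

theorem glue {v1 w1 v2 w2 : H} (e : ∀ᶠ x in residual X,
    inner ℂ (h.ph x v1) (h.ph x w1) = inner ℂ (h.ph x v2) (h.ph x w2)) :
    inner ℂ v1 w1 = inner ℂ v2 w2 := by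
  let d : ℕ → H := fun n => [v1, w1, v2, w2].getD n 0
  have sd : ∀ a : ℂ, Summable fun n => ‖a • d n‖ ^ 2 := fun a =>
    summable_of_ne_finset_zero (s := Finset.range 4) fun n hn => by
      simp [d, List.getElem?_eq_none (show [v1, w1, v2, w2].length ≤ n by simpa using hn)]
  choose c a b l k using fun j : ℕ => h.cuts _ (sd (1 / ((j : ℝ) + 1) : ℝ))
  have t0 : Tendsto (fun j => ρ (c j) Ω) atTop (𝓝 Ω) := by
    have := (((tendsto_one_div_add_atTop_nhds_zero_nat (𝕜 := ℝ)).pow 2).mul_const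
      (∑' n, ‖d n‖ ^ 2)).sqrt
    simp only [ne_eq, OfNat.ofNat_ne_zero, not_false_eq_true, zero_pow, zero_mul,
      Real.sqrt_zero] at this
    refine tendsto_iff_norm_sub_tendsto_zero.2 (squeeze_zero (fun _ => norm_nonneg _)
      (fun j => Real.le_sqrt_of_sq_le ?_) this)
    rw [norm_sub_rev, ← tsum_mul_left]
    simpa only [norm_smul, mul_pow, Complex.norm_real, Real.norm_eq_abs, sq_abs] using l j
  have t : ∀ u, Tendsto (fun j => ρ (c j) u) atTop (𝓝 u) := fun u => by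
    refine Metric.tendsto_atTop.2 fun ε hε => ?_
    obtain ⟨_, ⟨Y, hY, rfl⟩, hu⟩ := h.cyc.exists_dist_lt u (show 0 < ε / 3 by positivity)
    obtain ⟨N, hN⟩ := Metric.tendsto_atTop.1 ((Y.continuous.tendsto _).comp t0) (ε / 3)
      (by positivity)
    refine ⟨N, fun j hj => ?_⟩
    have h1 := hN j hj
    have h2 : dist (ρ (c j) u) (ρ (c j) (Y Ω)) ≤ dist u (Y Ω) :=
      ((ρ (c j)).dist_le_opNorm _ _).trans (mul_le_of_le_one_left dist_nonneg (b j))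
    rw [Function.comp_apply, ← h.cm hY] at h1
    linarith [dist_triangle4 (ρ (c j) u) (ρ (c j) (Y Ω)) (Y Ω) u, dist_comm u (Y Ω)]
  refine tendsto_nhds_unique ((t v1).inner (t w1)) (((t v2).inner (t w2)).congr fun j => ?_)
  have bd : ∀ n, ∃ C, Bd Ω ρ (ρ (c j) (d n)) C := fun n => by
    have := (h.bd_of (k j) n).smul ((j : ℝ) + 1 : ℝ)
    rw [map_smul, smul_smul, ← Complex.ofReal_mul, mul_one_div_cancel (by positivity)] at this
    exact ⟨_, by simpa using this⟩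
  choose C bd using bd
  obtain ⟨f1, m1⟩ := h.ex_mr (bd 0) (bd 1)
  obtain ⟨f2, m2⟩ := h.ex_mr (bd 2) (bd 3)
  have q : ∀ x, c j x ≠ 0 → ∀ n n' f, Mr Ω ρ (ρ (c j) (d n)) (ρ (c j) (d n')) f →
      f x = conj (c j x) * (c j x * inner ℂ (h.ph x (d n)) (h.ph x (d n'))) := fun x hx n n' f m => by
    have p := fun n => Lx_of hx (bd n)
    rw [← inner_smul_right, ← inner_smul_left, ← h.ph_rho (p n), ← h.ph_rho (p n'),
      h.ph_inner (h.act (h.comm _ (h.mem _)) (p n)) (h.act (h.comm _ (h.mem _)) (p n')),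
      h.ip_eq (g := 1) rfl (by simpa using m)]
  have e2 : f1 = f2 := ContinuousMap.ext fun y => congrFun (Continuous.ext_on
    (dense_of_mem_residual (e.and (h.gen (a j)))) f1.continuous f2.continuous fun x hx => by
      rw [q x hx.2 _ _ _ m1, q x hx.2 _ _ _ m2]
      exact congrArg (fun z => _ * (_ * z)) hx.1) y
  subst e2
  simpa [d] using (m2 1).trans (m1 1).symm

theorem sys : Sys (residual X) ⊤ h.fb :=
  ⟨inferInstance, fun Y a _ _ => .of_forall fun _ => a, fun d _ => h.fast d,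
    fun E _ _ _ Λ _ => h.temp Λ, fun _ _ _ _ _ _ _ _ => h.glue⟩

end Rh

/-- **the central decomposition** -/
theorem Cen.ex_sys (h : Cen Z Ω) : ∃ (X : Type u) (F : Filter X) (K : X → Type u)
    (_ : ∀ x, NormedAddCommGroup (K x)) (_ : ∀ x, InnerProductSpace ℂ (K x))
    (_ : ∀ x, CompleteSpace (K x)) (b : ∀ x, Fb Z Ω (K x)), Sys F ⊤ b ∧
      ∀ x, ∀ Y ∈ Z.commutant, Y ∈ (b x).P := by
  obtain ⟨X, _, _, _, ρ, r⟩ := h.ex_rh
  exact ⟨X, _, _, _, _, _, _, r.sys, fun _ _ a => a⟩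

end

end Vale.Agent.N352.U
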