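import Vale.Agent.N352.U.Pk
import Vale.Agent.N352.Gen
import Vale.Agent.P352W.Net.Hull
import Mathlib.Analysis.Distribution.AEEqOfIntegralContDiff

/-!
# N352, block U: countable closures, graph projections, positive spectrum
-/

set_option linter.all false

open MeasureTheory Filter Topology
open scoped ComplexConjugate SchwartzMap ContDiff
open UniformSpace (Completion)

namespace Vale.Agent.N352.U

open Vale.Agent.P352 Vale.Agent.P352.GF Vale.Agent.P352.BW Vale.Agent.P352.H246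
open Vale.Agent.P352.SubConf (IsAdj)
open Vale.Agent.P352X

noncomputable section

/-- countable closures -/
theorem ex_closed {α I : Type*} (sp : I → Set α) (fin : ∀ i, (sp i).Finite)
    (cnt : ∀ t : Set α, t.Countable → {i | sp i ⊆ t}.Countable) (Φ : I → Set α)
    (h : ∀ i, (Φ i).Countable) : ∃ s : Set α, s.Countable ∧ ∀ i, sp i ⊆ s → Φ i ⊆ s := by
  let t : ℕ → Set α := fun n => (fun s => s ∪ ⋃ i ∈ {i | sp i ⊆ s}, Φ i)^[n] ∅
  have e : ∀ n, t (n + 1) = t n ∪ ⋃ i ∈ {i | sp i ⊆ t n}, Φ i := fun n =>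
    Function.iterate_succ_apply' _ _ _
  have c : ∀ n, (t n).Countable := fun n => by
    induction n with
    | zero => exact Set.countable_empty
    | succ n k => exact e n ▸ k.union ((cnt _ k).biUnion fun i _ => h i)
  have m : Monotone t := monotone_nat_of_le_succ fun n => e n ▸ Set.subset_union_left
  refine ⟨⋃ n, t n, Set.countable_iUnion c, fun i hi => ?_⟩
  obtain ⟨n, hn⟩ := m.directed_le.exists_mem_subset_of_finset_subset_biUnion
    (s := (fin i).toFinset) (by simpa using hi)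
  exact Set.subset_iUnion_of_subset (n + 1) (e n ▸ Set.subset_union_of_subset_right
    (Set.subset_biUnion_of_mem (u := Φ) (by simpa using hn)) _)

section proj

open P352W.Net

variable {H K : Type*} [NormedAddCommGroup H] [InnerProductSpace ℂ H] [CompleteSpace H]
  [NormedAddCommGroup K] [InnerProductSpace ℂ K] [CompleteSpace K]

/-- the operators `p` fix the pair `a` and annihilate the pair `b` -/
def Pj (p : Fin 4 → H →L[ℂ] H) (a b : H × H) : Prop :=
  p 0 a.1 + p 1 a.2 = a.1 ∧ p 2 a.1 + p 3 a.2 = a.2 ∧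
    star (p 0) b.1 = star (p 2) b.2 ∧ star (p 1) b.1 = star (p 3) b.2

theorem Pj.rel {p : Fin 4 → H →L[ℂ] H} {a b : H × H} (h : Pj p a b) {Y : H →L[ℂ] H}
    (c : ∀ i, p i * Y = Y * p i) : inner ℂ b.1 (Y a.1) = inner ℂ b.2 (Y a.2) := by
  have k : ∀ i v, Y (p i v) = p i (Y v) := fun i v => (DFunLike.congr_fun (c i) v).symm
  conv_lhs => rw [← h.1]
  conv_rhs => rw [← h.2.1]
  simp only [map_add, inner_add_right, k, ← st_l, h.2.2.1, h.2.2.2]

/-- **graph projections** -/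
theorem ex_proj (M : VonNeumannAlgebra H) {I J : Type*} (a : I → H × H) (b : J → H × H)
    (h : ∀ i j, ∀ Y ∈ M.commutant, inner ℂ (b j).1 (Y (a i).1) = inner ℂ (b j).2 (Y (a i).2)) :
    ∃ p : Fin 4 → H →L[ℂ] H, (∀ n, p n ∈ M) ∧ ∀ i j, Pj p (a i) (b j) := by
  let d : (H →L[ℂ] H) → WithLp 2 (H × H) →L[ℂ] WithLp 2 (H × H) := fun Y =>
    i1 ∘L Y ∘L p1 + i2 ∘L Y ∘L p2
  have hd : ∀ Y x, d Y x = dg Y x := fun Y x => (split (dg Y x)).symm
  let K0 := Submodule.span ℂ {x | ∃ i, ∃ Y ∈ M.commutant, x = dg Y (WithLp.toLp 2 (a i))}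
  let S := K0.topologicalClosure
  haveI : CompleteSpace S := K0.isClosed_topologicalClosure.completeSpace_coe
  have inv : ∀ Y ∈ M.commutant, ∀ x ∈ S, d Y x ∈ S := fun Y hY x hx =>
    map_mem_closure (d Y).continuous hx fun x hx =>
      (Submodule.span_le (p := K0.comap (d Y).toLinearMap)).2 (by
        rintro _ ⟨i, Y', m, rfl⟩
        exact Submodule.subset_span ⟨i, Y * Y', mul_mem hY m, hd _ _⟩) hx
  let P := S.starProjection
  have hc : ∀ Y ∈ M.commutant, ∀ x, P (dg Y x) = dg Y (P x) := fun Y hY x => by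
    refine Submodule.eq_starProjection_of_mem_orthogonal' (hd _ _ ▸ inv Y hY _
      (S.starProjection_apply_mem x)) (z := dg Y (x - P x)) (fun u hu => ?_) ?_
    · rw [dg_inner, ← hd]
      exact S.sub_starProjection_mem_orthogonal x _ (inv _ (star_mem hY) u hu)
    · rw [← dg_add, add_sub_cancel]
  have fx : ∀ i, P (i1 (a i).1) + P (i2 (a i).2) = WithLp.toLp 2 (a i) := fun i => by
    rw [← map_add]
    exact (congrArg P (split (WithLp.toLp 2 (a i))).symm).trans
      (Submodule.starProjection_eq_self_iff.2 (K0.le_topologicalClosure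
        (Submodule.subset_span ⟨i, 1, one_mem _, rfl⟩)))
  have ot : ∀ j, ∀ x ∈ S, inner ℂ (b j).1 (p1 x) = inner ℂ (b j).2 (p2 x) := fun j x hx =>
    closure_minimal (t := {x | inner ℂ (b j).1 (p1 x) = inner ℂ (b j).2 (p2 x)})
      ((Submodule.span_le (p := LinearMap.eqLocus (innerSL ℂ (b j).1 ∘L p1).toLinearMap
        (innerSL ℂ (b j).2 ∘L p2).toLinearMap)).2 (by
          rintro _ ⟨i, Y, m, rfl⟩
          exact h i j Y m)) (isClosed_eq (by fun_prop) (by fun_prop)) hx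
  refine ⟨![p1 ∘L P ∘L i1, p1 ∘L P ∘L i2, p2 ∘L P ∘L i1, p2 ∘L P ∘L i2], fun n =>
    mem_of_com fun Y hY => ContinuousLinearMap.ext fun z => ?_, fun i j => ⟨(map_add p1 _ _).symm.trans
      (congrArg p1 (fx i)), (map_add p2 _ _).symm.trans (congrArg p2 (fx i)), ?_, ?_⟩⟩
  · fin_cases n
    exacts [(congrArg p1 ((hc Y hY _).symm.trans (congrArg P (dg_i1 Y z))) :),
      (congrArg p1 ((hc Y hY _).symm.trans (congrArg P (dg_i2 Y z))) :),
      (congrArg p2 ((hc Y hY _).symm.trans (congrArg P (dg_i1 Y z))) :),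
      (congrArg p2 ((hc Y hY _).symm.trans (congrArg P (dg_i2 Y z))) :)]
  all_goals
    refine ext_inner_right ℂ fun u => ?_
    rw [st_l, st_l]
    exact ot j _ (S.starProjection_apply_mem _)

theorem Pj.fb {Z : VonNeumannAlgebra H} {Ω : H} (y : Fb Z Ω K) {p : Fin 4 → H →L[ℂ] H}
    {a b : H × H} (h : Pj p a b) (hp : ∀ i, p i ∈ y.P) (a1 : a.1 ∈ y.L) (a2 : a.2 ∈ y.L)
    (b1 : b.1 ∈ y.L) (b2 : b.2 ∈ y.L) :
    Pj (fun i => y.π (p i)) (y.φ a.1, y.φ a.2) (y.φ b.1, y.φ b.2) := by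
  simp only [Pj, ← Fb.π_star (hp _), Fb.ap (hp _) a1, Fb.ap (hp _) a2, Fb.ap (star_mem (hp _)) b1,
    Fb.ap (star_mem (hp _)) b2, ← y.add _ (Fb.am (hp _) a1) _ (Fb.am (hp _) a2), h.1, h.2.1,
    h.2.2.1, h.2.2.2, and_self]

end proj

/-- a countable family of test functions that is total in every open set -/
theorem ex_loc : ∃ a : Set Sch, a.Countable ∧ (∀ g ∈ a, HasCompactSupport g) ∧
    ∀ O : Set V, IsOpen O → ∀ T : Sch →L[ℂ] ℂ, (∀ g ∈ a, tsupport g ⊆ O → T g = 0) →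
      ∀ f : Sch, HasCompactSupport f → tsupport f ⊆ O → T f = 0 := by
  let W := Set.sUnion '' {t | t.Finite ∧ t ⊆ TopologicalSpace.countableBasis V}
  have hb := TopologicalSpace.isBasis_countableBasis V
  have hW : W.Countable :=
    (Set.countable_setOf_finite_subset (TopologicalSpace.countable_countableBasis V)).image _
  have mid : ∀ K O : Set V, IsCompact K → IsOpen O → K ⊆ O → ∃ u ∈ W, K ⊆ u ∧ u ⊆ O :=
    fun K O a b c => by
    obtain ⟨t, t1, t2, t3⟩ := a.elim_finite_subcover_image (c := fun s => s)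
      (b := {s ∈ TopologicalSpace.countableBasis V | s ⊆ O}) (fun s hs => hb.isOpen hs.1)
      (by rw [← Set.sUnion_eq_biUnion, ← hb.open_eq_sUnion' b]; exact c)
    exact ⟨_, ⟨t, ⟨t2, fun s hs => (t1 hs).1⟩, rfl⟩, Set.sUnion_eq_biUnion ▸ t3,
      Set.sUnion_subset fun s hs => (t1 hs).2⟩
  have ex : ∀ u u' : Set V, ∃ θ : Sch, HasCompactSupport θ ∧ ((∃ θ : Sch, HasCompactSupport θ ∧
      tsupport θ ⊆ u' ∧ ∀ x ∈ u, θ x = 1) → tsupport θ ⊆ u' ∧ ∀ x ∈ u, θ x = 1) := fun u u' => by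
    by_cases h : ∃ θ : Sch, HasCompactSupport θ ∧ tsupport θ ⊆ u' ∧ ∀ x ∈ u, θ x = 1
    · exact h.imp fun θ k => ⟨k.1, fun _ => k.2⟩
    · exact ⟨0, HasCompactSupport.zero, fun k => (h k).elim⟩
  choose θ h1 h2 using ex
  let m : Sch → Sch →L[ℂ] Sch := fun θ => SchwartzMap.smulLeftCLM ℂ (θ : V → ℂ)
  have hm : ∀ θ f, (m θ f : V → ℂ) = θ * f := fun θ f =>
    SchwartzMap.smulLeftCLM_apply θ.hasTemperateGrowth f
  refine ⟨⋃ u ∈ W, ⋃ u' ∈ W, Set.range fun j => m (θ u u') (tot V j), hW.biUnion fun _ _ =>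
    hW.biUnion fun _ _ => Set.countable_range _, fun g hg => ?_, fun O hO T hT f a b => ?_⟩
  · simp only [Set.mem_iUnion] at hg
    obtain ⟨u, -, u', -, j, rfl⟩ := hg
    exact hm _ _ ▸ (h1 u u').mul_right
  obtain ⟨L, hL, l1, l2⟩ := exists_compact_between a.isCompact hO b
  obtain ⟨ρ, r1, r0, -⟩ := exists_contMDiffMap_one_nhds_of_subset_interior
    (n := (⊤ : ℕ∞)) (modelWithCornersSelf ℝ V) (isClosed_tsupport f) l1
  have st : tsupport (fun x => (ρ x : ℂ)) ⊆ L :=
    closure_minimal (fun x hx => by_contra fun k => hx (by simp [r0 x k])) hL.isClosed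
  obtain ⟨u, w1, k1, k2⟩ := mid _ _ a.isCompact isOpen_interior
    (subset_interior_iff_mem_nhdsSet.2 r1)
  obtain ⟨u', w2, k3, k4⟩ := mid _ _ hL hO l2
  obtain ⟨c1, c2⟩ := h2 u u' ⟨HasCompactSupport.toSchwartzMap (hL.of_isClosed_subset
    (isClosed_tsupport _) st) (Complex.ofRealCLM.contDiff.comp ρ.contMDiff.contDiff),
    hL.of_isClosed_subset (isClosed_tsupport _) st, st.trans k3, fun x hx => by
      exact congrArg Complex.ofReal (interior_subset (k2 hx) :)⟩
  have e : m (θ u u') f = f := SchwartzMap.ext fun x => by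
    rw [hm, Pi.mul_apply]
    by_cases k : x ∈ tsupport f
    · rw [c2 x (k1 k), one_mul]
    · rw [image_eq_zero_of_notMem_tsupport k, mul_zero]
  rw [← e]
  refine (ex_tot V).choose_spec (T ∘L m (θ u u')) (fun j => hT _ ?_ ?_) f
  · exact Set.mem_biUnion w1 (Set.mem_biUnion w2 ⟨j, rfl⟩)
  · exact hm _ _ ▸ tsupport_mul_subset_left.trans (c1.trans k4)

theorem ex_neg {p : V} (h : ¬(0 ≤ p o ∧ 0 ≤ GF.mdot p p)) : ∃ e, H496.IsNull e ∧ GF.mdot p e < 0 := by
  simp only [H496.IsNull, H496.gm, o] at h ⊢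
  obtain ⟨r, r0, hr⟩ : ∃ r, 0 ≤ r ∧ r ^ 2 = p 1 ^ 2 + p 2 ^ 2 + p 3 ^ 2 :=
    ⟨_, Real.sqrt_nonneg _, Real.sq_sqrt (by positivity)⟩
  have k : p 0 < r := by
    by_contra k
    exact h ⟨by linarith, by nlinarith⟩
  rcases r0.eq_or_lt with rfl | r0
  · have : p 1 = 0 := by nlinarith
    exact ⟨![1, 1, 0, 0], by simp [this, k]⟩
  · exact ⟨![r, p 1, p 2, p 3], by simp; refine ⟨⟨?_, r0⟩, ?_⟩ <;> nlinarith⟩

/-- **positive spectrum** -/
theorem spec_of {K : Type*} [NormedAddCommGroup K] [InnerProductSpace ℂ K] [CompleteSpace K]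
    {U : V → K → K} (hU : SN.URep U) (v : K) (h : ∀ e, H496.IsNull e → ∀ g : 𝓢(ℝ, ℂ), Kn.Neg g →
      ∫ t : ℝ, g t * inner ℂ v (U (t • e) v) = 0) :
    ∃ ν : Measure V, IsFiniteMeasure ν ∧ (∀ᵐ p ∂ν, 0 ≤ p o ∧ 0 ≤ GF.mdot p p) ∧
      ∀ a, inner ℂ v (U a v) = ∫ p, Complex.exp (Complex.I * GF.mdot p a) ∂ν := by
  obtain ⟨b⟩ := SN.exists_BC SN.isPair_mdot hU
  haveI := b.fin v
  have h2 : ∀ a, inner ℂ v (U a v) = ∫ p, Complex.exp (Complex.I * GF.mdot p a) ∂b.nu v :=
    fun a => by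
    rw [← b.Phi_ch, b.inner (SN.isPair_mdot.bd a)]
    rfl
  refine ⟨b.nu v, inferInstance, measure_null_of_locally_null _ fun p hp => ?_, h2⟩
  obtain ⟨e, he, k⟩ := ex_neg hp
  have ct : Continuous fun p => GF.mdot p e := by
    unfold GF.mdot
    fun_prop
  refine ⟨{p | GF.mdot p e < 0}, mem_nhdsWithin_of_mem_nhds
    ((isOpen_lt ct continuous_const).mem_nhds k), ?_⟩
  have := isOpen_Iio.ae_eq_zero_of_integral_contDiff_smul_eq_zero (U := Set.Iio 0)
    (μ := (b.nu v).map fun p => GF.mdot p e) (f := fun _ => (1 : ℂ))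
    (continuous_const.locallyIntegrable.locallyIntegrableOn _) fun g g1 g2 g3 => ?_
  · simpa [ae_iff] using ae_of_ae_map ct.measurable.aemeasurable this
  let G : 𝓢(ℝ, ℂ) := (g2.comp_left (g := Complex.ofReal) rfl).toSchwartzMap
    (Complex.ofRealCLM.contDiff.comp g1)
  let l := ContinuousLinearMap.toSpanSingletonCLE (𝕜 := ℝ) (E := ℝ)
  let F := (Kn.ft volume).symm (Kn.cp l.symm G)
  have e1 : ∀ s : ℝ, ∫ t : ℝ, F t * Complex.exp (Complex.I * (t * s : ℝ)) = g s := fun s => by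
    have := Kn.ft_apply volume F (l s)
    rw [ContinuousLinearEquiv.apply_symm_apply, Kn.cp_apply, l.symm_apply_apply] at this
    refine Eq.trans ?_ this.symm
    simp only [mul_comm (F _)]
    rfl
  have := h e he F fun s hs => by
    rw [e1, image_eq_zero_of_notMem_tsupport fun k => (g3 k).not_ge hs, Complex.ofReal_zero]
  rw [integral_map ct.measurable.aemeasurable (g1.continuous.fun_smul
    continuous_const).aestronglyMeasurable, ← this]
  simp only [h2, ← integral_const_mul]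
  rw [integral_integral_swap]
  · simp only [H496.gm_smul, e1, Complex.real_smul, mul_one]
  · refine (F.integrable.norm.comp_fst _).mono' (Continuous.aestronglyMeasurable ?_)
      (.of_forall fun q => ?_)
    · unfold Function.uncurry GF.mdot
      fun_prop
    · simp only [Function.uncurry, norm_mul, mul_comm Complex.I, Complex.norm_exp_ofReal_mul_I,
        mul_one, le_refl]

end

end Vale.Agent.N352.U
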