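import Vale.Agent.N352.U.Fq

/-!
# N352, block U: grading, generators and net of a fibre
-/

set_option linter.all false

open MeasureTheory Filter Topology
open scoped ComplexConjugate SchwartzMap
open UniformSpace (Completion)
open Complex (I)

namespace Vale.Agent.N352.U

open Vale.Agent.P352 Vale.Agent.P352.GF Vale.Agent.P352.BW Vale.Agent.P352.H246
open Vale.Agent.P352.H15 Vale.Agent.P352.H746
open Vale.Agent.P352.SubConf (IsAdj)
open Vale.Agent.P352X Vale.Agent.P352X.EB Vale.Agent.P352X.EG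
open Vale.Agent.P352W.Net (vn hl mem_hl mem_vn mem_cmt)

noncomputable section

universe u

variable {D : Type u} [NormedAddCommGroup D] [InnerProductSpace ℂ D] {c : Cg D}
  {Z : VonNeumannAlgebra (Completion D)} {s : Set (Fld D)} {B B' : Fld D} {f : Fn} {v w : D}

theorem gen_sum {Q : Theory D} {A : (V → V) → D → D} (h : Tn.Der Q A) (R : Fss.G.M1 Q) {y : V}
    {w : Ix → V} {X : V → V} (hw : ∀ m n, eta n * w m n = -(eta m * w n m))
    (hX : ∀ z n, X z n = y n + 0 * z n + ∑ m, z m * w m n) {n : ℕ} {k : Fin n → Rp}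
    {Φ : ∀ i, Fin (k i).n → Fld D} {a : ∀ i, Fin (k i).n} (m : ∀ i, IsMf Q (k i) (Φ i))
    (e : ∀ f v, IsTest f → B f v = ∑ i, Φ i (a i) f v) (hf : IsTest f) (v : D) :
    A X (B f v) - B f (A X v) = ∑ i, I • (∑ b, CA.G.sg (k i) w b (a i) • Φ i b f v +
      Φ i (a i) (vf X f) v) := by
  obtain ⟨L, L0, hL, dL⟩ := exists_lor hw
  have K : Crv (fun _ => 1) L (fun e => e • y) w 0 y :=
    ⟨rfl, L0, zero_smul _ _, fun _ => one_pos, hL, hasDerivAt_const _ _, dL, fun n => by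
      simpa using hasDerivAt_mul_const (x := (0 : ℝ)) (y n)⟩
  have := (h.crv K hX (∑ i, Φ i (a i) f v)).unique
    ((HasDerivAt.fun_sum (u := Finset.univ) fun i _ => h.crv K hX (Φ i (a i) f v)).congr_of_eventuallyEq
      (.of_forall fun t => by
        obtain ⟨u, hu⟩ := P352W.Rp.U_lin (Q := Q) one_pos (hL t) (t • y)
        simp only [hu, map_sum]))
  rw [← Finset.smul_sum, smul_right_inj Complex.I_ne_zero] at this
  rw [e f _ hf, e f _ hf, this, ← Finset.sum_sub_distrib]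
  exact Finset.sum_congr rfl fun i _ => Tn.gen_mf h R hw hX (m i) _ hf v

theorem aff_of {Q : Theory D} {M : VonNeumannAlgebra (Completion D)} (hB : Q.fld B)
    (hB' : Q.fld B') (a : IsAdj B B') {O : Set V} (hO : IsOpen O)
    (h : ∀ g ∈ ex_loc.choose, tsupport g ⊆ O → ∀ Y ∈ M.commutant, ∀ v w : D,
      inner ℂ ((B' (bar (ev g)) w : D) : Completion D) (Y v) =
        inner ℂ (w : Completion D) (Y (B (ev g) v : D))) (hf : In O f) : Aff M (B f) := by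
  obtain ⟨⟨g, rfl⟩, f2, f3⟩ := hf
  refine ⟨B' (bar (ev g)), fun v w => a _ v w ⟨g, rfl⟩, fun Y hY v w => ?_⟩
  have k := fun B (hB : Q.fld B) v => (Completion.continuous_coe D).comp (Q.cont B v hB)
  have e : ∀ g, B' (bar (ev g)) w = Kn.op ⟨B', hB'⟩ (Tn.cjS g) w := fun _ => rfl
  let T : Sch →L[ℂ] ℂ := ⟨⟨⟨fun g => inner ℂ ((B' (bar (ev g)) w : D) : Completion D) (Y v) -
    inner ℂ (w : Completion D) (Y (Kn.op ⟨B, hB⟩ g v : D)), fun g g' => by
      simp only [e, map_add, LinearMap.add_apply, Completion.coe_add, inner_add_left,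
        inner_add_right]
      ring⟩, fun z g => by
      simp only
      rw [e, e, show Tn.cjS (z • g) = conj z • Tn.cjS g from SchwartzMap.ext fun x =>
        map_mul conj z (g x)]
      simp [inner_smul_left, inner_smul_right, mul_sub, Completion.coe_smul]⟩,
    (((k B' hB' w).comp Tn.cjS.continuous).inner continuous_const).sub
      (continuous_const.inner (Y.continuous.comp (k B hB v)))⟩
  exact sub_eq_zero.1 (ex_loc.choose_spec.2.2 O hO T
    (fun g a b => sub_eq_zero.2 (h g a b Y hY v w)) g f2 f3)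

namespace Fd

variable {y : Fib c Z} (d : Fd y s) {η η' : y.E}

theorem fer {A : Fld y.E} (h : Fer d.th (d.ds c.G) A) :
    ∃ C ∈ s, Fer c.Q c.G C ∧ ∀ f η, IsTest f → A f η = d.e C f η := by
  obtain ⟨⟨B, hB, rfl⟩, h⟩ := h
  obtain ⟨C, a, C', b, p, q, e⟩ := d.cl.split B hB
  refine ⟨C', b, q, fun f η hf => ?_⟩
  obtain ⟨v, r⟩ := d.ex η
  have k := (r.G.fld hB hf).2.trans ((h f η hf).trans (r.fld hB hf).G.neg.2.symm)
  rw [e _ _ hf, e _ _ hf, c.hN.bose C f v p hf, q.2 f v hf, show c.G (C f v + _) = c.G _ + c.G _ from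
    map_add (gl c) _ _] at k
  simp only [map_add, map_neg, neg_add, add_left_inj, eq_neg_iff_add_eq_zero, ← two_smul ℂ,
    smul_eq_zero, two_ne_zero, false_or] at k
  have z : d.R 0 (c.G (C f v)) := ⟨(r.fld a hf).G.1, k⟩
  have := (z.G.eq (r.fld a hf) (c.hN.inv _)).symm.trans (R.zero.G.eq R.zero (map_zero (gl c)))
  exact ((r.fld hB hf).eq ((r.fld a hf).add (r.fld b hf)) (e f v hf)).trans (by rw [this, zero_add])

theorem gr : Gr d.th (d.ds c.G) where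
  inv η := (d.ex η).elim fun v p => p.G.G.eq p (c.hN.inv v)
  herm η η' := by
    rw [← Completion.inner_coe, ← Completion.inner_coe η, ← d.πG, ← d.πG, ← st_l,
      ← Fb.π_star d.GP, SGx.gs]
  bose := by
    rintro _ f η ⟨B, hB, a, rfl⟩ hf
    obtain ⟨v, p⟩ := d.ex η
    exact (p.G.fld hB hf).eq (p.fld hB hf).G (c.hN.bose B f v a hf)
  split := by
    rintro _ ⟨B, hB, rfl⟩
    obtain ⟨C, a, C', b, p, q, e⟩ := d.cl.split B hB
    exact ⟨_, _, ⟨C, a, p, rfl⟩, ⟨⟨C', b, rfl⟩, fun f η hf => (d.ex η).elim fun v r =>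
      (r.G.fld b hf).eq (r.fld b hf).G.neg (q.2 f v hf)⟩, fun f η hf => (d.ex η).elim fun v r =>
        (r.fld hB hf).eq ((r.fld a hf).add (r.fld b hf)) (e f v hf)⟩
  anti B C f g η a b hf hg k := by
    obtain ⟨B, a1, a2, a3⟩ := d.fer a
    obtain ⟨C, b1, b2, b3⟩ := d.fer b
    obtain ⟨v, p⟩ := d.ex η
    rw [a3 _ _ hf, b3 _ _ hg, a3 _ _ hf, b3 _ _ hg]
    exact ((p.fld b1 hg).fld a1 hf).eq ((p.fld a1 hf).fld b1 hg).neg
      (c.hN.anti B C f g v a2 b2 hf hg k)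
  GU r L a η hr hL := (d.ex η).elim fun v p =>
    (p.G.U hr hL a).eq (p.U hr hL a).G (c.hN.GU r L a v hr hL)
  mul r L a r' L' a' hr hr' hL hL' := (c.hN.mul r L a r' L' a' hr hr' hL hL').imp
    (fun k η => (d.ex η).elim fun v p => ((p.U hr' hL' a').U hr hL a).eq
      (p.U (mul_pos hr hr') (ue_lor hL hL') _) (k v))
    fun k => ⟨k.1, k.2.1, fun η => (d.ex η).elim fun v p => ((p.U hr' hL' a').U hr hL a).eq
      (p.U (mul_pos hr hr') (ue_lor hL hL') _).G (k.2.2 v)⟩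

theorem mf {k : Rp} {Φ : Fin k.n → Fld D} (h : IsMf c.Q k Φ) (m : ∀ b, Φ b ∈ s) :
    IsMf d.th k fun b => d.e (Φ b) :=
  ⟨fun b => ⟨_, m b, rfl⟩, fun a L f η hL hf => (d.ex η).elim fun v p =>
    ((p.U one_pos hL 0).fld (m a) hf).eq (R.sum fun b =>
      ((p.fld (m b) (Ap.test_sim one_pos hL 0 hf)).U one_pos hL 0).smul _) (h.2 a L f v hL hf)⟩

theorem sum {n : ℕ} {C : Fin n → Fld D} (hB : B ∈ s) (m : ∀ i, C i ∈ s)
    (e : ∀ f v, IsTest f → B f v = ∑ i, C i f v) (f η) (hf : IsTest f) :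
    d.e B f η = ∑ i, d.e (C i) f η :=
  (d.ex η).elim fun v p => (p.fld hB hf).eq (R.sum fun i => p.fld (m i) hf) (e f v hf)

theorem mfa : MfAll d.th := by
  rintro _ ⟨B, hB, rfl⟩
  obtain ⟨n, k, Φ, a, m, e⟩ := d.cl.mf B hB
  exact ⟨n, _, fun i => ⟨k i, _, a i, d.mf (m i).1 (m i).2, rfl⟩,
    d.sum hB (fun i => (m i).2 _) e⟩

theorem scl {F C} (hB : B ∈ s) (b : d.th.bose (d.e B) → c.Q.bose B) (m : ∀ p, C p ∈ s)
    (h : Scl c.Q B F C) : Scl d.th (d.e B) F fun p => d.e (C p) :=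
  ⟨fun p => ⟨⟨_, m p, rfl⟩, fun k => ⟨_, m p, (h.1 p).2 (b k), rfl⟩⟩, fun r f η hr hf =>
    have o := H496.isLor_one
    (d.ex η).elim fun v p => ((p.U hr o 0).fld hB hf).eq (R.sum fun b =>
      ((p.fld (m b) (Ap.test_sim hr o 0 hf)).U hr o 0).smul _) (h.2 r f v hr hf)⟩

theorem fsl : FSL d.th := fun A hA => by
  obtain ⟨B, hB, b, rfl⟩ : ∃ B ∈ s, (d.th.bose A → c.Q.bose B) ∧ A = d.e B := by
    by_cases k : d.th.bose A
    · exact k.imp fun B k => ⟨k.1, fun _ => k.2.1, k.2.2⟩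
    · exact hA.imp fun B a => ⟨a.1, fun a => (k a).elim, a.2⟩
  obtain ⟨F, C, h, m⟩ := d.cl.fs B hB
  exact ⟨F, _, d.scl hB b m h⟩

theorem pch {A} (hA : Tn.Der d.th A) {T : Ix → Ix → Fld D} (m : ∀ a b, T a b ∈ s)
    (hb : ∀ a b, c.Q.bose (T a b)) (hP : ND.PCh c.Q T c.A) :
    ND.PCh d.th (fun a b => d.e (T a b)) A := by
  rintro F X _ f η η' hF hX ⟨B, hB, rfl⟩ hf hc
  obtain ⟨M, hM⟩ := hc.isCompact.isBounded.subset_ball 0
  obtain ⟨n, k, Φ, a, p, e⟩ := d.cl.mf B hB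
  obtain ⟨v, r⟩ := d.ex η
  obtain ⟨z, w, hw, hz⟩ := id hX
  refine tendsto_const_nhds.congr' ?_
  filter_upwards [isTest_cutoff hF, Tn.fin_ward hb hP hF hX M] with t k1 k2
  have cu : ∀ {η v}, d.R η v →
      d.R (ND.cur (fun a b => d.e (T a b)) X (F t) η) (ND.cur T X (F t) v) :=
    fun r => R.sum fun n => r.fld (m _ n) (Fss.test_sim0 hX k1 n)
  rw [gen_sum hA (Fss.G.m1_gr d.gr) hw hz (fun i => d.mf (p i).1 (p i).2)
    (d.sum hB (fun i => (p i).2 _) e) hf]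
  exact congrArg _ ((R.sum fun i => ((R.sum fun b => (r.fld ((p i).2 b) hf).smul _).add
    (r.fld ((p i).2 _) (isTest_vf hX hf))).smul I).eq ((cu (r.fld hB hf)).sub ((cu r).fld hB hf))
    ((k2 B f v (d.cl.fld B hB) ⟨hf, hc, hM⟩).trans
      (gen_sum c.hN.der (Fsg.m1 c) hw hz (fun i => (p i).1) e hf v)).symm)

theorem tcov {T : Ix → Ix → Fld D} (m : ∀ a b, T a b ∈ s) {r L} (hr : 0 < r) (hL : IsLor L)
    {a b : Ix} {x : V} (hf : IsTest f) (h : ∀ v, T a b f (c.Q.U r L x v) = ∑ k, ∑ l,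
      (L k a * L l b : ℂ) • c.Q.U r L x (T k l (fun z => f (sim r L x z)) v)) (η) :
    d.e (T a b) f (d.th.U r L x η) = ∑ k, ∑ l,
      (L k a * L l b : ℂ) • d.th.U r L x (d.e (T k l) (fun z => f (sim r L x z)) η) :=
  (d.ex η).elim fun v p => ((p.U hr hL x).fld (m a b) hf).eq (R.sum fun k => R.sum fun l =>
    ((p.fld (m k l) (Ap.test_sim hr hL x hf)).U hr hL x).smul _) (h v)

theorem st0 {A} (hA : Tn.Der d.th A) {T : Ix → Ix → Fld D} (m : ∀ a b, T a b ∈ s)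
    (hT : Stress0 c.Q T) (hP : ND.PCh c.Q T c.A) : Stress0 d.th fun a b => d.e (T a b) :=
  ⟨fun a b => ⟨_, m a b, hT.bose a b, rfl⟩, fun a b f η hf => (d.ex η).elim fun v p =>
    (p.fld (m a b) hf).eq (p.fld (m b a) hf) (hT.symm a b f v hf),
    fun a b => d.adj' (m a b) (m a b) (hT.herm a b),
    fun a b L x f η hL hf => d.tcov m one_pos hL hf (fun v => hT.cov a b L x f v hL hf) η,
    fun n f η hf => (d.ex η).elim fun v p => (R.sum fun a => p.fld (m a n) (Ap.test_pd a hf)).eq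
      R.zero (hT.conserved n f v hf),
    Tn.chg_of_pch hA (fun a b => ⟨_, m a b, rfl⟩) (d.pch hA m hT.bose hP)⟩

/-! ## the net -/

/-- the values of the local operators -/
def N0 (y : Fib c Z) (O : Set V) : Set (Completion y.E →L[ℂ] Completion y.E) :=
  y.b.π '' (c.N O ∩ y.b.P)

theorem N0_star (O) : ∀ X ∈ N0 y O, star X ∈ N0 y O := by
  rintro _ ⟨X, a, rfl⟩
  exact ⟨star X, ⟨star_mem a.1, star_mem a.2⟩, Fb.π_star a.2⟩

theorem mono : ∀ O O', O ⊆ O' → ∀ X ∈ vn (N0 y O), X ∈ vn (N0 y O') := fun O O' h =>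
  P352W.Net.vn_mono (N0_star O) (N0_star O')
    (Set.image_mono fun X a => ⟨c.hN.mono O O' h X a.1, a.2⟩)

theorem com {O : Set V} (hO : IsOpen O) {Y} (h : ∀ X ∈ N0 y O, X * Y = Y * X) :
    Y ∈ (hl (fun O => vn (N0 y O)) O).commutant :=
  VonNeumannAlgebra.mem_commutant_iff.2 fun X hX =>
    (mem_vn.1 (mem_hl.1 hX O hO subset_rfl) Y ((mem_cmt (N0_star O)).2 h)).symm

theorem cnj {u : Completion D →L[ℂ] Completion D} (hu : u ∈ y.b.P) (k : u ∈ unitary _)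
    {O O' : Set V} (h : ∀ X ∈ c.N O, u * X * star u ∈ c.N O') :
    ∀ X ∈ vn (N0 y O), y.b.π u * X * star (y.b.π u) ∈ vn (N0 y O') := fun X hX => by
  have s := star_mem hu
  have a : y.b.π u * star (y.b.π u) = 1 := by
    rw [← Fb.π_star hu, ← Fb.π_mul hu s]
    exact (congrArg _ k.2).trans Fb.π_one
  obtain ⟨Y, m, e⟩ := P352W.Net.vn_cov (N0_star O) (N0_star O') _ _ a (by
    rw [← Fb.π_star hu, ← Fb.π_mul s hu, k.1, Fb.π_one]) (by
      rintro _ ⟨X, p, rfl⟩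
      have m := mul_mem (mul_mem hu p.2) s
      exact ⟨_, ⟨_, ⟨h X p.1, m⟩, rfl⟩, by
        rw [← Fb.π_mul hu p.2, ← Fb.π_mul m hu, mul_assoc, k.1, mul_one]⟩) X hX
  rwa [← e, mul_assoc, a, mul_one]

theorem lng {A} (ad : ∀ r r' (a : ℝ) X X' v, IsSim r X → IsSim r' X' →
      A (fun z => X z + a • X' z) v = A X v + (a : ℂ) • A X' v) (hA : Tn.Der d.th A)
    (pj : ∀ B ∈ s, ∀ B' ∈ s, IsAdj B B' → ∀ g ∈ ex_loc.choose, ∃ p : Fin 4 → _,
      (∀ i, p i ∈ c.N (tsupport g) ∧ p i ∈ y.b.P) ∧ ∀ v w : D,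
        Pj p (v, (B (ev g) v : D)) ((B' (bar (ev g)) w : D), w)) :
    LNg d.th (d.ds c.G) A (y.b.π c.Γ) (hl fun O => vn (N0 y O)) where
  toGr := d.gr
  vac := d.rv.G.eq d.rv c.hN.vac
  add := ad
  der := hA
  ext := d.πG
  fld := by
    rintro O _ f ⟨B, hB, rfl⟩ hf
    obtain ⟨B', hB', a⟩ := d.cl.adj B hB
    refine P352W.Net.aff_hl mono fun O' hO k => aff_of (Q := d.th) ⟨B, hB, rfl⟩ ⟨B', hB', rfl⟩
      (d.adj' hB hB' a) hO (fun g g1 g2 Y hY η η' => ?_) ⟨hf.1, hf.2.1, hf.2.2.trans k⟩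
    obtain ⟨p, p1, p2⟩ := pj B hB B' hB' a g g1
    obtain ⟨v, r⟩ := d.ex η
    obtain ⟨w, r'⟩ := d.ex η'
    have r1 := r.fld hB (Kn.tst g)
    have r2 := r'.fld hB' (Ap.test_bar (Kn.tst g))
    rw [P352W.Net.vn_comm, mem_cmt (N0_star _)] at hY
    rw [← r.φ, ← r'.φ, ← r1.φ, ← r2.φ]
    exact ((p2 v w).fb y.b (fun i => (p1 i).2) r.L r1.L r2.L r'.L).rel fun i =>
      hY _ ⟨_, ⟨c.hN.mono _ _ g2 _ (p1 i).1, (p1 i).2⟩, rfl⟩
  mono O O' k X hX := mem_hl.2 fun U hU hO => mem_hl.1 hX U hU (k.trans hO)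
  cov r L x O X hX hr hL := by
    have u := d.uni r L x
    refine ⟨y.b.π (Ug c.Q r L x) * X * star (y.b.π (Ug c.Q r L x)), mem_hl.2 fun U hU hO => ?_,
      fun z => ?_⟩
    · exact cnj (d.UP r L x) (G.ip_ug c hr hL x).uni ((G.ip_ug c hr hL x).mem fun _ a => a) X
        (mem_hl.1 hX _ (hU.preimage (P352W.Net.sim_cont r L x)) (Set.image_subset_iff.1 hO))
    · rw [← Ug_apply _ hr hL, ← Ug_apply _ hr hL, ← d.πUg, ← ContinuousLinearMap.mul_apply,
        mul_assoc, u.1, mul_one]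
      rfl
  gam O X hX := mem_hl.2 fun U hU hO => by
    simpa only [← Fb.π_star d.GP, SGx.gs] using cnj d.GP (Unitary.mem_iff.2 (by
      simp only [SGx.gs, SGx.g2, and_self])) (by simpa only [SGx.gs] using c.hN.gam U) X
        (mem_hl.1 hX U hU hO)
  loc a b X ha hb hab hX := by
    have h1 := mem_hl.1 hX _ (P352W.Net.wdg_open b a 0) subset_rfl
    have G := d.GP
    have g : y.b.π c.Γ * y.b.π c.Γ = 1 := by rw [← Fb.π_mul G G, SGx.g2, Fb.π_one]
    have k := fun Y (hY : Y ∈ N0 y (H496.Wdg a b 0)) =>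
      have t := fun X' (hX' : X' ∈ N0 y (H496.Wdg b a 0)) => P352R.Lg.tw_symm (a := X') (b := Y) g
        (by
          obtain ⟨Y, p, rfl⟩ := hY
          obtain ⟨X', q, rfl⟩ := hX'
          have m := mul_mem (mul_mem G q.2) G
          rw [← Fb.π_mul G q.2, ← Fb.π_mul (mul_mem G q.2) G, ← Fb.π_add q.2 m,
            ← Fb.π_mul (add_mem q.2 m) p.2, ← Fb.π_mul p.2 (add_mem q.2 m),
            VonNeumannAlgebra.mem_commutant_iff.1 (c.hN.loc a b X' ha hb hab q.1).1 Y p.1])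
        (by
          obtain ⟨Y, p, rfl⟩ := hY
          obtain ⟨X', q, rfl⟩ := hX'
          have m := mul_mem (mul_mem G q.2) G
          have m' := mul_mem (sub_mem q.2 m) G
          rw [← Fb.π_mul G q.2, ← Fb.π_mul (mul_mem G q.2) G, ← y.b.π_sub q.2 m,
            ← Fb.π_mul (sub_mem q.2 m) G, ← Fb.π_mul m' p.2, ← Fb.π_mul p.2 m',
            VonNeumannAlgebra.mem_commutant_iff.1 (c.hN.loc a b X' ha hb hab q.1).2 Y p.1])
      P352R.Lg.tw_symm g (mem_vn.1 h1 _ ((mem_cmt (N0_star _)).2 fun Z hZ => (t Z hZ).1.symm))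
        (mem_vn.1 h1 _ ((mem_cmt (N0_star _)).2 fun Z hZ => (t Z hZ).2.symm))
    exact ⟨com (P352W.Net.wdg_open a b 0) fun Y hY => (k Y hY).1.symm,
      com (P352W.Net.wdg_open a b 0) fun Y hY => (k Y hY).2.symm⟩

end Fd

end

end Vale.Agent.N352.U
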