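import Vale.Agent.N352.U.Cl
import Vale.Agent.P352R.Tg.Gen
import Vale.Agent.P352R.Lg.Net

/-!
# N352, block U: the theory of a fibre
-/

set_option linter.all false

open MeasureTheory Filter Topology
open scoped ComplexConjugate SchwartzMap
open UniformSpace (Completion)

namespace Vale.Agent.N352.U

open Vale.Agent.P352 Vale.Agent.P352.GF Vale.Agent.P352.BW Vale.Agent.P352.H246
open Vale.Agent.P352.H15 Vale.Agent.P352.H746
open Vale.Agent.P352.SubConf (IsAdj)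
open Vale.Agent.P352X Vale.Agent.P352X.EB Vale.Agent.P352X.EG
open Kn (wd W1 Fl)

noncomputable section

universe u

variable {D : Type u} [NormedAddCommGroup D] [InnerProductSpace ℂ D] {c : Cg D}
  {Z : VonNeumannAlgebra (Completion D)} {s : Set (Fld D)} {B B' : Fld D} {f : Fn} {v w : D}

/-- closed families of fields -/
structure Cld (c : Cg D) (s : Set (Fld D)) : Prop where
  fld : ∀ B ∈ s, c.Q.fld B
  adj : ∀ B ∈ s, ∃ B' ∈ s, IsAdj B B'
  split : ∀ B ∈ s, ∃ C ∈ s, ∃ C' ∈ s, c.Q.bose C ∧ Fer c.Q c.G C' ∧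
    ∀ f v, IsTest f → B f v = C f v + C' f v
  mf : ∀ B ∈ s, ∃ (n : ℕ) (k : Fin n → Rp) (Φ : ∀ i, Fin (k i).n → Fld D) (a : ∀ i, Fin (k i).n),
    (∀ i, IsMf c.Q (k i) (Φ i) ∧ ∀ b, Φ i b ∈ s) ∧ ∀ f v, IsTest f → B f v = ∑ i, Φ i (a i) f v
  fs : ∀ B ∈ s, ∃ F C, Scl c.Q B F C ∧ ∀ p, C p ∈ s
  cov : ∀ B ∈ s, ∃ (n : ℕ) (C : Fin n → Fld D), (∀ i, C i ∈ s) ∧ ∀ g : Sg, ∃ κ : Fin n → ℂ,
    ∀ f v, IsTest f → B f (H.Le.ul c g v) = ∑ i, κ i • H.Le.ul c g (C i (g.pull f) v)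

/-- the span of the words in the fields of `s` -/
def D0 (c : Cg D) (s : Set (Fld D)) : Submodule ℂ D :=
  Submodule.span ℂ {v | ∃ n, ∃ u : Fin n → Fl c.Q, (∀ i, (u i).1 ∈ s) ∧ ∃ f, v = wd u f}

theorem D0_vac : c.Q.vac ∈ D0 c s :=
  Submodule.subset_span ⟨0, Fin.elim0, fun i => i.elim0, Fin.elim0, rfl⟩

theorem D0_le {S : Submodule ℂ D} (h0 : c.Q.vac ∈ S)
    (h : ∀ B ∈ s, ∀ f v, IsTest f → v ∈ S → B f v ∈ S) : D0 c s ≤ S := by
  refine Submodule.span_le.2 ?_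
  rintro _ ⟨n, u, a, f, rfl⟩
  induction n with
  | zero => exact h0
  | succ n k => exact h _ (a 0) _ _ (Kn.tst _) (k _ (fun i => a i.succ) _)

theorem D0_mem (h : c.Q.fld B) (hB : B ∈ s) (hf : IsTest f) (hv : v ∈ D0 c s) :
    B f v ∈ D0 c s := by
  obtain ⟨g, rfl⟩ := hf
  refine (Submodule.span_le (p := (D0 c s).comap (Kn.op ⟨B, h⟩ g))).2 ?_ hv
  rintro _ ⟨n, u, a, f, rfl⟩
  exact Submodule.subset_span ⟨n + 1, Fin.cons ⟨B, h⟩ u, Fin.cases hB a, Fin.cons g f, rfl⟩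

/-- the grading as a linear map -/
def gl (c : Cg D) : D →ₗ[ℂ] D := Fsg.gl (e0_thm c)

theorem ul_inv (g : Sg) : ∃ e : Bool, ∀ v,
    H.Le.ul c g (H.Le.ul c g.inv v) = cond e (gl c v) v := by
  have e : sim g.s g.L g.a g.inv.a = 0 := by
    have h1 := g.act_inv 0
    rwa [show g.inv.act 0 = g.inv.a from funext fun n => by simp [Sg.act, sim]] at h1
  have k := c.hN.mul g.s g.L g.a _ _ g.inv.a g.hs g.inv.hs g.hL g.inv.hL
  simp only [e, show g.s * g.inv.s = 1 from mul_inv_cancel₀ g.hs.ne',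
    show (fun m => sim 1 g.L 0 (g.inv.L m)) = _ from H755.linv_id g.hL, H755.Uone] at k
  exact k.elim (fun k => ⟨false, k⟩) fun k => ⟨true, k.2.2⟩

theorem zadj (hZ : Ctr c Z) (hB : c.Q.fld B) (hB' : c.Q.fld B') (a : IsAdj B B') (hf : IsTest f)
    {z} (hz : z ∈ Z) : inner ℂ ((B' (bar f) w : D) : Completion D) (z (v : Completion D)) =
      inner ℂ (w : Completion D) (z (B f v : D)) := by
  have t := (Completion.continuous_coe D).comp (c.Q.cont _ w hB') |>.comp (Tn.cjS (E := V)).continuous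
  refine Tn.ext_sub (u := fun f => inner ℂ ((B' (bar f) w : D) : Completion D) (z v))
    (u' := fun f => inner ℂ (w : Completion D) (z (B f v : D))) (t.inner continuous_const)
    (continuous_const.inner (z.continuous.comp ((Completion.continuous_coe D).comp
      (c.Q.cont _ v hB)))) hf fun g hg => ?_
  obtain ⟨X, h1, h2⟩ := c.hN.fld _ B g hB hg
  rw [show B' (bar g) w = X w from ext_inner_left ℂ fun u => by rw [← h1, a g u w hg.1]]
  exact h2 z (hZ.sub _ z hz).2 v w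

namespace Cld

variable (h : Cld c s)
include h

theorem mem (hB : B ∈ s) (hf : IsTest f) (hv : v ∈ D0 c s) : B f v ∈ D0 c s :=
  D0_mem (h.fld B hB) hB hf hv

theorem G (hv : v ∈ D0 c s) : gl c v ∈ D0 c s := by
  refine D0_le (S := (D0 c s).comap (gl c)) (show c.G _ ∈ _ from c.hN.vac.symm ▸ D0_vac)
    (fun B hB f v hf hv => ?_) hv
  obtain ⟨C, a, C', b, p, q, e⟩ := h.split B hB
  have : gl c (B f v) = C f (gl c v) - C' f (gl c v) := by
    rw [e f v hf, map_add]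
    exact congrArg₂ _ (c.hN.bose C f v p hf).symm (neg_eq_iff_eq_neg.1 (q.2 f v hf).symm) |>.trans
      (sub_eq_add_neg _ _).symm
  exact Submodule.mem_comap.2 (this ▸ sub_mem (h.mem a hf hv) (h.mem b hf hv))

theorem ge (e : Bool) (hv : v ∈ D0 c s) : cond e (gl c v) v ∈ D0 c s := by
  cases e
  exacts [hv, h.G hv]

theorem U (g : Sg) (hv : v ∈ D0 c s) : H.Le.ul c g v ∈ D0 c s := by
  refine D0_le (S := (D0 c s).comap (H.Le.ul c g)) (show c.Q.U _ _ _ _ ∈ _ from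
    (c.Q.U_vac _ _ _ g.hs g.hL).symm ▸ D0_vac) (fun B hB f v hf hv => ?_) hv
  obtain ⟨e, k⟩ := ul_inv (c := c) g
  obtain ⟨n, C, a, b⟩ := h.cov B hB
  obtain ⟨κ, b⟩ := b g.inv
  have : v = H.Le.ul c g.inv (cond e (gl c (H.Le.ul c g v)) (H.Le.ul c g v)) :=
    Tn.u_inj (c := c) g ((k _).trans (by cases e; exacts [rfl, c.hN.inv _])).symm
  rw [Submodule.mem_comap, this, b f _ hf]
  simp only [map_sum, map_smul, k]
  exact sum_mem fun i _ => Submodule.smul_mem _ _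
    (h.ge e (h.mem (a i) (Tn.test_pull _ hf) (h.ge e hv)))

theorem sur (g : Sg) (hv : v ∈ D0 c s) : ∃ w ∈ D0 c s, H.Le.ul c g w = v := by
  obtain ⟨e, k⟩ := ul_inv (c := c) g
  exact ⟨_, h.U g.inv (h.ge e hv), (k _).trans (by cases e; exacts [rfl, c.hN.inv _])⟩

end Cld

/-- the data of a fibre -/
structure Fd (y : Fib c Z) (s : Set (Fld D)) where
  ct : Ctr c Z
  cl : Cld c s
  q : D →ₗ[ℂ] y.E
  mm : ∀ v ∈ D0 c s, (v : Completion D) ∈ y.b.L ∧ y.b.φ v = q v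
  su : ∀ η, ∃ v ∈ D0 c s, q v = η
  sat : y.b.Sat
  tmp : ∀ n (u : Fin n → Fl c.Q), (∀ i, (u i).1 ∈ s) →
    (∀ F, W1 u F ∈ y.b.L) ∧ Continuous fun F => y.b.φ (W1 u F)

namespace Fd

variable {y : Fib c Z} (d : Fd y s) {η η' : y.E}

/-- `η` is the value of `v` -/
def R (η : y.E) (v : D) : Prop := v ∈ D0 c s ∧ d.q v = η

/-- operators on the fibre -/
def ds (X : D → D) (η : y.E) : y.E := d.q (X (d.su η).choose)

/-- fields on the fibre -/
def e (B : Fld D) : Fld y.E := fun f => d.ds (B f)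

theorem ex (η : y.E) : ∃ v, d.R η v := d.su η

theorem rv : d.R (d.q c.Q.vac) c.Q.vac := ⟨D0_vac, rfl⟩

include d in
theorem dns : Dense (Submodule.span ℂ (y.b.φ '' ((↑) '' (D0 c s : Set D))) :
    Set (Completion y.E)) := Completion.denseRange_coe.mono <| by
  rintro _ ⟨η, rfl⟩
  obtain ⟨v, a, rfl⟩ := d.su η
  exact Submodule.subset_span ⟨_, ⟨v, a, rfl⟩, (d.mm v a).2⟩

include d in
theorem Pm {Y : Completion D →L[ℂ] Completion D} (hY : Y ∈ Z.commutant)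
    (h : ∀ v ∈ D0 c s, (∃ w ∈ D0 c s, Y v = w) ∧ ∃ w ∈ D0 c s, star Y v = w) : Y ∈ y.b.P := by
  refine d.sat Y hY _ ?_ d.dns
  rintro _ ⟨v, a, rfl⟩
  obtain ⟨⟨w, p, q⟩, w', p', q'⟩ := h v a
  exact ⟨(d.mm v a).1, q ▸ (d.mm w p).1, q' ▸ (d.mm w' p').1⟩

include d in
theorem UP (r L a) : Ug c.Q r L a ∈ y.b.P := by
  by_cases k : 0 < r ∧ IsLor L
  · refine d.Pm (d.ct.U r L a) fun v hv => ⟨⟨_, d.cl.U ⟨r, L, a, k.1, k.2⟩ hv,
      Grp.coe k.1 k.2 a v⟩, ?_⟩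
    obtain ⟨w, p, rfl⟩ := d.cl.sur ⟨r, L, a, k.1, k.2⟩ hv
    exact ⟨w, p, (congrArg _ (Grp.coe k.1 k.2 a w).symm).trans
      (DFunLike.congr_fun (G.ip_ug c k.1 k.2 a).uni.1 _)⟩
  · rw [Ug, dif_neg k]
    exact one_mem _

include d in
theorem GP : c.Γ ∈ y.b.P := d.Pm d.ct.Γ fun v hv =>
  ⟨⟨_, d.cl.G hv, c.hN.ext v⟩, _, d.cl.G hv, (SGx.gs (c := c)).symm ▸ c.hN.ext v⟩

variable {d}

namespace R

theorem L (h : d.R η v) : (v : Completion D) ∈ y.b.L := (d.mm v h.1).1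

theorem φ (h : d.R η v) : y.b.φ v = η := h.2 ▸ (d.mm v h.1).2

theorem eq (h : d.R η v) (h' : d.R η' w) (e : v = w) : η = η' := h.2.symm.trans (e ▸ h'.2)

theorem add (h : d.R η v) (h' : d.R η' w) : d.R (η + η') (v + w) :=
  ⟨add_mem h.1 h'.1, by rw [map_add, h.2, h'.2]⟩

theorem smul (h : d.R η v) (a : ℂ) : d.R (a • η) (a • v) :=
  ⟨Submodule.smul_mem _ _ h.1, by rw [map_smul, h.2]⟩

theorem neg (h : d.R η v) : d.R (-η) (-v) := ⟨neg_mem h.1, by rw [map_neg, h.2]⟩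

theorem sub (h : d.R η v) (h' : d.R η' w) : d.R (η - η') (v - w) :=
  ⟨sub_mem h.1 h'.1, by rw [map_sub, h.2, h'.2]⟩

theorem zero : d.R 0 0 := ⟨zero_mem _, map_zero _⟩

theorem sum {ι : Type*} {t : Finset ι} {η : ι → y.E} {v : ι → D} (h : ∀ i, d.R (η i) (v i)) :
    d.R (∑ i ∈ t, η i) (∑ i ∈ t, v i) :=
  ⟨sum_mem fun i _ => (h i).1, by simp only [map_sum, fun i => (h i).2]⟩

theorem inn {η1 η2 η3 η4 : y.E} {v1 v2 v3 v4 : D} (h1 : d.R η1 v1) (h2 : d.R η2 v2)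
    (h3 : d.R η3 v3) (h4 : d.R η4 v4) (k : ∀ z ∈ Z, inner ℂ (v1 : Completion D) (z v2) =
      inner ℂ (v3 : Completion D) (z v4)) : inner ℂ η1 η2 = inner ℂ η3 η4 := by
  rw [← Completion.inner_coe, ← Completion.inner_coe η3, ← h1.φ, ← h2.φ, ← h3.φ, ← h4.φ]
  exact Fb.rel2 h1.L h2.L h3.L h4.L k

theorem op (h : d.R η v) {Y : Completion D →L[ℂ] Completion D} (hY : Y ∈ y.b.P) {X : D → D}
    (e : ∀ v : D, Y v = X v) (m : ∀ v ∈ D0 c s, X v ∈ D0 c s) :
    d.R (d.ds X η) (X v) ∧ y.b.π Y η = d.ds X η := by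
  have k : ∀ {v}, d.R η v → y.b.π Y η = d.q (X v) := fun {v} h => by
    rw [← h.φ, Fb.ap hY h.L, e, (d.mm _ (m v h.1)).2]
  exact ⟨⟨m v h.1, Completion.coe_injective _ ((k h).symm.trans (k (d.su η).choose_spec))⟩,
    k (d.su η).choose_spec⟩

theorem fld (h : d.R η v) (hB : B ∈ s) (hf : IsTest f) : d.R (d.e B f η) (B f v) := by
  obtain ⟨B', a, b⟩ := d.cl.adj B hB
  have k : ∀ {v w η'}, d.R η v → d.R η' w → inner ℂ (d.q (B' (bar f) w)) η =
      inner ℂ η' (d.q (B f v)) := fun p q => R.inn ⟨d.cl.mem a (Ap.test_bar hf) q.1, rfl⟩ p q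
    ⟨d.cl.mem hB hf p.1, rfl⟩ fun z => zadj d.ct (d.cl.fld B hB) (d.cl.fld _ a) b hf
  refine ⟨d.cl.mem hB hf h.1, ext_inner_left ℂ fun η' => ?_⟩
  obtain ⟨w, p⟩ := d.ex η'
  exact (k h p).symm.trans (k (d.su η).choose_spec p)

theorem U (h : d.R η v) {r L} (hr : 0 < r) (hL : IsLor L) (a : V) :
    d.R (d.ds (c.Q.U r L a) η) (c.Q.U r L a v) :=
  (h.op (d.UP r L a) (Grp.coe hr hL a) fun _ => d.cl.U ⟨r, L, a, hr, hL⟩).1

theorem G (h : d.R η v) : d.R (d.ds c.G η) (c.G v) := (h.op d.GP c.hN.ext fun _ => d.cl.G).1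

end R

variable (d)

theorem πU {r L} (hr : 0 < r) (hL : IsLor L) (a : V) (η : y.E) :
    y.b.π (Ug c.Q r L a) η = d.ds (c.Q.U r L a) η := (d.ex η).elim fun _ h =>
  (h.op (d.UP r L a) (Grp.coe hr hL a) fun _ => d.cl.U ⟨r, L, a, hr, hL⟩).2

theorem πG (η : y.E) : y.b.π c.Γ η = d.ds c.G η :=
  (d.ex η).elim fun _ h => (h.op d.GP c.hN.ext fun _ => d.cl.G).2

theorem adj' (hB : B ∈ s) (hB' : B' ∈ s) (a : IsAdj B B') : IsAdj (d.e B) (d.e B') :=
  fun f η η' hf => by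
  obtain ⟨v, p⟩ := d.ex η
  obtain ⟨w, q⟩ := d.ex η'
  rw [← inner_conj_symm, ← inner_conj_symm η]
  exact congrArg _ (R.inn (q.fld hB' (Ap.test_bar hf)) p q (p.fld hB hf)
    fun z => zadj d.ct (d.cl.fld B hB) (d.cl.fld _ hB') a hf).symm

/-- words as distributions with values in the fibre -/
def W {n : ℕ} {u : Fin n → Fl c.Q} (h : ∀ i, (u i).1 ∈ s) :
    𝓢(Fin n → V, ℂ) →L[ℂ] Completion y.E :=
  ⟨y.b.lin ∘ₗ (W1 u).toLinearMap.codRestrict _ (d.tmp n u h).1, (d.tmp n u h).2⟩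

theorem cont (hB : B ∈ s) (η : y.E) : Continuous fun g => d.e B (ev g) η := by
  obtain ⟨v, p⟩ := d.ex η
  have k : ∀ v ∈ D0 c s, Continuous fun g => d.q (Kn.op ⟨B, d.cl.fld B hB⟩ g v) := fun v hv => by
    induction hv using Submodule.span_induction with
    | mem x hx =>
      obtain ⟨n, u, a, f, rfl⟩ := hx
      refine (Completion.isUniformInducing_coe _).isInducing.continuous_iff.2
        (((d.W (u := Fin.cons ⟨B, d.cl.fld B hB⟩ u) (Fin.cases hB a)).continuous.comp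
          (Kn.cons' (Kn.pt f)).continuous).congr fun g => ?_)
      exact (congrArg y.b.φ (Kn.W1_cons _ g f)).trans (d.mm _ (d.cl.mem hB (Kn.tst g)
        (Submodule.subset_span ⟨n, u, a, f, rfl⟩))).2
    | zero => simpa only [map_zero] using continuous_const
    | add x y _ _ a b => simpa only [map_add] using a.fun_add b
    | smul a x _ b => simpa only [map_smul] using b.fun_const_smul a
  exact (k v p.1).congr fun g => (p.fld hB (Kn.tst g)).2

include d in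
theorem uni (r L a) : y.b.π (Ug c.Q r L a) ∈ unitary _ := by
  have m := d.UP r L a
  have k : Ug c.Q r L a ∈ unitary _ := by
    by_cases h : 0 < r ∧ IsLor L
    · exact (G.ip_ug c h.1 h.2 a).uni
    · rw [Ug, dif_neg h]
      exact one_mem _
  rw [Unitary.mem_iff, ← Fb.π_star m, ← Fb.π_mul (star_mem m) m, ← Fb.π_mul m (star_mem m)]
  exact ⟨(congrArg _ k.1).trans Fb.π_one, (congrArg _ k.2).trans Fb.π_one⟩

theorem W_tsl {n : ℕ} {u : Fin n → Fl c.Q} (h : ∀ i, (u i).1 ∈ s) (a : V) (F) :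
    d.W h (ST.tsl (fun _ => a) F) = y.b.π (Ut c.Q a) (d.W h F) :=
  (congrArg y.b.φ (Kn.W1_tsl u a F)).trans (Fb.ap (d.UP _ _ a) ((d.tmp n u h).1 F)).symm

theorem ind {p : Completion y.E → Prop} (h0 : p 0) (h1 : ∀ x y, p x → p y → p (x + y))
    (h2 : ∀ (a : ℂ) x, p x → p (a • x))
    (h : ∀ n (u : Fin n → Fl c.Q) (h : ∀ i, (u i).1 ∈ s) F, p (d.W h F)) (η : y.E) : p η := by
  obtain ⟨v, hv, rfl⟩ := d.su η
  induction hv using Submodule.span_induction with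
  | mem x hx =>
    obtain ⟨n, u, a, f, rfl⟩ := hx
    exact ((congrArg y.b.φ (Kn.W1_pt u f)).trans
      (d.mm _ (Submodule.subset_span ⟨n, u, a, f, rfl⟩)).2) ▸ h n u a (Kn.pt f)
  | zero => simpa only [map_zero, Completion.coe_zero] using h0
  | add x y _ _ a b => simpa only [map_add, Completion.coe_add] using h1 _ _ a b
  | smul a x _ b => simpa only [map_smul, Completion.coe_smul] using h2 a _ b

include d in
theorem urep : SN.URep fun a z => y.b.π (Ut c.Q a) z := by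
  have m : ∀ a, Ut c.Q a ∈ y.b.P := d.UP 1 GF.one
  refine ⟨fun z => by rw [Grp.ut0, Fb.π_one]; rfl, fun a b z => by
    rw [G.Sq.ut, Fb.π_mul (m a) (m b)]; rfl, fun a => inner_unitary (d.uni _ _ a), fun z => ?_⟩
  refine (continuous_prod_of_dense_continuous_lipschitzWith
    (fun p : Completion y.E × V => y.b.π (Ut c.Q p.2) p.1) 1 Completion.denseRange_coe ?_
    fun a => LipschitzWith.of_dist_le_mul fun x x' => ?_).comp (f := fun a => (z, a))
      (continuous_const.prodMk continuous_id)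
  · rintro _ ⟨η, rfl⟩
    refine d.ind (p := fun z => Continuous fun a => y.b.π (Ut c.Q a) z) ?_ ?_ ?_ ?_ η
    · simpa only [map_zero] using continuous_const
    · exact fun x y a b => by simpa only [map_add] using a.fun_add b
    · exact fun a x b => by simpa only [map_smul] using b.fun_const_smul a
    · exact fun n u h F => ((d.W h).continuous.comp (ST.continuous_tsl.comp ((continuous_pi
        fun _ => continuous_id).prodMk continuous_const))).congr fun a => d.W_tsl h a F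
  · rw [dist_eq_norm, ← map_sub, dist_eq_norm, NNReal.coe_one, one_mul]
    exact (ContinuousLinearMap.norm_map_of_mem_unitary (d.uni _ _ a) _).le

include d in
theorem pos {e : V} (he : H496.IsNull e) {g : 𝓢(ℝ, ℂ)} (hg : Kn.Neg g) (η : y.E) :
    ∫ t : ℝ, g t * inner ℂ (η : Completion y.E) (y.b.π (Ut c.Q (t • e)) η) = 0 := by
  have k := d.ind (p := fun z => Integrable (fun t : ℝ => g t • y.b.π (Ut c.Q (t • e)) z) ∧
      ∫ t : ℝ, g t • y.b.π (Ut c.Q (t • e)) z = 0) (by simp) (fun x y a b => ?_)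
      (fun a x b => ?_) (fun n u h F => ?_) η
  · simp only [← inner_smul_right]
    rw [integral_inner k.1, k.2, inner_zero_right]
  · simp only [map_add, smul_add]
    exact ⟨a.1.add b.1, by rw [integral_add a.1 b.1, a.2, b.2, add_zero]⟩
  · simp only [map_smul, smul_comm (g _) a]
    exact ⟨b.1.smul a, by rw [integral_smul, b.2, smul_zero]⟩
  · have e1 : ∀ t : ℝ, (t • fun _ : Fin n => e) = fun _ => t • e := fun _ => rfl
    have k := Kn.clm_cv (d.W h) (fun _ => e) g F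
    have k' := (Kn.clm_cv (W1 u) (fun _ => e) g F).2
    simp only [e1, d.W_tsl, Kn.W1_tsl, Kn.ut_neg he hg] at k k'
    exact ⟨k.1, k.2.symm.trans ((congrArg y.b.φ k').trans y.b.zero)⟩

/-- **the theory of the fibre** -/
def th : Theory y.E where
  vac := d.q c.Q.vac
  fld A := ∃ B ∈ s, A = d.e B
  bose A := ∃ B ∈ s, c.Q.bose B ∧ A = d.e B
  U r L a := d.ds (c.Q.U r L a)
  norm_vac := by rw [← Completion.norm_coe, ← d.rv.φ]; exact y.b.nrm
  cyclic S a b := by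
    refine dense_univ.mono fun η _ => ?_
    obtain ⟨v, p, rfl⟩ := d.su η
    exact (D0_le (S := D0 c s ⊓ S.comap d.q) ⟨D0_vac, a⟩ (fun B hB f v hf k =>
      ⟨d.cl.mem hB hf k.1, show d.q _ ∈ S from (R.fld ⟨k.1, rfl⟩ hB hf).2.symm ▸
        b _ f _ ⟨B, hB, rfl⟩ hf k.2⟩) p).2
  lin := by
    rintro _ f g a η ⟨B, hB, rfl⟩ hf hg
    obtain ⟨v, p⟩ := d.ex η
    exact (p.fld hB (Ap.sw_add hf (Ap.sw_cmul a hg))).eq ((p.fld hB hf).add ((p.fld hB hg).smul a))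
      (c.Q.lin B f g a v (d.cl.fld B hB) hf hg)
  cont := by
    rintro _ η ⟨B, hB, rfl⟩
    exact d.cont hB η
  adj := by
    rintro _ ⟨B, hB, rfl⟩
    obtain ⟨B', a, b⟩ := d.cl.adj B hB
    exact ⟨_, ⟨B', a, rfl⟩, d.adj' hB a b⟩
  bose_fld := fun _ ⟨B, a, _, b⟩ => ⟨B, a, b⟩
  loc := by
    rintro _ _ f g η ⟨A, hA, a, rfl⟩ ⟨B, hB, rfl⟩ hf hg k
    obtain ⟨v, p⟩ := d.ex η
    exact ((p.fld hB hg).fld hA hf).eq ((p.fld hA hf).fld hB hg)
      (c.Q.loc A B f g v a (d.cl.fld B hB) hf hg k)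
  U_inner r L a η η' hr hL := by
    rw [← Completion.inner_coe, ← d.πU hr hL, ← d.πU hr hL, inner_unitary (d.uni r L a),
      Completion.inner_coe]
  U_vac r L a hr hL := (d.rv.U hr hL a).eq d.rv (c.Q.U_vac r L a hr hL)
  transl := by
    rintro _ a f η ⟨B, hB, rfl⟩ hf
    obtain ⟨v, p⟩ := d.ex η
    have o := H496.isLor_one
    exact ((p.U one_pos o a).fld hB hf).eq ((p.fld hB (Ap.test_sim one_pos o a hf)).U one_pos o a)
      (c.Q.transl B a f v (d.cl.fld B hB) hf)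
  spectrum η := by
    obtain ⟨ν, a, b, k⟩ := spec_of d.urep η fun e he g hg => d.pos he hg η
    exact ⟨ν, a, b, fun x => by
      rw [← k, ← Completion.inner_coe, ← d.πU one_pos H496.isLor_one]; rfl⟩

theorem cy (S : Submodule ℂ y.E) (a : d.th.vac ∈ S)
    (b : ∀ A f v, d.th.fld A → IsTest f → v ∈ S → A f v ∈ S) : S = ⊤ := top_unique fun η _ => by
  obtain ⟨v, p, rfl⟩ := d.su η
  exact (D0_le (S := D0 c s ⊓ S.comap d.q) ⟨D0_vac, a⟩ (fun B hB f v hf k =>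
    ⟨d.cl.mem hB hf k.1, show d.q _ ∈ S from (R.fld ⟨k.1, rfl⟩ hB hf).2.symm ▸
      b _ f _ ⟨B, hB, rfl⟩ hf k.2⟩) p).2

theorem πUg (r L a) : y.b.π (Ug c.Q r L a) = Ug d.th r L a := by
  by_cases k : 0 < r ∧ IsLor L
  · exact P352R.Lg.extC fun η => (d.πU k.1 k.2 a η).trans (Grp.coe (Q := d.th) k.1 k.2 a η).symm
  · rw [Ug, dif_neg k, Ug, dif_neg k, Fb.π_one]

end Fd

end

end Vale.Agent.N352.U
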