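import Vale.Agent.N352.U.R
import Vale.Agent.P352W.Net.Bic

/-!
# N352, block U: modular groups descend to the fibres
-/

set_option linter.all false

open Filter Topology
open scoped ComplexConjugate BoundedContinuousFunction

namespace Vale.Agent.N352.U

open Vale.Agent.P132 Vale.Agent.P352.BW.H234

noncomputable section

universe u

variable {H K : Type u} [NormedAddCommGroup H] [InnerProductSpace ℂ H] [CompleteSpace H]
  [NormedAddCommGroup K] [InnerProductSpace ℂ K] [CompleteSpace K]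
  {Z M : VonNeumannAlgebra H} {Ω : H}

theorem cpt_ind (A : Subalgebra ℂ (ℝ →ᵇ ℂ)) (hA : IsClosed (A : Set (ℝ →ᵇ ℂ))) (hr : rr ∈ A)
    (F : ℝ →ᵇ ℂ) (hc : HasCompactSupport F) : F ∈ A := by
  have real : ∀ (F : ℝ →ᵇ ℂ) (f : ℝ → ℝ), Continuous f → (∀ h, F h = (f h : ℂ)) →
      HasCompactSupport f → F ∈ A := fun F f hf hFf hc => by
    obtain ⟨g, hg, hgf⟩ := exists_comp_rr f hf hc
    refine hA.closure_subset (Metric.mem_closure_iff.2 fun ε hε => ?_)
    obtain ⟨P, hP⟩ := exists_polynomial_near_of_continuousOn 0 1 g hg.continuousOn (ε / 2)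
      (by positivity)
    refine ⟨Polynomial.aeval rr (P.map (algebraMap ℝ ℂ)),
      Algebra.adjoin_le (Set.singleton_subset_iff.2 hr) (Polynomial.aeval_mem_adjoin_singleton _ _),
      lt_of_le_of_lt ?_ (half_lt_self hε)⟩
    rw [dist_comm, dist_eq_norm, BoundedContinuousFunction.norm_le (by positivity)]
    intro h
    rw [BoundedContinuousFunction.sub_apply, aeval_rr_apply, hFf, ← hgf,
      ← Complex.ofReal_sub, Complex.norm_real, Real.norm_eq_abs]
    refine (hP _ ⟨by positivity, ?_⟩).le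
    rw [div_le_one (by positivity)]
    linarith [Real.exp_pos h]
  have e : F = (F + star F) * algebraMap ℂ _ (1 / 2) + Complex.I •
      ((F - star F) * algebraMap ℂ _ (-Complex.I / 2)) := by
    ext h
    simp
    linear_combination ((F h - conj (F h)) / 2) * Complex.I_mul_I
  rw [e]
  refine A.add_mem (real _ (fun h => (F h).re) (by fun_prop) (fun h => ?_)
    (hc.comp_left (g := Complex.re) Complex.zero_re)) (A.smul_mem (real _ (fun h => (F h).im)
      (by fun_prop) (fun h => ?_) (hc.comp_left (g := Complex.im) Complex.zero_im)) _)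
  all_goals
    apply Complex.ext <;> simp
    ring

theorem th_cont (E : ModData M Ω) : Continuous E.Th :=
  AddMonoidHomClass.continuous_of_bound E.Th 1 fun F =>
    (NonUnitalStarAlgHom.norm_apply_le E.Th F).trans_eq (one_mul _).symm

theorem rr_com (E : ModData M Ω) (hZ : ∀ z ∈ Z, z ∈ M ∧ z ∈ M.commutant) :
    E.Th rr ∈ Z.commutant := VonNeumannAlgebra.mem_commutant_iff.2 fun z hz =>
  ContinuousLinearMap.ext fun ζ => by
    refine res_unique (θ₁ := star z (E.J (E.Th ss ζ))) ?_ (res_gS E (z ζ)) (fun a ha => ?_)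
      (res_adj E (z ζ))
    · refine map_mem_closure (f := fun p : H × H => (z p.1, star z p.2)) (by fun_prop)
        (res_gS E ζ) ?_
      rintro _ ⟨a, ha, rfl⟩
      refine ⟨z * a, mul_mem (hZ z hz).1 ha, Prod.ext rfl ?_⟩
      rw [star_mul]
      exact (cm (star_mem ha) (star_mem (hZ z hz).2) Ω).symm
    · have := res_adj E ζ (star z * a) (mul_mem (star_mem (hZ z hz).1) ha)
      rw [star_mul, star_star, ContinuousLinearMap.mul_apply, cm (star_mem ha) (hZ z hz).2,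
        ContinuousLinearMap.mul_apply, st_r z, map_sub] at this
      rw [st_r, this]
      rfl

theorem th_com (E : ModData M Ω) (hZ : ∀ z ∈ Z, z ∈ M ∧ z ∈ M.commutant) (F : ℝ →ᵇ ℂ) :
    E.Th F ∈ Z.commutant := by
  obtain ⟨χ, -, c2, c3, -, c5⟩ := exists_chi
  have k : ∀ F : ℝ →ᵇ ℂ, HasCompactSupport F → E.Th F ∈ Z.commutant :=
    cpt_ind (Z.commutant.toStarSubalgebra.toSubalgebra.comap E.Th.toAlgHom)
      ((vn_closed Z.commutant).preimage (th_cont E)) (rr_com E hZ)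
  refine VonNeumannAlgebra.mem_commutant_iff.2 fun z hz => ContinuousLinearMap.ext fun ζ => ?_
  refine tendsto_nhds_unique ((((z * E.Th F).continuous).tendsto _).comp (tendsto_chi E c3 c5 ζ))
    ((((E.Th F).continuous.tendsto _).comp (tendsto_chi E c3 c5 (z ζ))).congr fun n => ?_)
  show E.Th F (E.Th (χ n) (z ζ)) = z (E.Th F (E.Th (χ n) ζ))
  rw [← E.gd_Th_mul, ← E.gd_Th_mul]
  exact (cm hz (k (F * χ n) (c2 n).mul_left) ζ).symm

/-- **the modular group of the fibre** -/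
theorem Fb.mod (b : Fb Z Ω K) (sat : b.Sat) (hZ : ∀ z ∈ Z, z ∈ M ∧ z ∈ M.commutant)
    (E : ModData M Ω) {M' : VonNeumannAlgebra K} (E' : ModData M' (b.φ Ω))
    (h1 : ∀ Y ∈ M, Y ∈ b.P → b.π Y ∈ M')
    (h2 : ∀ Y', (∀ Y ∈ M, Y ∈ b.P → b.π Y * Y' = Y' * b.π Y) → Y' ∈ M'.commutant)
    (hA : E.Th rr ∈ b.P) {s : Set H} (hd : Dense (Submodule.span ℂ (b.φ '' s) : Set K))
    (hs : ∀ v ∈ s, v ∈ b.L ∧ E.J (E.Th ss v) ∈ b.L ∧ (b.φ (E.Th rr v), b.φ (E.J (E.Th ss v))) ∈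
      closure {p | ∃ Y ∈ M, Y ∈ b.P ∧ p = (b.φ (Y Ω), b.φ (star Y Ω))}) (t : ℝ) :
    E.U t ∈ b.P ∧ b.π (E.U t) = E'.U t := by
  have e0 : b.π (E.Th rr) = E'.Th rr := by
    refine ContinuousLinearMap.ext_on hd ?_
    rintro _ ⟨v, hv, rfl⟩
    obtain ⟨a1, a2, a3⟩ := hs v hv
    rw [Fb.ap hA a1]
    refine res_unique (closure_mono ?_ a3) (res_gS E' _) (fun a ha => ?_) (res_adj E' _)
    · rintro _ ⟨Y, p, q, rfl⟩
      exact ⟨_, h1 Y p q, by rw [← Fb.π_star q, Fb.ap q b.om, Fb.ap (star_mem q) b.om]⟩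
    · rw [st_l]
      refine P352W.Net.bic2 (b.π '' (M ∩ b.P)) ⟨1, ⟨one_mem _, one_mem _⟩, Fb.π_one⟩ ?_ ?_
        (fun Y' hY' => (VonNeumannAlgebra.mem_commutant_iff.1 (h2 Y' fun Y p q =>
          hY' _ ⟨Y, ⟨p, q⟩, rfl⟩) a ha).symm) ?_
      · rintro _ ⟨A, p, rfl⟩ _ ⟨B, q, rfl⟩
        exact ⟨_, ⟨mul_mem p.1 q.1, mul_mem p.2 q.2⟩, Fb.π_mul p.2 q.2⟩
      · rintro _ ⟨A, p, rfl⟩
        exact ⟨_, ⟨star_mem p.1, star_mem p.2⟩, Fb.π_star p.2⟩
      · rintro _ ⟨Y, p, rfl⟩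
        rw [Fb.ap p.2 a2, Fb.ap p.2 b.om, ← Fb.sub a1 (Fb.am hA a1)]
        refine Fb.rel2 b.om (Fb.am p.2 a2) (sub_mem a1 (Fb.am hA a1)) (Fb.am p.2 b.om)
          fun z hz => ?_
        have := res_adj E v (z * Y) (mul_mem (hZ z hz).1 p.1)
        rwa [st_l] at this
  obtain ⟨χ, -, c2, c3, -, c5⟩ := exists_chi
  have k : ∀ F : ℝ →ᵇ ℂ, HasCompactSupport F → E.Th F ∈ b.P ∧ b.π (E.Th F) = E'.Th F := by
    refine cpt_ind
      { carrier := {F | E.Th F ∈ b.P ∧ b.π (E.Th F) = E'.Th F}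
        mul_mem' := fun p q => by
          simp only [Set.mem_setOf_eq, map_mul]
          exact ⟨mul_mem p.1 q.1, by rw [Fb.π_mul p.1 q.1, p.2, q.2]⟩
        add_mem' := fun p q => by
          simp only [Set.mem_setOf_eq, map_add]
          exact ⟨add_mem p.1 q.1, by rw [Fb.π_add p.1 q.1, p.2, q.2]⟩
        algebraMap_mem' := fun a => by
          simp only [Set.mem_setOf_eq, AlgHomClass.commutes]
          exact ⟨algebraMap_mem _ a, b.hom.commutes a⟩ } ?_ ⟨hA, e0⟩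
    exact (b.cls.preimage (th_cont E)).isClosed_eq
      (b.cont.comp (th_cont E).continuousOn fun _ a => a) (th_cont E').continuousOn
  have m : ∀ t n, ∀ v ∈ b.L, E.U t (E.Th (χ n) v) ∈ b.L ∧
      b.φ (E.U t (E.Th (χ n) v)) = E'.U t (E'.Th (χ n) (b.φ v)) := fun t n v hv => by
    obtain ⟨p, q⟩ := k (expB t * χ n) (c2 n).mul_left
    simp only [ModData.U, ← ModData.gd_Th_mul, ← q]
    exact b.act _ p v hv
  have p : E.U t ∈ b.P := by
    refine sat _ (th_com E hZ _) {w | ∃ n, ∃ v ∈ b.L, w = E.Th (χ n) v} ?_ fun u => ?_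
    · rintro _ ⟨n, v, hv, rfl⟩
      exact ⟨Fb.am (k _ (c2 n)).1 hv, (m t n v hv).1, E.star_U t ▸ (m _ n v hv).1⟩
    · refine b.ind (p := fun u => u ∈ closure _) isClosed_closure (fun v hv => ?_) u
      refine mem_closure_of_tendsto (tendsto_chi E' c3 c5 _) (.of_forall fun n => ?_)
      exact Submodule.subset_span ⟨_, ⟨n, v, hv, rfl⟩, by
        rw [← (k _ (c2 n)).2, Fb.ap (k _ (c2 n)).1 hv]⟩
  refine ⟨p, b.ext' fun v hv => tendsto_nhds_unique
    (((b.π (E.U t)).continuous.tendsto _).comp (tendsto_chi E' c3 c5 _))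
    ((((E'.U t).continuous.tendsto _).comp (tendsto_chi E' c3 c5 _)).congr fun n => ?_)⟩
  simp only [Function.comp_apply]
  rw [← (m t n v hv).2, ← (k _ (c2 n)).2, Fb.ap (k _ (c2 n)).1 hv, Fb.ap p (Fb.am (k _ (c2 n)).1 hv)]

end

end Vale.Agent.N352.U
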