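import Vale.Agent.N352.GPf7
import Vale.Agent.N352.X.Kd

/-!
# N352, block U, row PFT: polynomial families through the true letters, graded theories
-/

set_option linter.all false

open Set Filter Topology
open scoped SchwartzMap ComplexConjugate

namespace Vale.Agent.N352.G

open Vale.Agent.P352X Vale.Agent.P352X.Pf
open Vale.Agent.P352 Vale.Agent.P352.GF Vale.Agent.P352.H15 Vale.Agent.P352.H755
open Vale.Agent.P352.H246 (In)
open Vale.Agent.P352.SubConf (IsAdj)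
open Vale.Agent.P352X.EG (Cg Sh)
open UniformSpace (Completion)
open Complex (I)
open TPD (TT)
open KDa (barL)
open G1 (Hs)
open EB (rh cph Reg Sg)
open EB.NA (pe Pol)
open EB.NA.Pe
open Real (exp)

noncomputable section

variable {D : Type*} [NormedAddCommGroup D] [InnerProductSpace ℂ D] {B B' : Fld D}

section letters

variable {c : Cg D} {K : Set V} {ξ ξ' : Completion D}

theorem Tr.symm (h : Tr c K ξ ξ') : Tr c K ξ' ξ := by
  induction h with
  | zero => exact .zero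
  | fld B B' f a b d hf =>
    have := Tr.fld B' B (bar f) b a (H755.adj_symm d) hf.bar
    rwa [Ap.bar_bar] at this
  | add _ _ _ _ _ _ a b => exact .add _ _ _ _ a b
  | smul z _ _ _ a =>
    have := Tr.smul (conj z) _ _ a
    rwa [Complex.conj_conj] at this

theorem Tr.sum {ι : Type*} (s : Finset ι) {f f' : ι → Completion D}
    (h : ∀ i ∈ s, Tr c K (f i) (f' i)) : Tr c K (∑ i ∈ s, f i) (∑ i ∈ s, f' i) := by
  classical
  induction s using Finset.induction_on with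
  | empty => exact .zero
  | insert i s hi ih =>
    simp only [Finset.sum_insert hi]
    exact .add _ _ _ _ (h i (Finset.mem_insert_self _ _))
      (ih fun j hj => h j (Finset.mem_insert_of_mem hj))

theorem Tr.pr (h : Tr c K ξ ξ') : Pr (c.N K) c.Om ξ ξ' := by
  induction h with
  | zero => exact Pr.zero
  | fld B B' f a b d hf => exact Sq.pr_Al (.fld B B' f _ _ a b d hf .one)
  | add _ _ _ _ _ _ a b => exact a.add b
  | smul z _ _ _ a => exact a.smul z

theorem pa_vac {e : Bool} (h : EG.Pa c e B) {f : Fn} (hf : IsTest f) :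
    c.Γ (B f c.Q.vac : D) = EG.sg e • ((B f c.Q.vac : D) : Completion D) := by
  rw [c.hN.ext, EG.Bas.pa' h hf, c.hN.vac, Completion.coe_smul]

/-- the grading maps true letters to true letters -/
theorem Tr.gam (h : Tr c K ξ ξ') : Tr c K (c.Γ ξ) (c.Γ ξ') := by
  induction h with
  | zero => simpa using Tr.zero
  | fld B B' f a b d hf =>
    obtain ⟨C0, C1, h0, h1, e⟩ := c.hN.split B a
    obtain ⟨C0', a0, d0⟩ := c.Q.adj C0 (c.Q.bose_fld _ h0)
    obtain ⟨C1', a1, d1⟩ := c.Q.adj C1 h1.1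
    have p0 : EG.Pa c false C0 := fun f v hf => by
      rw [c.hN.bose _ _ _ h0 hf]
      simp [EG.sg]
    have p1 : EG.Pa c true C1 := fun f v hf => by
      rw [h1.2 _ _ hf]
      simp [EG.sg]
    have e' : B' (bar f) c.Q.vac = C0' (bar f) c.Q.vac + C1' (bar f) c.Q.vac :=
      ext_inner_left ℂ fun v => by
        rw [inner_add_right, ← d f _ _ hf.1, ← d0 f _ _ hf.1, ← d1 f _ _ hf.1, e f _ hf.1,
          inner_add_left]
    rw [e f _ hf.1, e', Completion.coe_add, Completion.coe_add, map_add, map_add, pa_vac p0 hf.1,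
      pa_vac p1 hf.1, pa_vac (EG.Bas.padj _ _ _ d0 p0) hf.bar.1,
      pa_vac (EG.Bas.padj _ _ _ d1 p1) hf.bar.1]
    have := Tr.add _ _ _ _ (Tr.smul (EG.sg false) _ _ (.fld C0 C0' f (c.Q.bose_fld _ h0) a0 d0 hf))
      (Tr.smul (EG.sg true) _ _ (.fld (c := c) C1 C1' f h1.1 a1 d1 hf))
    rwa [EG.Bas.sgc, EG.Bas.sgc] at this
  | add _ _ _ _ _ _ a b => simpa only [map_add] using Tr.add _ _ _ _ a b
  | smul z _ _ _ a => simpa only [map_smul] using Tr.smul z _ _ a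

theorem Tr.gp (h : Tr c K ξ ξ') (e : Bool) : Tr c K (c.gp e ξ) (c.gp e ξ') := by
  cases e
  exacts [h, h.gam]

theorem uinv (g : Sh c) :
    ∃ e, ∀ z, g.U c (Ug c.Q g.toSg.inv.s g.toSg.inv.L g.toSg.inv.a z) = c.gp e z := by
  have a : Ip c (g.U c * Ug c.Q g.toSg.inv.s g.toSg.inv.L g.toSg.inv.a) fun z => z :=
    (Ip.mul (u := g.U c) ⟨g, rfl, fun _ => rfl⟩
      (ip_ug c g.toSg.inv.hs g.toSg.inv.hL _)).cast g.toSg.act_inv
  rcases (up_ip c).eq a (ip_one c) with k | k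
  · exact ⟨false, fun z => DFunLike.congr_fun k z⟩
  · exact ⟨true, fun z => DFunLike.congr_fun k z⟩

theorem U_vac {u γ : Completion D →L[ℂ] Completion D} {g : Sg}
    (he : ∀ z, u (Ug c.Q g.s g.L g.a z) = γ z) {n : ℕ} {κ : Fin n → ℂ} {C : Fin n → Fld D} {f : Fn}
    (h : B f (c.Q.U g.s g.L g.a c.Q.vac) =
      ∑ i, κ i • c.Q.U g.s g.L g.a (C i (g.pull f) c.Q.vac)) :
    u (B f c.Q.vac : D) = ∑ i, κ i • γ (C i (g.pull f) c.Q.vac : D) := by
  rw [c.Q.U_vac _ _ _ g.hs g.hL] at h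
  rw [h, ← Completion.coe_toComplL (𝕜 := ℂ), map_sum, map_sum]
  refine Finset.sum_congr rfl fun i _ => ?_
  rw [map_smul, map_smul, Completion.coe_toComplL, ← Grp.coe g.hs g.hL, he]

end letters

namespace Pf

variable {c : Ctx D} {φ φ' ψ ψ' : TT D} {g : Sh c.toCg} {l : ℂ}

theorem fld_lin (h : c.Q.fld B) (f g : Sch) (a : ℂ) :
    B (ev (f + a • g)) c.Q.vac = B (ev f) c.Q.vac + a • B (ev g) c.Q.vac :=
  c.Q.lin B (ev f) (ev g) a c.Q.vac h ⟨f, rfl⟩ ⟨g, rfl⟩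

/-- fields applied to the vacuum -/
def fv (h : c.Q.fld B) : TT D := Completion.toComplL ∘L
  ⟨⟨⟨fun f => B (ev f) c.Q.vac, fun f g => by simpa using fld_lin h f g 1⟩, fun a f => by
    have z : B (ev 0) c.Q.vac = 0 := by simpa using fld_lin h 0 0 1
    simpa [z] using fld_lin h 0 f a⟩, c.Q.cont B _ h⟩

theorem fv_apply (h : c.Q.fld B) (f : Sch) : fv h f = (B (ev f) c.Q.vac : D) := rfl

theorem fv_tc (h : c.Q.fld B) : TC c (fv h) := fun a f => by
  have := c.Q.transl B a (ev (ST.tsl a f)) c.Q.vac h ⟨_, rfl⟩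
  rw [c.Q.U_vac _ _ _ one_pos H496.isLor_one] at this
  rw [fv_apply, fv_apply, this, EG.SGx.ut_coe]
  congr 3
  funext z
  simp [ev, ST.tsl_apply, sim_ut]

theorem TC.gp (h : TC c φ) (e : Bool) : TC c (c.gp e ∘L φ) := fun a f => by
  cases e
  · exact h a f
  · exact (DFunLike.congr_fun (ip_ut c.toCg a).ev (φ f)).symm.trans (congrArg c.Γ (h a f))

/-- pairs of true letters -/
def TrP (c : Ctx D) (φ φ' : TT D) : Prop :=
  ∀ K f, In K f → Tr c.toCg K (φ (sch f)) (φ' (sch (bar f)))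

theorem TrP.symm (h : TrP c φ φ') : TrP c φ' φ := fun K f hf => by
  simpa only [Ap.bar_bar] using (h K _ hf.bar).symm

theorem TrP.add (h : TrP c φ φ') (h' : TrP c ψ ψ') : TrP c (φ + ψ) (φ' + ψ') :=
  fun K f hf => .add _ _ _ _ (h K f hf) (h' K f hf)

theorem TrP.smul (z : ℂ) (h : TrP c φ φ') : TrP c (z • φ) (star z • φ') :=
  fun K f hf => .smul z _ _ (h K f hf)

theorem TrP.gp (h : TrP c φ φ') (e : Bool) : TrP c (c.gp e ∘L φ) (c.gp e ∘L φ') :=
  fun K f hf => (h K f hf).gp e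

theorem TrP.lc (h : TrP c φ φ') : Lc c φ φ' := fun r _ f h1 h2 => by
  have := (h _ (ev f) ⟨⟨f, rfl⟩, h1, h2⟩).pr
  rwa [Ap.sch_ev, ← KDa.ev_barL, Ap.sch_ev] at this

theorem fv_tr (h : c.Q.fld B) (h' : c.Q.fld B') (a : IsAdj B B') : TrP c (fv h) (fv h') :=
  fun K f hf => by
  rw [fv_apply, fv_apply, Ap.ev_sch hf.1, Ap.ev_sch hf.bar.1]
  exact .fld _ _ _ h h' a hf

/-- the orbit of a field -/
def Ob (c : Ctx D) (B : Fld D) (g : Sh c.toCg) (ψ : TT D) : Prop :=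
  ∀ f, ψ f = g.U c.toCg (B (g.pull (ev f)) c.Q.vac : D)

theorem ob_ac {u : Completion D →L[ℂ] Completion D} {e : V ≃L[ℝ] V} (k : Ip c.toCg u e)
    (h : Ob c B g ψ ∨ Ob c B' g ψ) : ∃ g, Ob c B g (ac u e ψ) ∨ Ob c B' g (ac u e ψ) := by
  obtain ⟨k, rfl, he⟩ := k
  have a : ∀ {B}, Ob c B g ψ → Ob c B (k.mul g) (ac (k.U _) e ψ) := fun h f => by
    rw [ac_apply, h, EG.SGx.U_mul, show g.pull (ev (pL e f)) = (k.mul g).pull (ev f) from
      funext fun z => congrArg f ((he _).symm.trans (k.toSg.act_mul g.toSg _).symm)]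
    rfl
  exact ⟨_, h.imp a a⟩

theorem Ob.unique (h : Ob c B g ψ) (h' : Ob c B g ψ') : ψ = ψ' :=
  ContinuousLinearMap.ext fun f => (h f).trans (h' f).symm

theorem start (hc : COV c.Q) (hB : c.Q.fld B) (hB' : c.Q.fld B') (hA : IsAdj B B') :
    ∃ F, Fam c F ∧ fv hB ∈ F ∧ ∀ ψ ∈ F, ∃ ψ' ∈ F, TrP c ψ ψ' := by
  obtain ⟨-, n, C, C', κ, h1, -, h2⟩ := hc B B' hB hB' hA
  have s := EG.sg_row c.toCg
  choose e he using uinv (c := c.toCg)
  have p : ∀ (g : Sg) (f : Sch), g.inv.pull (g.pull (ev f)) = ev f := fun g f =>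
    funext fun z => congrArg f (g.act_inv z)
  have o : ∀ g : Sh c.toCg, Ob c B g (∑ i, κ g.toSg.inv i • c.gp (e g) ∘L fv (h1 i).1) ∧
      Ob c B' g (∑ i, star (κ g.toSg.inv i) • c.gp (e g) ∘L fv (h1 i).2.1) := fun g =>
    ⟨fun f => by
      rw [U_vac (he g) (h2 g.toSg.inv _ _ (s.test g _ ⟨f, rfl⟩)).1, p]
      simp [fv_apply], fun f => by
      rw [U_vac (he g) (h2 g.toSg.inv _ _ (s.test g _ ⟨f, rfl⟩)).2, p]
      simp [fv_apply]⟩
  have tr : ∀ g : Sh c.toCg, TrP c (∑ i, κ g.toSg.inv i • c.gp (e g) ∘L fv (h1 i).1)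
      (∑ i, star (κ g.toSg.inv i) • c.gp (e g) ∘L fv (h1 i).2.1) := fun g K f hf => by
    simp only [ContinuousLinearMap.sum_apply]
    exact Tr.sum _ fun i _ => ((fv_tr _ _ (h1 i).2.2).gp _).smul _ K f hf
  let S := {ψ | ∃ g, Ob c B g ψ ∨ Ob c B' g ψ}
  let R := range (fun i : Bool × Fin n => c.gp i.1 ∘L fv (h1 i.2).1) ∪
    range fun i : Bool × Fin n => c.gp i.1 ∘L fv (h1 i.2).2.1
  have le : Submodule.span ℂ S ≤ Submodule.span ℂ R := Submodule.span_le.2 <| by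
    rintro ψ ⟨g, h | h⟩
    · exact h.unique (o g).1 ▸ Submodule.sum_mem _ fun i _ =>
        Submodule.smul_mem _ _ (Submodule.subset_span (.inl ⟨(e g, i), rfl⟩))
    · exact h.unique (o g).2 ▸ Submodule.sum_mem _ fun i _ =>
        Submodule.smul_mem _ _ (Submodule.subset_span (.inr ⟨(e g, i), rfl⟩))
  have tc : ∀ ψ ∈ Submodule.span ℂ R, TC c ψ := fun ψ hψ => by
    induction hψ using Submodule.span_induction with
    | mem _ h => rcases h with ⟨i, rfl⟩ | ⟨i, rfl⟩ <;> exact (fv_tc _).gp _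
    | zero => exact .zero
    | add _ _ _ _ a b => exact a.add b
    | smul z _ _ a => exact a.smul z
  have par : ∀ ψ ∈ Submodule.span ℂ S, ∃ ψ' ∈ Submodule.span ℂ S, TrP c ψ ψ' := fun ψ hψ => by
    induction hψ using Submodule.span_induction with
    | mem _ h =>
      obtain ⟨g, h | h⟩ := h
      · exact ⟨_, Submodule.subset_span ⟨g, .inr (o g).2⟩, h.unique (o g).1 ▸ tr g⟩
      · exact ⟨_, Submodule.subset_span ⟨g, .inl (o g).1⟩, h.unique (o g).2 ▸ (tr g).symm⟩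
    | zero => exact ⟨0, zero_mem _, fun _ _ _ => .zero⟩
    | add _ _ _ _ a b =>
      obtain ⟨_, a1, a2⟩ := a
      obtain ⟨_, b1, b2⟩ := b
      exact ⟨_, add_mem a1 b1, a2.add b2⟩
    | smul z _ _ a =>
      obtain ⟨_, a1, a2⟩ := a
      exact ⟨_, Submodule.smul_mem _ _ a1, a2.smul z⟩
  haveI := FiniteDimensional.span_of_finite ℂ (A := R) ((finite_range _).union (finite_range _))
  refine ⟨Submodule.span ℂ S, ⟨Submodule.finiteDimensional_of_le le, fun ψ hψ => ?_⟩,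
    Submodule.subset_span ⟨Sh.gm _ false, .inl fun f => ?_⟩, par⟩
  · induction hψ using Submodule.span_induction with
    | mem ψ h =>
      have m := Submodule.subset_span (R := ℂ) h
      obtain ⟨g, h⟩ := h
      have v : ∀ f, ∃ v : D, ψ f = v := fun f => by
        rcases h with h | h <;> exact (s.sur g _).imp fun _ k => (h f).trans k
      refine ⟨tc ψ (le m), (par ψ m).imp fun _ a => ⟨a.1, a.2.lc⟩,
        fun x y => Submodule.subset_span (ob_ac ((ip_sc _ (Real.exp_pos x) (Real.exp_pos y)).cast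
          fun z => by simp) h),
        fun w => Submodule.subset_span (ob_ac ((ip_ga _ w).cast fun z => by simp) h),
        fun x y f => ?_, fun i f => ?_⟩
      · obtain ⟨v, hv⟩ := v f
        exact hv ▸ Sq.dm_sc _ x y v
      · obtain ⟨v, hv⟩ := v f
        exact hv ▸ Sq.dm_ga _ (e2 i) v
    | zero => exact .zero
    | add _ _ _ _ a b => exact a.add b
    | smul z _ _ a => exact a.smul z
  · rw [(s.gm false).1, show (Sh.gm c.toCg false).pull (ev f) = ev f from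
      funext fun z => congrArg f ((s.gm false).2 z)]
    rfl

/-- polynomial families -/
def PQ (c : Ctx D) (φ φ' : TT D) : Prop := ∃ N : ℕ, ∀ f, In {z | be z < 0} f →
  ∃ η η' : ℝ → Completion D, η 0 = φ (sch f) ∧ η' 0 = φ' (sch (bar f)) ∧
    (∀ t, 0 ≤ t → Reg (-t) f → Tr c.toCg (cph t '' tsupport f) (η t) (η' t)) ∧
    Pol N {t | 0 ≤ t ∧ Reg (-t) f} (fun t => c.SK t (η t)) ∧
    Pol N {t | 0 ≤ t ∧ Reg (-t) f} fun t => c.SK t (η' t)

theorem PQ.lin (h : PQ c φ φ') (h' : PQ c ψ ψ') (z : ℂ) :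
    PQ c (φ + z • ψ) (φ' + star z • ψ') := by
  obtain ⟨N, h⟩ := h
  obtain ⟨M, h'⟩ := h'
  refine ⟨max N M, fun f hf => ?_⟩
  obtain ⟨η, η', a1, a2, a3, a4, a5⟩ := h f hf
  obtain ⟨ζ, ζ', b1, b2, b3, b4, b5⟩ := h' f hf
  refine ⟨fun t => η t + z • ζ t, fun t => η' t + star z • ζ' t, by simp [a1, b1], by simp [a2, b2],
    fun t p q => .add _ _ _ _ (a3 t p q) (.smul z _ _ (b3 t p q)), ?_, ?_⟩
  · simpa using (a4.mono (le_max_left _ _)).add ((b4.mono (le_max_right _ _)).smul z)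
  · simpa using (a5.mono (le_max_left _ _)).add ((b5.mono (le_max_right _ _)).smul (star z))

theorem PQ.zero : PQ c 0 0 := ⟨0, fun _ _ => ⟨0, 0, rfl, rfl, fun _ _ _ => .zero,
  by simpa using Pol.zero, by simpa using Pol.zero⟩⟩

theorem Ev.pq (t : T2 c) (E : N352.U.EEt c) (h : Ev c l φ) (h' : φ' ∈ WW c) (k : TrP c φ φ') :
    PQ c φ φ' := by
  refine ⟨⌈l.re⌉₊, fun f hf => ⟨fun s => φ (sch (pe (l.re - 4 - ⌈l.re⌉₊) (-s) f)),
    fun s => φ' (sch (pe (l.re - 4 - ⌈l.re⌉₊) (-s) (bar f))), by simp, by simp, fun s _ r => ?_,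
    h.pol t E (Nat.le_ceil _) hf, ?_⟩⟩
  · simpa only [pe_bar, neg_neg] using k _ _ (in_img hf r)
  · have := (h.lc t h' k.lc).pol t E (N := ⌈l.re⌉₊) (Nat.le_ceil _) hf.bar
    simp only [Reg, show tsupport (bar f) = tsupport f from Ap.tsupport_conj f] at this
    exact this

end Pf

end

end Vale.Agent.N352.G

namespace Vale.Agent.N352.U

open Vale.Agent.P352X G G.Pf

theorem eet_of {D : Type*} [NormedAddCommGroup D] [InnerProductSpace ℂ D] {c : G.Ctx D}
    (h : G.EE c) : EEt c := fun lo hi ψ Φ Λ a b d => h lo hi ψ (fun u hu => by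
  obtain ⟨g, e⟩ := b u hu
  refine ((gn_Ky (k := Ut c.Q (u • vb) (Λ g)) _).2 ?_).dm
  rw [e, Sq.ut_apply, neg_add_cancel, Grp.ut0]
  exact a g) d

/-- **row PFT** -/
theorem pft {D : Type*} [NormedAddCommGroup D] [InnerProductSpace ℂ D] (c : G.Ctx D) : PFT c :=
  fun g E hc B B' hB hB' hA => by
  have t : T2 c := ⟨g, X.Kd.kd_a g, X.Kd.kd_a2 g⟩
  obtain ⟨F, hF, m, par⟩ := start hc hB hB' hA
  have k : ∀ ψ ∈ Submodule.span ℂ {ψ | ψ ∈ F ∧ ∃ l, Ev c l ψ},
      ∃ ψ' ∈ F, TrP c ψ ψ' ∧ PQ c ψ ψ' := fun ψ hψ => by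
    induction hψ using Submodule.span_induction with
    | mem ψ h =>
      obtain ⟨a, l, b⟩ := h
      obtain ⟨ψ', p, q⟩ := par ψ a
      exact ⟨ψ', p, q, b.pq t E (hF.le p) q⟩
    | zero => exact ⟨0, zero_mem _, fun _ _ _ => .zero, .zero⟩
    | add _ _ _ _ a b =>
      obtain ⟨_, a1, a2, a3⟩ := a
      obtain ⟨_, b1, b2, b3⟩ := b
      exact ⟨_, add_mem a1 b1, a2.add b2, by simpa using a3.lin b3 1⟩
    | smul z _ _ a =>
      obtain ⟨_, a1, a2, a3⟩ := a
      exact ⟨_, F.smul_mem _ a1, a2.smul z, by simpa using PQ.zero.lin a3 z⟩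
  obtain ⟨ψ', p, q, N, h⟩ := k _ (hF.dec t E m)
  rw [q.lc.unique (fv_tr hB hB' hA).lc (hF.mb _ p).tc (fv_tc _)] at h
  refine ⟨N, fun f hf => ?_⟩
  simpa only [fv_apply, Ap.ev_sch hf.1, Ap.ev_sch hf.bar.1] using h f hf

end Vale.Agent.N352.U
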