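import Vale.Agent.N352.U.A3

/-!
# N352, block U: restriction of fibres
-/

set_option linter.all false

open MeasureTheory Filter Topology
open scoped ComplexConjugate SchwartzMap
open UniformSpace (Completion)
open ContinuousLinearMap (adjoint)

namespace Vale.Agent.N352.U

open Vale.Agent.P352X

noncomputable section

variable {H K K' : Type*} [NormedAddCommGroup H] [InnerProductSpace ℂ H] [CompleteSpace H]
  [NormedAddCommGroup K] [InnerProductSpace ℂ K] [CompleteSpace K]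
  [NormedAddCommGroup K'] [InnerProductSpace ℂ K'] [CompleteSpace K']
  {Z : VonNeumannAlgebra H} {Ω : H} {v w : H} {A B : H →L[ℂ] H}

/-- a countable total family of test functions -/
theorem ex_tot (E : Type) [NormedAddCommGroup E] [NormedSpace ℝ E] [FiniteDimensional ℝ E] :
    ∃ a : ℕ → 𝓢(E, ℂ), ∀ T : 𝓢(E, ℂ) →L[ℂ] ℂ, (∀ j, T (a j) = 0) → ∀ f, T f = 0 := by
  borelize E
  let lam : E ≃L[ℝ] EuclideanSpace ℝ (Fin (Module.finrank ℝ E)) := toEuclidean
  obtain ⟨φ, ψ, h1, h2⟩ := Wk.ex_pair (volume.map lam.symm)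
  refine ⟨fun j => Wk.atm lam ψ (TopologicalSpace.denseSeq _ j), fun T hT f => ?_⟩
  have := (TopologicalSpace.denseRange_denseSeq _).induction_on (p := fun p => T (Wk.atm lam ψ p) = 0)
  simp only [Wk.recon lam rfl h1 h2 T f, this _ (isClosed_eq (T.continuous.comp
    (Wk.continuous_atm lam ψ)) continuous_const) hT, smul_zero, integral_zero]

/-- the total family -/
def tot (E : Type) [NormedAddCommGroup E] [NormedSpace ℝ E] [FiniteDimensional ℝ E] :
    ℕ → 𝓢(E, ℂ) := (ex_tot E).choose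

theorem tot_mem {E : Type} [NormedAddCommGroup E] [NormedSpace ℝ E] [FiniteDimensional ℝ E]
    (Λ : 𝓢(E, ℂ) →L[ℂ] K) (M : Submodule ℂ K) (h : ∀ j, Λ (tot E j) ∈ M.topologicalClosure) (f) :
    Λ f ∈ M.topologicalClosure := by
  rw [← Submodule.orthogonal_orthogonal_eq_closure] at h ⊢
  exact fun u hu => (ex_tot E).choose_spec (innerSL ℂ u ∘L Λ) (fun j => h j u hu) f

omit [InnerProductSpace ℂ H] [CompleteSpace H] in
theorem ex_fast {s : Set H} (hv : v ∈ closure s) :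
    ∃ d : ℕ → H, (∀ n, d n ∈ s) ∧ Summable fun n => ‖v - d n‖ ^ 2 := by
  choose d a b using fun n : ℕ => Metric.mem_closure_iff.1 hv ((1 / 2) ^ n) (by positivity)
  refine ⟨d, a, .of_nonneg_of_le (fun _ => sq_nonneg _) (fun n => ?_) summable_geometric_two⟩
  have := (b n).le
  rw [dist_eq_norm] at this
  nlinarith [norm_nonneg (v - d n), pow_le_one₀ (n := n) (show (0 : ℝ) ≤ 1 / 2 by norm_num)
    (by norm_num)]

namespace Fb

variable (b : Fb Z Ω K)

theorem ind {p : K → Prop} (hp : IsClosed {u | p u}) (h : ∀ v ∈ b.L, p (b.φ v)) (u : K) : p u :=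
  b.dns.induction (P := p) (by rintro _ ⟨v, a, rfl⟩; exact h v a) hp u

theorem ext' {X Y : K →L[ℂ] K} (h : ∀ v ∈ b.L, X (b.φ v) = Y (b.φ v)) : X = Y :=
  ContinuousLinearMap.ext <| b.ind (isClosed_eq X.continuous Y.continuous) h

theorem zero : b.φ 0 = 0 := by simpa using b.smul 0 0 (zero_mem _)

/-- the values of the vectors, as a linear map -/
def lin : b.L →ₗ[ℂ] K where
  toFun v := b.φ v
  map_add' v w := b.add _ v.2 _ w.2
  map_smul' a v := b.smul a _ v.2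

variable {b}

theorem sub (hv : v ∈ b.L) (hw : w ∈ b.L) : b.φ (v - w) = b.φ v - b.φ w :=
  b.lin.map_sub ⟨v, hv⟩ ⟨w, hw⟩

theorem sum {ι : Type*} (s : Finset ι) {f : ι → H} (h : ∀ i, f i ∈ b.L) :
    b.φ (∑ i ∈ s, f i) = ∑ i ∈ s, b.φ (f i) := by
  refine Eq.trans ?_ (map_sum b.lin (fun i => ⟨f i, h i⟩) s)
  exact congrArg b.φ (Submodule.coe_sum b.L (fun i => ⟨f i, h i⟩) s).symm

theorem rel2 {a1 b1 a2 b2 : H} (p1 : a1 ∈ b.L) (q1 : b1 ∈ b.L) (p2 : a2 ∈ b.L) (q2 : b2 ∈ b.L)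
    (h : ∀ z ∈ Z, inner ℂ a1 (z b1) = inner ℂ a2 (z b2)) :
    inner ℂ (b.φ a1) (b.φ b1) = inner ℂ (b.φ a2) (b.φ b2) := by
  simpa [b.zero] using b.rel a1 p1 b1 q1 0 (zero_mem _) 0 (zero_mem _) a2 p2 b2 q2 (by simpa using h)

theorem ap (hA : A ∈ b.P) (hv : v ∈ b.L) : b.π A (b.φ v) = b.φ (A v) := (b.act A hA v hv).2.symm

theorem am (hA : A ∈ b.P) (hv : v ∈ b.L) : A v ∈ b.L := (b.act A hA v hv).1

theorem π_mul (hA : A ∈ b.P) (hB : B ∈ b.P) : b.π (A * B) = b.π A * b.π B := b.ext' fun v hv => by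
  rw [ap (mul_mem hA hB) hv, ContinuousLinearMap.mul_apply, ContinuousLinearMap.mul_apply,
    ap hB hv, ap hA (am hB hv)]

theorem π_add (hA : A ∈ b.P) (hB : B ∈ b.P) : b.π (A + B) = b.π A + b.π B := b.ext' fun v hv => by
  rw [ap (add_mem hA hB) hv, ContinuousLinearMap.add_apply, ContinuousLinearMap.add_apply,
    ap hB hv, ap hA hv, b.add _ (am hA hv) _ (am hB hv)]

theorem π_smul (a : ℂ) (hA : A ∈ b.P) : b.π (a • A) = a • b.π A := b.ext' fun v hv => by
  rw [ap (b.P.smul_mem hA a) hv, ContinuousLinearMap.smul_apply, ContinuousLinearMap.smul_apply,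
    ap hA hv, b.smul _ _ (am hA hv)]

theorem π_one : b.π 1 = 1 := b.ext' fun v hv => ap (one_mem _) hv

theorem π_star (hA : A ∈ b.P) : b.π (star A) = star (b.π A) := b.ext' fun v hv =>
  ext_inner_left ℂ <| b.ind (isClosed_eq (by fun_prop) (by fun_prop)) fun w hw => by
    rw [st_r, ap hA hw, ap (star_mem hA) hv]
    exact rel2 hw (am (star_mem hA) hv) (am hA hw) hv fun z hz => by
      rw [cm hz (star_mem (b.le A hA)), st_r]

variable (b)

/-- the values of the operators, as a homomorphism -/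
def hom : b.P →⋆ₐ[ℂ] K →L[ℂ] K where
  toFun A := b.π A
  map_one' := π_one
  map_mul' A B := π_mul A.2 B.2
  map_zero' := by simpa using π_smul 0 (one_mem b.P)
  map_add' A B := π_add A.2 B.2
  commutes' a := by
    simp only [Algebra.algebraMap_eq_smul_one]
    exact (π_smul a (one_mem b.P)).trans (by rw [π_one])
  map_star' A := π_star A.2

theorem π_sub (hA : A ∈ b.P) (hB : B ∈ b.P) : b.π (A - B) = b.π A - b.π B :=
  map_sub b.hom ⟨A, hA⟩ ⟨B, hB⟩

theorem cont : ContinuousOn b.π b.P := (LipschitzOnWith.of_dist_le_mul (K := 1) fun A a B c => by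
  rw [dist_eq_norm, dist_eq_norm, ← b.π_sub a c, NNReal.coe_one, one_mul]
  exact b.nle _ (sub_mem a c)).continuousOn

/-- operators that preserve a total set have a value -/
def Sat : Prop := ∀ Y ∈ Z.commutant, ∀ s : Set H, (∀ v ∈ s, v ∈ b.L ∧ Y v ∈ b.L ∧ star Y v ∈ b.L) →
  Dense (Submodule.span ℂ (b.φ '' s) : Set K) → Y ∈ b.P

variable (j : K' →ₗᵢ[ℂ] K)

theorem jj (u : K') : adjoint j.toContinuousLinearMap (j u) = u := ext_inner_left ℂ fun w => by
  rw [ContinuousLinearMap.adjoint_inner_right]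
  exact j.inner_map_map _ _

theorem jj' {u : K} (h : u ∈ Set.range j) : j (adjoint j.toContinuousLinearMap u) = u := by
  obtain ⟨w, rfl⟩ := h
  rw [jj]

theorem jcl : IsClosed (Set.range j) := j.isometry.isClosedEmbedding.isClosed_range

/-- the restriction of a fibre to a subspace -/
def res (h0 : b.φ Ω ∈ Set.range j)
    (hd : Dense ((fun v => adjoint j.toContinuousLinearMap (b.φ v)) ''
      {v | v ∈ b.L ∧ b.φ v ∈ Set.range j})) : Fb Z Ω K' where
  L := ((LinearMap.range j.toLinearMap).comap b.lin).map b.L.subtype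
  φ v := adjoint j.toContinuousLinearMap (b.φ v)
  P :=
    { carrier := {Y | Y ∈ b.P ∧ ∀ u, b.π Y (j u) ∈ Set.range j ∧ b.π (star Y) (j u) ∈ Set.range j}
      mul_mem' := fun {A B} a c => ⟨mul_mem a.1 c.1, fun u => by
        obtain ⟨⟨u1, e1⟩, -⟩ := c.2 u
        obtain ⟨-, u2, e2⟩ := a.2 u
        rw [star_mul, π_mul a.1 c.1, π_mul (star_mem c.1) (star_mem a.1)]
        simp only [ContinuousLinearMap.mul_apply, ← e1, ← e2]
        exact ⟨(a.2 _).1, (c.2 _).2⟩⟩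
      add_mem' := fun {A B} a c => ⟨add_mem a.1 c.1, fun u => by
        rw [star_add, π_add a.1 c.1, π_add (star_mem a.1) (star_mem c.1)]
        exact ⟨(LinearMap.range j.toLinearMap).add_mem (a.2 u).1 (c.2 u).1,
          (LinearMap.range j.toLinearMap).add_mem (a.2 u).2 (c.2 u).2⟩⟩
      algebraMap_mem' := fun a => ⟨algebraMap_mem _ a, fun u => by
        rw [Algebra.algebraMap_eq_smul_one, star_smul, star_one, π_smul _ (one_mem _),
          π_smul _ (one_mem _), π_one]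
        exact ⟨⟨a • u, by simp⟩, ⟨star a • u, by simp⟩⟩⟩
      star_mem' := fun {A} a => ⟨star_mem a.1, fun u => ⟨(a.2 u).2, by
        rw [star_star]; exact (a.2 u).1⟩⟩ }
  π Y := adjoint j.toContinuousLinearMap ∘L b.π Y ∘L j.toContinuousLinearMap
  χ := b.χ
  om := ⟨⟨Ω, b.om⟩, h0, rfl⟩
  nrm := by rw [← j.norm_map, jj' j h0, b.nrm]
  add := by
    rintro _ ⟨v, -, rfl⟩ _ ⟨w, -, rfl⟩
    exact (congrArg _ (b.add _ v.2 _ w.2)).trans (map_add _ _ _)
  smul := by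
    rintro a _ ⟨v, -, rfl⟩
    exact (congrArg _ (b.smul a _ v.2)).trans (map_smul _ _ _)
  dns := hd.mono (Set.image_mono fun v a => ⟨⟨v, a.1⟩, a.2, rfl⟩)
  le Y a := b.le Y a.1
  zp z hz := by
    refine ⟨⟨(b.zp z hz).1, fun u => ?_⟩, ContinuousLinearMap.ext fun u => ?_⟩
    · rw [(b.zp z hz).2, (b.zp _ (star_mem hz)).2]
      exact ⟨⟨b.χ z • u, by simp⟩, ⟨b.χ (star z) • u, by simp⟩⟩
    · simp [(b.zp z hz).2, jj]
  act := by
    rintro Y a _ ⟨v, ⟨u, e⟩, rfl⟩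
    have e : j u = b.φ v := e
    refine ⟨⟨⟨_, am a.1 v.2⟩, ?_, rfl⟩, ?_⟩
    · show b.φ (Y v) ∈ Set.range j
      rw [← ap a.1 v.2, ← e]
      exact (a.2 u).1
    · show adjoint _ (b.φ (Y v)) = adjoint _ (b.π Y (j (adjoint _ (b.φ v))))
      rw [← ap a.1 v.2, ← e, jj]
  nle Y a := ContinuousLinearMap.opNorm_le_bound _ (norm_nonneg _) fun u => by
    show ‖adjoint _ (b.π Y (j u))‖ ≤ _
    rw [← j.norm_map, jj' j (a.2 u).1, ← j.norm_map u]
    exact ((b.π Y).le_opNorm _).trans (mul_le_mul_of_nonneg_right (b.nle Y a.1) (norm_nonneg _))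
  cls := by
    have k : ∀ (u : K') (g : (H →L[ℂ] H) → H →L[ℂ] H), Continuous g → (∀ Y ∈ b.P, g Y ∈ b.P) →
        IsClosed ((b.P : Set _) ∩ (fun Y => b.π (g Y) (j u)) ⁻¹' Set.range j) := fun u g hg hP =>
      (((ContinuousLinearMap.apply ℂ K (j u)).continuous.comp_continuousOn
        (b.cont.comp hg.continuousOn hP))).preimage_isClosed_of_isClosed b.cls (jcl j)
    refine (congrArg IsClosed (Set.ext fun Y => ?_)).mp (isClosed_iInter fun u =>
      (k u id continuous_id fun _ a => a).inter (k u star continuous_star fun _ a => star_mem a))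
    exact ⟨fun a => ⟨(Set.mem_iInter.1 a 0).1.1, fun u =>
        ⟨(Set.mem_iInter.1 a u).1.2, (Set.mem_iInter.1 a u).2.2⟩⟩,
      fun a => Set.mem_iInter.2 fun u => ⟨⟨a.1, (a.2 u).1⟩, a.1, (a.2 u).2⟩⟩
  rel := by
    rintro _ ⟨a1, p1, rfl⟩ _ ⟨b1, q1, rfl⟩ _ ⟨a2, p2, rfl⟩ _ ⟨b2, q2, rfl⟩ _ ⟨a3, p3, rfl⟩ _
      ⟨b3, q3, rfl⟩ e
    simp only [← j.inner_map_map, Submodule.subtype_apply]
    have k : ∀ {a : b.L}, a ∈ (LinearMap.range j.toLinearMap).comap b.lin →
      j (adjoint j.toContinuousLinearMap (b.φ a)) = b.φ a := fun a => jj' j a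
    rw [k p1, k q1, k p2, k q2, k p3, k q3]
    exact b.rel _ a1.2 _ b1.2 _ a2.2 _ b2.2 _ a3.2 _ b3.2 e

variable {b j} {h0 hd}

theorem res_L : v ∈ (b.res j h0 hd).L ↔ v ∈ b.L ∧ b.φ v ∈ Set.range j :=
  ⟨by rintro ⟨v, a, rfl⟩; exact ⟨v.2, a⟩, fun a => ⟨⟨v, a.1⟩, a.2, rfl⟩⟩

theorem res_φ (hv : v ∈ (b.res j h0 hd).L) : j ((b.res j h0 hd).φ v) = b.φ v :=
  jj' j (res_L.1 hv).2

theorem res_sat (hP : ∀ Y ∈ Z.commutant, Y ∈ b.P) : (b.res j h0 hd).Sat := fun Y hY s hs d => by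
  have k : ∀ Y ∈ Z.commutant, (∀ v ∈ s, Y v ∈ (b.res j h0 hd).L) → ∀ u,
      b.π Y (j u) ∈ Set.range j := fun Y hY h u => by
    refine d.induction (P := fun u => b.π Y (j u) ∈ Set.range j) (fun u hu => ?_)
      ((jcl j).preimage ((b.π Y).continuous.comp j.continuous)) u
    refine (Submodule.span_le (p := (LinearMap.range j.toLinearMap).comap
      ((b.π Y).toLinearMap ∘ₗ j.toLinearMap))).2 ?_ hu
    rintro _ ⟨v, a, rfl⟩
    show b.π Y (j _) ∈ Set.range j
    rw [res_φ (hs v a).1, ap (hP Y hY) (res_L.1 (hs v a).1).1]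
    exact (res_L.1 (h v a)).2
  exact ⟨hP Y hY, fun u => ⟨k Y hY (fun v a => (hs v a).2.1) u,
    k _ (star_mem hY) (fun v a => (hs v a).2.2) u⟩⟩

variable (b) (D0 : Submodule ℂ H)

/-- the values of the vectors of `D0` -/
def Ex : Submodule ℂ K := (D0.comap b.L.subtype).map b.lin

/-- the embedding of the completion -/
def jx : Completion (b.Ex D0) →ₗᵢ[ℂ] K where
  toLinearMap := (b.Ex D0).subtypeL.fromCompletion.toLinearMap
  norm_map' u := Completion.induction_on u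
    (isClosed_eq (b.Ex D0).subtypeL.fromCompletion.continuous.norm continuous_norm) fun u => by simp

theorem jx_coe (u : b.Ex D0) : b.jx D0 u = u := (b.Ex D0).subtypeL.fromCompletion_apply_coe u

theorem jx_range {u : K} : u ∈ Set.range (b.jx D0) ↔ u ∈ (b.Ex D0).topologicalClosure :=
  ⟨by
    rintro ⟨u, rfl⟩
    exact Completion.induction_on u ((Submodule.isClosed_topologicalClosure _).preimage
      (b.jx D0).continuous) fun u => b.jx_coe D0 u ▸ Submodule.le_topologicalClosure _ u.2,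
  fun a => closure_minimal (t := Set.range (b.jx D0)) (fun u hu =>
    ⟨((⟨u, hu⟩ : b.Ex D0) : Completion (b.Ex D0)), b.jx_coe D0 _⟩) (jcl _) a⟩

variable {D0}

theorem Ex_mem (hv : v ∈ D0) (hL : v ∈ b.L) : b.φ v ∈ b.Ex D0 := ⟨⟨v, hL⟩, hv, rfl⟩

/-- the restriction to the closure of the values of `D0` -/
def rs (h : Ω ∈ D0) : Fb Z Ω (Completion (b.Ex D0)) :=
  b.res (b.jx D0) ((b.jx_range D0).2 (Submodule.le_topologicalClosure _ (b.Ex_mem h b.om)))
    (Completion.denseRange_coe.mono (by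
      rintro _ ⟨⟨_, v, a, rfl⟩, rfl⟩
      exact ⟨v, ⟨v.2, _, b.jx_coe D0 ⟨_, v, a, rfl⟩⟩, (congrArg _ (b.jx_coe D0
        ⟨_, v, a, rfl⟩).symm).trans (jj _ _)⟩))

variable {b} {h : Ω ∈ D0}

theorem rs_L : v ∈ (b.rs h).L ↔ v ∈ b.L ∧ b.φ v ∈ (b.Ex D0).topologicalClosure :=
  res_L.trans (and_congr_right' (b.jx_range D0))

theorem rs_j (hv : v ∈ (b.rs h).L) : b.jx D0 ((b.rs h).φ v) = b.φ v := res_φ hv

theorem rs_φ (hv : v ∈ D0) (hL : v ∈ b.L) :
    (b.rs h).φ v = ((⟨_, b.Ex_mem hv hL⟩ : b.Ex D0) : Completion (b.Ex D0)) :=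
  (congrArg _ (b.jx_coe D0 ⟨_, b.Ex_mem hv hL⟩).symm).trans (jj _ _)

end Fb

variable {X : Type*} {F : Filter X} {S : Submodule ℂ H} {Kx : X → Type*}
  [∀ x, NormedAddCommGroup (Kx x)] [∀ x, InnerProductSpace ℂ (Kx x)] [∀ x, CompleteSpace (Kx x)]
  {b : ∀ x, Fb Z Ω (Kx x)}

namespace Sys

variable (s : Sys F S b)
include s

theorem all {ι : Sort*} [Countable ι] {p : X → ι → Prop} (h : ∀ i, ∀ᶠ x in F, p x i) :
    ∀ᶠ x in F, ∀ i, p x i :=
  haveI := s.cnt
  eventually_countable_forall.2 h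

theorem mem (hv : v ∈ S) : ∀ᶠ x in F, v ∈ (b x).L :=
  (s.fast (fun n => if n = 0 then v else 0) (fun n => by split_ifs; exacts [hv, S.zero_mem])
    (summable_of_ne_finset_zero (s := {0}) fun n hn => by simp_all)).mono fun x a => a.1 0

theorem lim {d : ℕ → H} (hv : v ∈ S) (hd : ∀ n, d n ∈ S) (h : Summable fun n => ‖v - d n‖ ^ 2) :
    ∀ᶠ x in F, v ∈ (b x).L ∧ (∀ n, d n ∈ (b x).L) ∧
      Tendsto (fun n => (b x).φ (d n)) atTop (𝓝 ((b x).φ v)) := by
  filter_upwards [s.mem hv, s.fast _ (fun n => S.sub_mem hv (hd n)) h] with x a c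
  have e : ∀ n, d n ∈ (b x).L := fun n => by simpa using (b x).L.sub_mem a (c.1 n)
  refine ⟨a, e, ?_⟩
  simpa only [Fb.sub a (e _), sub_sub_cancel, sub_zero] using c.2.const_sub ((b x).φ v)

theorem eq {v w : H} (hv : v ∈ S) (hw : w ∈ S) (h : ∀ᶠ x in F, (b x).φ v = (b x).φ w) : v = w := by
  have := s.glue _ (S.sub_mem hv hw) _ hv _ (S.sub_mem hv hw) _ hw (h.mono fun x a => by rw [a])
  rwa [← sub_eq_zero, ← inner_sub_right, inner_self_eq_zero, sub_eq_zero] at this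

end Sys

/-- **restriction** -/
theorem Sys.rs (s : Sys F ⊤ b) (hP : ∀ x, ∀ Y ∈ Z.commutant, Y ∈ (b x).P) {D0 : Submodule ℂ H}
    (h : Ω ∈ D0) {J : Type*} [Countable J] {w : J → H} (hw : ∀ i, w i ∈ D0.topologicalClosure)
    (k : ∀ᶠ x in F, ∀ v ∈ D0, v ∈ (b x).L ∧
      (b x).φ v ∈ (Submodule.span ℂ ((b x).φ '' Set.range w)).topologicalClosure) :
    Sys F D0.topologicalClosure (fun x => (b x).rs h) ∧ ∀ᶠ x in F,
      Dense (Submodule.span ℂ (((b x).rs h).φ '' Set.range w) : Set (Completion ((b x).Ex D0))) := by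
  have m : ∀ v ∈ D0.topologicalClosure, ∀ᶠ x in F, v ∈ ((b x).rs h).L := fun v hv => by
    obtain ⟨d, a, c⟩ := ex_fast hv
    filter_upwards [s.lim trivial (fun _ => trivial) c] with x e
    exact Fb.rs_L.2 ⟨e.1, mem_closure_of_tendsto e.2.2 (.of_forall fun n =>
      (b x).Ex_mem (a n) (e.2.1 n))⟩
  have dn : ∀ᶠ x in F, Dense (Submodule.span ℂ (((b x).rs h).φ '' Set.range w) :
      Set (Completion ((b x).Ex D0))) := by
    filter_upwards [k] with x a
    refine fun u => Completion.induction_on u isClosed_closure ?_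
    rintro ⟨_, v, c, rfl⟩
    rw [← Fb.jj ((b x).jx D0) (_ : (b x).Ex D0), Fb.jx_coe]
    refine map_mem_closure (adjoint ((b x).jx D0).toContinuousLinearMap).continuous (a v c).2
      fun u hu => ?_
    refine (Submodule.span_le (p := (Submodule.span ℂ _).comap
      (adjoint ((b x).jx D0).toContinuousLinearMap).toLinearMap)).2 ?_ hu
    rintro _ ⟨v, c, rfl⟩
    exact Submodule.subset_span ⟨v, c, rfl⟩
  refine ⟨⟨s.cnt, fun Y hY a c => ?_, fun d a c => ?_, fun E _ _ _ Λ a => ?_,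
    fun v1 a1 w1 a2 v2 a3 w2 a4 e => s.glue _ trivial _ trivial _ trivial _ trivial ?_⟩, dn⟩
  · filter_upwards [dn, s.all fun i => (m _ (hw i)).and ((m _ (a _ (hw i))).and (m _ (c _ (hw i))))]
      with x p q
    exact Fb.res_sat (hP x) Y hY _ (by rintro _ ⟨i, rfl⟩; exact q i) p
  · filter_upwards [s.fast d (fun _ => trivial) c, s.all fun n => m _ (a n)] with x p q
    exact ⟨q, ((adjoint ((b x).jx D0).toContinuousLinearMap).continuous.tendsto' 0 0
      (map_zero _)).comp p.2⟩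
  · filter_upwards [s.temp E Λ fun _ => trivial, s.all fun n => m _ (a (tot E n))] with x p q
    exact ⟨fun f => Fb.rs_L.2 ⟨p.1 f, tot_mem ⟨(b x).lin ∘ₗ Λ.toLinearMap.codRestrict _ p.1, p.2⟩ _
      (fun n => (Fb.rs_L.1 (q n)).2) f⟩,
      (adjoint ((b x).jx D0).toContinuousLinearMap).continuous.comp p.2⟩
  · filter_upwards [e, m _ a1, m _ a2, m _ a3, m _ a4] with x e p1 p2 p3 p4
    rwa [← ((b x).jx D0).inner_map_map, ← ((b x).jx D0).inner_map_map (((b x).rs h).φ v2),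
      Fb.rs_j p1, Fb.rs_j p2, Fb.rs_j p3, Fb.rs_j p4] at e

end

end Vale.Agent.N352.U
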